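import Mathlib

/-!
The averaged inequality for the sharp calibration at exponent `5/4`: for all finite probability
weights it follows from one inequality for pairs of nodes.
-/

namespace Vale.Agent.P371.Five

open Finset

/-- Gauge amplitude. -/
noncomputable def amp : ℝ := 1 / 5

/-- The bump `1 / (1 + z²/2)`. -/
noncomputable def bump (z : ℝ) : ℝ := 1 / (1 + z ^ 2 / 2)

/-- The pair kernel; `c` stands for the mean of the bump. -/
noncomputable def pairKer (c x y fx fy dx dy Px Py sl : ℝ) : ℝ :=
  sl - (dx + dy) / 2 + ((Py - Px) ^ 2 - (fy - fx) ^ 2) / 2 +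
    amp * ((y - x) ^ 2 * bump x * bump y / 4 -
      (y - x) * (bump y - bump x) * (Px + Py) +
      2 / 3 * (y - x) * (Px * bump y ^ 2 - Py * bump x ^ 2) +
      ((Py - fy) - (Px - fx)) * (y - x) * (bump x + bump y) +
      2 / 3 * c ^ 2 * (Py - Px) * (y - x) -
      c * (y - x) * ((y * bump y - x * bump x) / 2 + 2 * ((Py - fy) - (Px - fx)))) -
    amp ^ 2 * ((y - x) * (bump y - bump x)) ^ 2 * (3 / 2 + 1 / 3 * (bump x + bump y) ^ 2)

theorem bump_pos (z : ℝ) : 0 < bump z := by unfold bump; positivity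

theorem bump_le_one (z : ℝ) : bump z ≤ 1 := by
  unfold bump; rw [div_le_one (by positivity)]; nlinarith [sq_nonneg z]

theorem bump_circle (z : ℝ) : bump z ^ 2 + (z * bump z) ^ 2 / 2 = bump z := by
  unfold bump; field_simp

theorem slope_mul_bump (x y : ℝ) :
    y * bump y - x * bump x = (y - x) * ((1 - x * y / 2) * bump x * bump y) := by
  unfold bump; field_simp; ring

theorem slope_bump (x y : ℝ) :
    bump y - bump x = (y - x) * (-(x + y) / 2 * bump x * bump y) := by
  unfold bump; field_simp; ring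

variable {κ : Type*} [Fintype κ]

/-- The mean of `f` for the weights `p`. -/
def mean (p f : κ → ℝ) : ℝ := ∑ i, p i * f i

/-- The mean of a kernel for two independent copies. -/
def mean2 (p : κ → ℝ) (F : κ → κ → ℝ) : ℝ := ∑ i, ∑ j, p i * p j * F i j

theorem mean_mono {p : κ → ℝ} (hp : ∀ i, 0 ≤ p i) {f g : κ → ℝ} (h : ∀ i, f i ≤ g i) :
    mean p f ≤ mean p g := sum_le_sum fun i _ => mul_le_mul_of_nonneg_left (h i) (hp i)

theorem mean2_nonneg {p : κ → ℝ} (hp : ∀ i, 0 ≤ p i) {F : κ → κ → ℝ} (h : ∀ i j, 0 ≤ F i j) :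
    0 ≤ mean2 p F :=
  sum_nonneg fun i _ => sum_nonneg fun j _ => mul_nonneg (mul_nonneg (hp i) (hp j)) (h i j)

theorem mean2_add (p : κ → ℝ) (F G : κ → κ → ℝ) :
    mean2 p (fun i j => F i j + G i j) = mean2 p F + mean2 p G := by
  simp only [mean2, mul_add, sum_add_distrib]

theorem mean2_sub (p : κ → ℝ) (F G : κ → κ → ℝ) :
    mean2 p (fun i j => F i j - G i j) = mean2 p F - mean2 p G := by
  simp only [mean2, mul_sub, sum_sub_distrib]

theorem mean2_smul (p : κ → ℝ) (c : ℝ) (F : κ → κ → ℝ) :
    mean2 p (fun i j => c * F i j) = c * mean2 p F := by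
  simp only [mean2, mul_sum]
  exact sum_congr rfl fun i _ => sum_congr rfl fun j _ => by ring

theorem mean2_prod (p f g : κ → ℝ) : mean2 p (fun i j => f i * g j) = mean p f * mean p g := by
  simp only [mean2, mean, sum_mul_sum]
  exact sum_congr rfl fun i _ => sum_congr rfl fun j _ => by ring

theorem mean2_left {p : κ → ℝ} (h1 : ∑ i, p i = 1) (f : κ → ℝ) :
    mean2 p (fun i _ => f i) = mean p f := by
  have := mean2_prod p f (fun _ => 1)
  simpa [mean, h1] using this

theorem mean2_right {p : κ → ℝ} (h1 : ∑ i, p i = 1) (f : κ → ℝ) :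
    mean2 p (fun _ j => f j) = mean p f := by
  have := mean2_prod p (fun _ => 1) f
  simpa [mean, h1] using this

/-- The covariance of `f` and `g`. -/
def cov (p f g : κ → ℝ) : ℝ := mean p (fun i => f i * g i) - mean p f * mean p g

theorem mean2_cov {p : κ → ℝ} (h1 : ∑ i, p i = 1) (f g : κ → ℝ) :
    mean2 p (fun i j => (f j - f i) * (g j - g i)) = 2 * cov p f g := by
  have e : (fun i j => (f j - f i) * (g j - g i)) =
      fun i j => ((fun _ j => f j * g j) i j + (fun i _ => f i * g i) i j) -
        ((fun i j => f i * g j) i j + (fun i j => g i * f j) i j) := by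
    funext i j; ring
  rw [e, mean2_sub, mean2_add, mean2_add, mean2_left h1 fun i => f i * g i,
    mean2_right h1 fun i => f i * g i, mean2_prod, mean2_prod, cov]
  ring

theorem mean_sq_le {p : κ → ℝ} (hp : ∀ i, 0 ≤ p i) (h1 : ∑ i, p i = 1) (f : κ → ℝ) :
    mean p f ^ 2 ≤ mean p fun i => f i ^ 2 := by
  have h : 0 ≤ mean p fun i => (f i - mean p f) ^ 2 :=
    sum_nonneg fun i _ => mul_nonneg (hp i) (sq_nonneg _)
  have e : mean p (fun i => (f i - mean p f) ^ 2) =
      (mean p fun i => f i ^ 2) - mean p f ^ 2 := by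
    obtain ⟨m, hm⟩ : ∃ m, m = mean p f := ⟨_, rfl⟩
    rw [← hm]
    have : ∀ i, p i * (f i - m) ^ 2 = p i * f i ^ 2 - 2 * m * (p i * f i) + m ^ 2 * p i :=
      fun i => by ring
    simp only [mean, this, sum_add_distrib, sum_sub_distrib, ← mul_sum, h1]
    rw [show ∑ i, p i * f i = m from hm.symm]
    ring
  linarith

theorem mean2_sq_le {p : κ → ℝ} (hp : ∀ i, 0 ≤ p i) (h1 : ∑ i, p i = 1) (F : κ → κ → ℝ) :
    mean2 p F ^ 2 ≤ mean2 p fun i j => F i j ^ 2 := by
  have e : ∀ G : κ → κ → ℝ, mean2 p G = mean p fun i => mean p (G i) := fun G => by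
    simp only [mean2, mean, mul_sum, mul_assoc]
  rw [e, e]
  exact (mean_sq_le hp h1 _).trans (mean_mono hp fun i => mean_sq_le hp h1 _)

/-- **The averaged inequality.** If the pair kernel is nonnegative, the calibration is
superharmonic at every finite configuration. -/
theorem avg_le {p : κ → ℝ} (hp : ∀ i, 0 ≤ p i) (h1 : ∑ i, p i = 1) (z f fd P Hp : κ → ℝ)
    (sl : κ → κ → ℝ) (hone : ∀ i, Hp i + fd i - P i ^ 2 = 1)
    (hpair : ∀ i j, ∀ c ∈ Set.Icc (0 : ℝ) 1,
      0 ≤ pairKer c (z i) (z j) (f i) (f j) (fd i) (fd j) (P i) (P j) (sl i j))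
    (hmono : ∀ i j, 0 ≤ (P j - P i) * (z j - z i)) :
    let C := fun i => bump (z i)
    let N := fun i => z i * bump (z i)
    let zb := mean p z
    let Cb := mean p C
    let psi := fun i => f i + amp * (N i - zb * C i - Cb * z i)
    let B := mean p P + amp * (2 * cov p z C - 2 / 3 * cov p z fun i => C i ^ 2)
    1 ≤ mean p Hp +
      mean2 p (fun i j => sl i j + amp * ((1 - z i * z j / 2) * C i * C j -
        zb * (-(z i + z j) / 2 * C i * C j) - Cb)) -
      ((mean p fun i => psi i ^ 2) - mean p psi ^ 2) - B ^ 2 := by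
  intro C N zb Cb psi B
  have hC : ∀ i, C i ∈ Set.Icc (0 : ℝ) 1 := fun i => ⟨(bump_pos _).le, bump_le_one _⟩
  have hCb : Cb ∈ Set.Icc (0 : ℝ) 1 := by
    refine ⟨sum_nonneg fun i _ => mul_nonneg (hp i) (hC i).1, ?_⟩
    calc Cb ≤ mean p (fun _ => 1) := mean_mono hp fun i => (hC i).2
      _ = 1 := by simp [mean, h1]
  obtain ⟨d, hd⟩ : ∃ d : κ → ℝ, d = fun i => P i - f i := ⟨_, rfl⟩
  -- the pair kernel as a combination of covariance kernels
  obtain ⟨cv, hcv⟩ : ∃ cv : (κ → ℝ) → (κ → ℝ) → κ → κ → ℝ,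
      cv = fun u v i j => (u j - u i) * (v j - v i) := ⟨_, rfl⟩
  obtain ⟨rad, hrad⟩ : ∃ rad : κ → κ → ℝ, rad = fun i j => sl i j - (fd i + fd j) / 2 :=
    ⟨_, rfl⟩
  obtain ⟨π2, hπ2⟩ : ∃ π2 : κ → κ → ℝ, π2 = fun i j =>
      3 / 2 * ((z j - z i) * (C j - C i)) ^ 2 +
        1 / 3 * ((z j - z i) * (C j ^ 2 - C i ^ 2)) ^ 2 := ⟨_, rfl⟩
  have hker : ∀ i j, pairKer Cb (z i) (z j) (f i) (f j) (fd i) (fd j) (P i) (P j) (sl i j) =
      rad i j + 1 / 2 * cv P P i j - 1 / 2 * cv f f i j +
        amp * (1 / 2 * cv C C i j + 1 / 4 * cv N N i j + (cv P N i j - cv z (fun i => P i * C i) i j) -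
          cv (fun i => P i * z i) C i j +
          2 / 3 * (cv (fun i => P i * z i) (fun i => C i ^ 2) i j -
            cv P (fun i => z i * C i ^ 2) i j + Cb ^ 2 * cv P z i j) -
          (cv (fun i => z i * d i) C i j - cv z (fun i => d i * C i) i j - cv d N i j) -
          2 * Cb * cv d z i j - 1 / 2 * Cb * cv z N i j) -
        amp ^ 2 * π2 i j := by
    intro i j
    have hvv : 1 / 2 * cv C C i j + 1 / 4 * cv N N i j =
        (z j - z i) ^ 2 * C i * C j / 4 := by
      simp only [hcv, N, C, slope_mul_bump, slope_bump]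
      have h1 := bump_circle (z i)
      unfold bump at *
      field_simp
      ring
    rw [hπ2, hrad]
    simp only [hcv, hd, pairKer] at hvv ⊢
    simp only [C, N] at hvv ⊢
    linear_combination -amp * hvv
  have h0 : 0 ≤ mean2 p fun i j =>
      pairKer Cb (z i) (z j) (f i) (f j) (fd i) (fd j) (P i) (P j) (sl i j) :=
    mean2_nonneg hp fun i j => hpair i j Cb hCb
  simp only [hker, mean2_add, mean2_sub, mean2_smul] at h0
  simp only [hcv, mean2_cov h1] at h0
  -- the quadratic term
  obtain ⟨Y, hY⟩ : ∃ Y : κ → ℝ, Y = fun i => N i - zb * C i - Cb * z i := ⟨_, rfl⟩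
  obtain ⟨V, hV⟩ : ∃ V, V = cov p z fun i => C i ^ 2 := ⟨_, rfl⟩
  obtain ⟨D, hD⟩ : ∃ D, D = cov p z C := ⟨_, rfl⟩
  have hq : ∀ i, mean p (fun j => (z j - z i) * (C j - C i)) = Y i + mean p N := by
    intro i
    have : ∀ j, p j * ((z j - z i) * (C j - C i)) =
        p j * (z j * C j) - C i * (p j * z j) - z i * (p j * C j) + z i * C i * p j :=
      fun j => by ring
    simp only [mean, this, sum_add_distrib, sum_sub_distrib, ← mul_sum, h1, hY, zb, Cb, N, C]
    ring
  have hD2 : mean2 p (fun i j => (z j - z i) * (C j - C i)) = 2 * D := by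
    rw [hD, mean2_cov h1]
  have hV2 : mean2 p (fun i j => (z j - z i) * (C j ^ 2 - C i ^ 2)) = 2 * V := by
    rw [hV, mean2_cov h1]
  have hvar : (mean p fun i => Y i ^ 2) - mean p Y ^ 2 + (2 * D - 2 / 3 * V) ^ 2 ≤ mean2 p π2 := by
    have s1 : mean p (fun i => (Y i + mean p N) ^ 2) ≤
        mean2 p fun i j => ((z j - z i) * (C j - C i)) ^ 2 := by
      refine (mean_mono hp (g := fun i => mean p fun j => ((z j - z i) * (C j - C i)) ^ 2)
        fun i => ?_).trans (le_of_eq ?_)
      · rw [← hq i]; exact mean_sq_le hp h1 _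
      · simp only [mean2, mean, mul_sum, mul_assoc]
    have s2 := mean2_sq_le hp h1 fun i j => (z j - z i) * (C j - C i)
    have s3 := mean2_sq_le hp h1 fun i j => (z j - z i) * (C j ^ 2 - C i ^ 2)
    rw [hD2] at s2
    rw [hV2] at s3
    obtain ⟨n, hn⟩ : ∃ n, n = mean p N := ⟨_, rfl⟩
    obtain ⟨my, hmy⟩ : ∃ my, my = mean p Y := ⟨_, rfl⟩
    have hmy' : my + n = 2 * D := by
      rw [← hD2, hmy, hn]
      have : mean p (fun i => Y i + mean p N) = mean p Y + mean p N := by
        simp only [mean, mul_add, sum_add_distrib, ← sum_mul, h1, one_mul]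
      rw [← this]
      simp only [← hq]
      simp only [mean2, mean, mul_sum, mul_assoc]
    have e1 : mean p (fun i => (Y i + n) ^ 2) = (mean p fun i => Y i ^ 2) + 2 * n * my + n ^ 2 := by
      have : ∀ i, p i * (Y i + n) ^ 2 = p i * Y i ^ 2 + 2 * n * (p i * Y i) + n ^ 2 * p i :=
        fun i => by ring
      simp only [mean, this, sum_add_distrib, ← mul_sum, h1, hmy]
      ring
    rw [← hn, e1] at s1
    rw [hπ2, mean2_add, mean2_smul, mean2_smul, ← hmy]
    have e3 : 2 * n * my + n ^ 2 = (my + n) ^ 2 - my ^ 2 := by ring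
    rw [hmy'] at e3
    linarith [sq_nonneg (D + 2 * V / 3)]
  have hVpsi : (mean p fun i => psi i ^ 2) - mean p psi ^ 2 =
      ((mean p fun i => f i ^ 2) - mean p f ^ 2) + 2 * amp * cov p f Y +
        amp ^ 2 * ((mean p fun i => Y i ^ 2) - mean p Y ^ 2) := by
    have e : psi = fun i => f i + amp * Y i := by rw [hY]
    rw [e]
    have : ∀ i, p i * (f i + amp * Y i) ^ 2 =
        p i * f i ^ 2 + 2 * amp * (p i * (f i * Y i)) + amp ^ 2 * (p i * Y i ^ 2) :=
      fun i => by ring
    have t : ∀ i, p i * (f i + amp * Y i) = p i * f i + amp * (p i * Y i) := fun i => by ring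
    simp only [mean, cov, this, t, sum_add_distrib, ← mul_sum]
    ring
  have hE2 : Cb ^ 2 ≤ mean p fun i => C i ^ 2 := mean_sq_le hp h1 C
  have hPz : 0 ≤ cov p P z := by
    have := mean2_nonneg hp hmono
    rw [mean2_cov h1] at this
    linarith
  have hH : mean p Hp + mean p fd - mean p (fun i => P i ^ 2) = 1 := by
    simp only [mean, ← sum_add_distrib, ← sum_sub_distrib, ← mul_add, ← mul_sub, hone, mul_one, h1]
  have hsl : mean2 p (fun i j => sl i j + amp * ((1 - z i * z j / 2) * C i * C j -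
        zb * (-(z i + z j) / 2 * C i * C j) - Cb)) =
      mean2 p rad + mean p fd +
        amp * (Cb * Cb - mean p N * mean p N / 2 + zb * (mean p N * Cb) - Cb) := by
    have e : (fun i j => sl i j + amp * ((1 - z i * z j / 2) * C i * C j -
        zb * (-(z i + z j) / 2 * C i * C j) - Cb)) = fun i j =>
        rad i j + (1 / 2 * ((fun i _ => fd i) i j + (fun _ j => fd j) i j) +
          amp * ((fun i j => C i * C j) i j - 1 / 2 * (fun i j => N i * N j) i j +
            zb / 2 * ((fun i j => N i * C j) i j + (fun i j => C i * N j) i j) -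
            Cb * (fun _ _ => (1 : ℝ) * 1) i j)) := by
      funext i j; rw [hrad]; simp only [N, C]; ring
    rw [e]
    simp only [mean2_add, mean2_sub, mean2_smul, mean2_prod, mean2_left h1, mean2_right h1]
    simp only [one_mul, mean, ← sum_mul, h1, Cb]
    ring
  have hcirc : (mean p fun i => C i ^ 2) + (mean p fun i => N i ^ 2) / 2 = Cb := by
    simp only [mean, sum_div, ← sum_add_distrib, Cb]
    exact sum_congr rfl fun i _ => by
      simp only [C, N]; linear_combination p i * bump_circle (z i)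
  rw [hVpsi, hsl]
  simp only [B, ← hV, ← hD]
  have hA : 0 < amp := by norm_num [amp]
  have k1 := mul_le_mul_of_nonneg_left hvar (sq_nonneg amp)
  have k2 := mul_nonneg hA.le (mul_nonneg (sub_nonneg.2 hE2) hPz)
  have cY : cov p f Y = mean p (fun i => f i * N i) - zb * mean p (fun i => f i * C i) -
      Cb * mean p (fun i => f i * z i) - mean p f * (mean p N - 2 * (zb * Cb)) := by
    have e1 : ∀ i, p i * (f i * Y i) = p i * (f i * N i) - zb * (p i * (f i * C i)) -
        Cb * (p i * (f i * z i)) := fun i => by rw [hY]; ring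
    have e2 : ∀ i, p i * Y i = p i * N i - zb * (p i * C i) - Cb * (p i * z i) :=
      fun i => by rw [hY]; ring
    simp only [cov, mean, e1, e2, sum_sub_distrib, ← mul_sum]
    simp only [zb, Cb, mean]
    ring
  rw [cY]
  have m1 : ∀ u v : κ → ℝ, cov p (fun i => u i - v i) z = cov p u z - cov p v z := fun u v => by
    simp only [cov, mean, sub_mul, mul_sub, sum_sub_distrib]
    ring
  have m2 : ∀ u v w : κ → ℝ, mean p (fun i => u i * (v i - w i)) =
      mean p (fun i => u i * v i) - mean p (fun i => u i * w i) := fun u v w => by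
    simp only [mean, mul_sub, sum_sub_distrib]
  have b0 : mean p d = mean p P - mean p f := by simp only [hd, mean, mul_sub, sum_sub_distrib]
  have b1 : ∀ w : κ → ℝ, mean p (fun i => d i * w i) =
      mean p (fun i => P i * w i) - mean p (fun i => f i * w i) := fun w => by
    simp only [hd, mean, sub_mul, mul_sub, sum_sub_distrib]
  have b2 : mean p (fun i => z i * d i * C i) =
      mean p (fun i => P i * N i) - mean p (fun i => f i * N i) := by
    simp only [hd, mean, N, C, ← sum_sub_distrib]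
    exact sum_congr rfl fun i _ => by ring
  have b3 : mean p (fun i => z i * d i) =
      mean p (fun i => P i * z i) - mean p (fun i => f i * z i) := by
    simp only [hd, mean, ← sum_sub_distrib]
    exact sum_congr rfl fun i _ => by ring
  have b4 : mean p (fun i => z i * (d i * C i)) =
      mean p (fun i => P i * N i) - mean p (fun i => f i * N i) := by
    simp only [hd, mean, N, C, ← sum_sub_distrib]
    exact sum_congr rfl fun i _ => by ring
  have b5 : mean p (fun i => z i * (P i * C i)) = mean p (fun i => P i * N i) := by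
    simp only [mean, N, C]; exact sum_congr rfl fun i _ => by ring
  have b6 : mean p (fun i => P i * z i * C i) = mean p (fun i => P i * N i) := by
    simp only [mean, N, C]; exact sum_congr rfl fun i _ => by ring
  have b7 : mean p (fun i => z i * N i) = 2 * (1 - Cb) := by
    have : ∀ i, z i * N i = 2 * (1 - C i) := fun i => by
      simp only [N, C, bump]; field_simp; ring
    simp only [mean, this, Cb, mul_sub, sum_sub_distrib, mul_one]
    rw [← sum_mul, h1, mul_sum]
    simp only [mul_left_comm]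
    ring
  have b8 : mean p (fun i => P i * z i * C i ^ 2) = mean p (fun i => P i * (z i * C i ^ 2)) := by
    simp only [mean, mul_assoc]
  have sq' : ∀ u : κ → ℝ, mean p (fun i => u i * u i) = mean p (fun i => u i ^ 2) := fun u => by
    simp only [sq]
  have bN : mean p N = mean p (fun i => z i * C i) := rfl
  simp only [cov, b1, sq', b0, b2, b3, b4, b5, b6, b7, b8] at h0 k2 hPz ⊢
  simp only [hV, hD, cov, ← bN] at k1 ⊢
  try simp only [← bN] at h0
  have hc : amp * ((mean p fun i => C i ^ 2) + (mean p fun i => N i ^ 2) / 2) = amp * Cb := by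
    rw [hcirc]
  simp only [Cb, zb] at h0 k2 hc ⊢
  linarith [h0, k1, k2, hH, hc]

end Vale.Agent.P371.Five
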