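import Vale.Agent.P371.Five.Avg

/-!
The algebraic one-sided bounds that reduce the pair kernel to two rational inequalities.
-/

namespace Vale.Agent.P371.Five

/-- Lower bound for `√(1 + t²)`, `t ≥ 0`. -/
noncomputable def sqLow (t : ℝ) : ℝ := (2 + t + t ^ 2) / (2 + t)

/-- `(4/3) z (1 + b z + g z²) / (1 + e z)` for `z ≥ 0`. -/
noncomputable def ratP (b g e z : ℝ) : ℝ := 4 / 3 * z * (1 + b * z + g * z ^ 2) / (1 + e * z)

/-- Its divided difference. -/
noncomputable def ratPSlope (b g e x y : ℝ) : ℝ :=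
  4 / 3 * (1 + b * (x + y) + g * (x ^ 2 + x * y + y ^ 2) + e * x * y * (b + g * (x + y))) /
    ((1 + e * x) * (1 + e * y))

/-- Lower comparison for `P` on `z ≥ 0`: `P - loP` is monotone. -/
noncomputable def loP : ℝ → ℝ := ratP (55 / 100) (786 / 1000) (848 / 1000)

/-- Upper comparison for `P` on `z ≥ 0`: `hiP - P` is monotone. -/
noncomputable def hiP : ℝ → ℝ := ratP (58 / 100) (584 / 1000) (58 / 100)

/-- Lower comparison for `P - φ` on `z ≥ 0`: `P - φ - loD` is monotone. -/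
noncomputable def loD (z : ℝ) : ℝ :=
  z / (3 * (1 + 656 / 1000 * z ^ 2)) - 95 / 10000 * z ^ 4 / (1 + 625 / 1000 * z ^ 2) ^ 2

/-- Its divided difference. -/
noncomputable def loDSlope (x y : ℝ) : ℝ :=
  (1 - 656 / 1000 * x * y) / (3 * (1 + 656 / 1000 * x ^ 2) * (1 + 656 / 1000 * y ^ 2)) -
    95 / 10000 * ((x + y) * (x ^ 2 * (1 + 625 / 1000 * y ^ 2) + y ^ 2 * (1 + 625 / 1000 * x ^ 2))) /
      ((1 + 625 / 1000 * x ^ 2) ^ 2 * (1 + 625 / 1000 * y ^ 2) ^ 2)

/-- Pointwise lower bound for `P - φ` on `z ≥ 0`. -/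
noncomputable def ptD (z : ℝ) : ℝ := z / (3 + 21 / 10 * z ^ 2)

/-- `F z = (50/27) z √(1 + 16 z² / 25)` dominates the third derivative of `φ`; lower bound of its
trapezoid error over `u²` at two points `0 ≤ a ≤ b`. -/
noncomputable def trapSame (a b : ℝ) : ℝ :=
  -(32 / 27) * (1 / sqLow (4 / 5 * a) + 1 / sqLow (4 / 5 * b)) /
    (2 * (1 + sqLow (4 / 5 * a) * sqLow (4 / 5 * b) + 16 / 25 * a * b) ^ 2)

/-- The same at the two points `-a ≤ 0 ≤ b`. -/
noncomputable def trapMixed (a b : ℝ) : ℝ :=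
  -(32 / 27) * (1 / sqLow (4 / 5 * a) + 1 / sqLow (4 / 5 * b)) /
    (2 * (1 + (2 + 2 * (4 / 5 * a) ^ 2 + 2 * (4 / 5 * b) ^ 2) /
      (2 + (4 / 5 * a + 4 / 5 * b) ^ 2)) ^ 2)

/-- `p` times a lower bound of the pair kernel over `(y - x)²`: `R` bounds the trapezoid error,
`δ` the slope of `P - φ`, `p` is the slope of `P` and `PQ` bounds `P x + P y` towards zero. -/
noncomputable def pairLow (R δ p PQ x y : ℝ) : ℝ :=
  p * (R + δ * (p - δ / 2) + amp * (bump x * bump y / 4 +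
      PQ * (x + y) / 2 * bump x * bump y * (1 - (bump x + bump y) / 3) +
      δ * (bump x + bump y) - p * (bump x ^ 2 + bump y ^ 2) / 3) -
    amp ^ 2 * ((x + y) / 2 * bump x * bump y * (y - x)) ^ 2 *
      (3 / 2 + 1 / 3 * (bump x + bump y) ^ 2)) -
    3 / 8 * amp * ((1 - x * y / 2) * bump x * bump y / 2 + 2 * δ) ^ 2

end Vale.Agent.P371.Five
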