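import Vale.Agent.P371.Five.Gauge
import Vale.Agent.P371.QuarterCalib

/-!
The pointwise inequality for the sharp calibration at exponent `5/4`.
-/

namespace Vale.Agent.P371.Five

open Finset RealInnerProductSpace
open Vale.Agent.P371.Sharp (mom momD)
open Vale.Agent.P371.Quarter (pval pzd pdd expo)

variable {E : Type*} [NormedAddCommGroup E] [InnerProductSpace ℝ E]

/-- The exponent of the density in front of the product of the first and the `n`-th moment. -/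
noncomputable def expD (n : ℕ) : ℝ := -(2 + n) / 3

/-- The derivative of the calibration. -/
noncomputable def calQ (cg : ℝ) (a : ℕ → ℝ) (Na : ℕ) (d : ℕ → ℝ) (Nd : ℕ) (ε : ℝ)
    (T : E →L[ℝ] E) (p q : E) : ℝ :=
  cg * mom T p 4 +
    (∑ n ∈ range Na, a n * ((ε + ‖p‖ ^ 2) ^ expo n * momD T p q 1 n +
      expo n * (ε + ‖p‖ ^ 2) ^ (expo n - 1) * (2 * ⟪p, q⟫) * mom T p n)) -
    ∑ n ∈ range Nd, d n *
      ((ε + ‖p‖ ^ 2) ^ expD n * (momD T p q 1 1 * mom T p n + mom T p 1 * momD T p q 1 n) +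
      expD n * (ε + ‖p‖ ^ 2) ^ (expD n - 1) * (2 * ⟪p, q⟫) * (mom T p 1 * mom T p n))

variable [FiniteDimensional ℝ E]

/-- The calibration inequality at a point. -/
theorem point (G : Gauge) {T : E →L[ℝ] E} (hT : (T : E →ₗ[ℝ] E).IsSymmetric)
    {M R ε e Z U : ℝ} (hM : ∀ z, |⟪z, T z⟫| ≤ M * ‖z‖ ^ 2) (hM0 : 0 ≤ M) (hε : 0 < ε)
    (hZ : M ≤ Z * ε ^ (1 / 3 : ℝ)) (he0 : 0 ≤ e) (he1 : e ≤ 1) (hU : 0 ≤ U)
    (hUb : ∀ x ∈ Set.Icc (-Z) Z,
      |G.A x| ≤ U ∧ |x * G.A' x| ≤ U ∧ |G.D x| ≤ U ∧ |x * G.D' x| ≤ U)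
    (a : ℕ → ℝ) (Na : ℕ) (d : ℕ → ℝ) (Nd : ℕ)
    (happA : ∀ x ∈ Set.Icc (-Z) Z, |pval a Na x - G.A x| ≤ e ∧
      |pzd a Na x - x * G.A' x| ≤ e ∧
        ∀ y ∈ Set.Icc (-Z) Z, |pdd a Na x y - slope' G.A G.A' x y| ≤ e)
    (happD : ∀ x ∈ Set.Icc (-Z) Z, |pval d Nd x - G.D x| ≤ e ∧
      |pzd d Nd x - x * G.D' x| ≤ e ∧
        ∀ y ∈ Set.Icc (-Z) Z, |pdd d Nd x y - slope' G.D G.D' x y| ≤ e)
    (p q : E) (hR : ‖p‖ ^ 2 ≤ R) :
    (‖p‖ ^ 2) ^ (7 / 3 : ℝ) -
        (8 * G.c * ε * ((ε + R) ^ (4 / 3 : ℝ) + M ^ 4) +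
          e * (2 + Z + (2 + 3 * Z) ^ 2 * (2 * U + 1)) * (ε + R) ^ (7 / 3 : ℝ)) ≤
      ‖q‖ ^ 2 + calQ G.cg a Na d Nd ε T p q := by
  classical
  obtain ⟨b, hb⟩ : ∃ b, b = hT.eigenvectorBasis rfl := ⟨_, rfl⟩
  obtain ⟨s, hs⟩ : ∃ s, s = hT.eigenvalues rfl := ⟨_, rfl⟩
  have hTb : ∀ i, T (b i) = s i • b i := fun i => by
    rw [hb, hs]
    exact hT.apply_eigenvectorBasis rfl i
  have hsM : ∀ i, |s i| ≤ M := fun i => by
    have h1 := hM (b i)
    rw [hTb, inner_smul_right, real_inner_self_eq_norm_sq, b.orthonormal.1 i] at h1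
    simpa using h1
  have hpow : ∀ (k : ℕ) (i) (z : E), ⟪b i, (T ^ k) z⟫ = s i ^ k * ⟪b i, z⟫ := by
    intro k i
    induction k with
    | zero => intro z; simp
    | succ k ih =>
      intro z
      rw [pow_succ, show (T ^ k * T) z = (T ^ k) (T z) from rfl, ih, pow_succ,
        show ⟪b i, T z⟫ = ⟪T (b i), z⟫ from (hT _ _).symm, hTb, real_inner_smul_left]
      ring
  obtain ⟨w, hw⟩ : ∃ w : Fin (Module.finrank ℝ E) → ℝ, w = fun i => ⟪b i, p⟫ ^ 2 := ⟨_, rfl⟩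
  have hw0 : ∀ i, 0 ≤ w i := fun i => by rw [hw]; positivity
  have hmom : ∀ k, mom T p k = ∑ i, s i ^ k * w i := fun k => by
    rw [mom, ← b.sum_inner_mul_inner p ((T ^ k) p)]
    refine sum_congr rfl fun i _ => ?_
    rw [hpow, hw]
    dsimp only
    rw [real_inner_comm p (b i)]
    ring
  have hρ : ‖p‖ ^ 2 = ∑ i, w i := by
    rw [← real_inner_self_eq_norm_sq, show ⟪p, p⟫ = mom T p 0 by simp [mom], hmom]
    simp
  obtain ⟨σ, hσ⟩ : ∃ σ, σ = ε + ‖p‖ ^ 2 := ⟨_, rfl⟩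
  have hσ0 : 0 < σ := by rw [hσ]; positivity
  obtain ⟨t, ht⟩ : ∃ t, t = σ ^ (1 / 3 : ℝ) := ⟨_, rfl⟩
  have ht0 : 0 < t := ht ▸ Real.rpow_pos_of_pos hσ0 _
  have ht3 : t ^ 3 = σ := by
    rw [ht, ← Real.rpow_natCast, ← Real.rpow_mul hσ0.le]; norm_num
  have hexp : ∀ n : ℕ, σ ^ expo n = t ^ 2 / t ^ n := fun n => by
    rw [ht, ← Real.rpow_natCast _ 2, ← Real.rpow_natCast _ n, ← Real.rpow_mul hσ0.le,
      ← Real.rpow_mul hσ0.le, ← Real.rpow_sub hσ0]
    congr 1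
    rw [expo]; push_cast; ring
  have hexpD : ∀ n : ℕ, σ ^ expD n = 1 / (t ^ 2 * t ^ n) := fun n => by
    rw [one_div, ht, ← Real.rpow_natCast _ 2, ← Real.rpow_natCast _ n, ← Real.rpow_mul hσ0.le,
      ← Real.rpow_mul hσ0.le, ← Real.rpow_add hσ0, ← Real.rpow_neg hσ0.le]
    congr 1
    rw [expD]; push_cast; ring
  obtain ⟨z, hz⟩ : ∃ z : Fin (Module.finrank ℝ E) → ℝ, z = fun i => s i / t := ⟨_, rfl⟩
  have hsz : ∀ i, s i = t * z i := fun i => by rw [hz]; field_simp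
  have hZ0 : 0 ≤ Z := nonneg_of_mul_nonneg_left (hM0.trans hZ) (Real.rpow_pos_of_pos hε _)
  have hzZ : ∀ i, |z i| ≤ Z := fun i => by
    rw [hz]
    dsimp only
    rw [abs_div, abs_of_pos ht0, div_le_iff₀ ht0]
    have hεt : ε ^ (1 / 3 : ℝ) ≤ t := by
      rw [ht]; exact Real.rpow_le_rpow hε.le (by rw [hσ]; linarith [sq_nonneg ‖p‖]) (by norm_num)
    exact ((hsM i).trans hZ).trans (mul_le_mul_of_nonneg_left hεt hZ0)
  have hzmem : ∀ i, z i ∈ Set.Icc (-Z) Z := fun i => abs_le.1 (hzZ i)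
  obtain ⟨pw, hpw⟩ : ∃ pw : Fin (Module.finrank ℝ E) → ℝ, pw = fun i => w i / σ := ⟨_, rfl⟩
  obtain ⟨zb, hzb⟩ : ∃ zb, zb = ∑ j, pw j * z j := ⟨_, rfl⟩
  obtain ⟨Db, hDb⟩ : ∃ Db, Db = ∑ j, pw j * pval d Nd (z j) := ⟨_, rfl⟩
  obtain ⟨m, hm⟩ : ∃ m, m = ∑ j, pw j * ((2 * pval a Na (z j) - pzd a Na (z j)) / 3) :=
    ⟨_, rfl⟩
  obtain ⟨m', hm'⟩ : ∃ m', m' = ∑ j, pw j * ((2 * pval d Nd (z j) + pzd d Nd (z j)) / 3) :=
    ⟨_, rfl⟩
  have hmom1 : mom T p 1 = t ^ 4 * zb := by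
    rw [hmom, hzb, hpw, mul_sum]
    refine sum_congr rfl fun j _ => ?_
    rw [hsz, ← ht3]; field_simp
  have hmom0 : mom T p 0 = σ * ∑ j, pw j := by
    rw [hmom, hpw, mul_sum]
    refine sum_congr rfl fun j _ => ?_
    field_simp
  have hsumd : ∑ n ∈ range Nd, d n * σ ^ expD n * mom T p n = t * Db := by
    rw [hDb]
    simp only [hmom, mul_sum]
    rw [sum_comm]
    refine sum_congr rfl fun j _ => ?_
    rw [pval, hpw, mul_sum, mul_sum]
    refine sum_congr rfl fun n _ => ?_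
    rw [hexpD, hsz, mul_pow, ← ht3]
    field_simp
  obtain ⟨v, hv⟩ : ∃ v : E, v = (∑ n ∈ range Na,
      ((a n * σ ^ expo n) • (T ^ n) p + (a n * expo n * σ ^ (expo n - 1) * mom T p n) • p)) -
      ∑ n ∈ range Nd, ((d n * σ ^ expD n * mom T p n) • (T ^ 1) p +
        (d n * σ ^ expD n * mom T p 1) • (T ^ n) p +
        (d n * expD n * σ ^ (expD n - 1) * (mom T p 1 * mom T p n)) • p) := ⟨_, rfl⟩
  have hvb : ∀ i, ⟪b i, v⟫ = t ^ 2 * grad pw z (fun j => pval a Na (z j))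
      (fun j => pzd a Na (z j)) (fun j => pval d Nd (z j)) (fun j => pzd d Nd (z j)) i *
        ⟪b i, p⟫ := fun i => by
    have e1 : ∑ n ∈ range Na, a n * σ ^ expo n * s i ^ n = t ^ 2 * pval a Na (z i) := by
      rw [pval, mul_sum]
      refine sum_congr rfl fun n _ => ?_
      rw [hexp, hsz, mul_pow]
      field_simp
    have e2 : ∑ n ∈ range Na, a n * expo n * σ ^ (expo n - 1) * mom T p n = t ^ 2 * m := by
      rw [hm]
      simp only [hmom, mul_sum]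
      rw [sum_comm]
      refine sum_congr rfl fun j _ => ?_
      rw [pval, pzd, mul_sum, ← sum_sub_distrib, sum_div, hpw, mul_sum, mul_sum]
      refine sum_congr rfl fun n _ => ?_
      rw [Real.rpow_sub_one hσ0.ne', hexp, hsz, mul_pow, expo]
      field_simp
    have e4 : ∑ n ∈ range Nd, d n * σ ^ expD n * mom T p 1 * s i ^ n =
        t ^ 2 * (zb * pval d Nd (z i)) := by
      rw [pval, hmom1, mul_sum, mul_sum]
      refine sum_congr rfl fun n _ => ?_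
      rw [hexpD, hsz, mul_pow]
      field_simp
    have e5 : ∑ n ∈ range Nd, d n * expD n * σ ^ (expD n - 1) * (mom T p 1 * mom T p n) =
        -(t ^ 2 * (zb * m')) := by
      rw [hm', hmom1]
      simp only [hmom, mul_sum]
      rw [sum_comm, ← sum_neg_distrib]
      refine sum_congr rfl fun j _ => ?_
      rw [pval, pzd, mul_sum, ← sum_add_distrib, sum_div, hpw, mul_sum, mul_sum, mul_sum,
        ← sum_neg_distrib]
      refine sum_congr rfl fun n _ => ?_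
      rw [Real.rpow_sub_one hσ0.ne', hexpD, hsz, mul_pow, expD, ← ht3]
      field_simp
    rw [hv]
    simp only [inner_sub_right, inner_sum, inner_add_right, inner_smul_right, hpow]
    simp only [pow_one, sum_add_distrib, ← mul_assoc, ← sum_mul]
    simp only [← mul_assoc] at e5
    rw [e1, e2, hsumd, e4, e5, hsz i, grad, ← hzb, ← hDb, ← hm, ← hm']
    ring
  have hvn : ‖v‖ ^ 2 = t ^ 4 * ∑ i, w i * grad pw z (fun j => pval a Na (z j))
      (fun j => pzd a Na (z j)) (fun j => pval d Nd (z j)) (fun j => pzd d Nd (z j)) i ^ 2 := by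
    rw [← real_inner_self_eq_norm_sq, ← b.sum_inner_mul_inner v v, mul_sum]
    refine sum_congr rfl fun i _ => ?_
    rw [real_inner_comm, hvb, hw]
    ring
  have e6 : ∀ n, ∑ i, ∑ j, w i * w j * (∑ l ∈ range n, s i ^ l * s j ^ (n - 1 - l)) =
      ∑ l ∈ range n, mom T p l * mom T p (n - 1 - l) := fun n => by
    simp only [hmom, sum_mul_sum]
    simp only [mul_sum]
    rw [sum_congr rfl fun i (_ : i ∈ (univ : Finset (Fin (Module.finrank ℝ E)))) => sum_comm,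
      sum_comm]
    exact sum_congr rfl fun l _ => sum_congr rfl fun i _ => sum_congr rfl fun j _ => by ring
  have hpdd : ∀ (c : ℕ → ℝ) (N : ℕ) (r : ℕ → ℝ) (k : ℝ),
      (∀ n l m : ℕ, n = l + m + 1 → r n * (t ^ l * t ^ m) = k) →
      ∑ n ∈ range N, c n * (r n * ∑ l ∈ range n, mom T p l * mom T p (n - 1 - l)) =
        k * ∑ i, ∑ j, w i * w j * pdd c N (z i) (z j) := by
    intro c N r k hr
    simp only [← e6, pdd, mul_sum (range N), mul_sum (univ : Finset (Fin (Module.finrank ℝ E)))]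
    rw [sum_congr rfl fun i (_ : i ∈ (univ : Finset (Fin (Module.finrank ℝ E)))) => sum_comm,
      sum_comm]
    refine sum_congr rfl fun i _ => sum_congr rfl fun n _ => sum_congr rfl fun j _ => ?_
    simp only [mul_sum]
    refine sum_congr rfl fun l hl => ?_
    rw [mem_range] at hl
    obtain ⟨o, ho⟩ : ∃ o, n = l + o + 1 := ⟨n - 1 - l, by omega⟩
    rw [show n - 1 - l = o by omega, hsz, hsz, mul_pow, mul_pow, ← hr n l o ho]
    ring
  have hq : calQ G.cg a Na d Nd ε T p q = 2 * ⟪q, v⟫ + G.cg * (∑ i, s i ^ 4 * w i) +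
      t * (∑ i, ∑ j, w i * w j * pdd a Na (z i) (z j)) -
      t * zb * (∑ i, ∑ j, w i * w j * pdd d Nd (z i) (z j)) - t * Db * mom T p 0 ^ 2 := by
    have ea := hpdd a Na (fun n => t ^ 2 / t ^ n) t fun n l o h => by
      rw [h]; field_simp; ring
    have ed := hpdd d Nd (fun n => mom T p 1 * (1 / (t ^ 2 * t ^ n))) (t * zb)
      fun n l o h => by
      rw [h, hmom1]; field_simp; ring
    have e0 : ∑ n ∈ range Nd, d n * σ ^ expD n * mom T p n * mom T p 0 ^ 2 =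
        t * Db * mom T p 0 ^ 2 := by rw [← sum_mul, hsumd]
    rw [calQ, hmom 4, hv, inner_sub_right, inner_sum, inner_sum, mul_sub, mul_sum (range Na) _ (2 : ℝ),
      mul_sum (range Nd) _ (2 : ℝ), ← hσ, ← ea, ← ed, ← e0]
    rw [show ∑ n ∈ range Na, a n * (σ ^ expo n * momD T p q 1 n +
        expo n * σ ^ (expo n - 1) * (2 * ⟪p, q⟫) * mom T p n) =
      ∑ n ∈ range Na, (2 * ⟪q, (a n * σ ^ expo n) • (T ^ n) p +
        (a n * expo n * σ ^ (expo n - 1) * mom T p n) • p⟫ +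
        a n * (t ^ 2 / t ^ n * ∑ l ∈ range n, mom T p l * mom T p (n - 1 - l))) from
      sum_congr rfl fun n _ => by
        rw [momD, inner_add_right, inner_smul_right, inner_smul_right, ← hexp, real_inner_comm q p]
        ring,
      show ∑ n ∈ range Nd, d n * (σ ^ expD n *
          (momD T p q 1 1 * mom T p n + mom T p 1 * momD T p q 1 n) +
          expD n * σ ^ (expD n - 1) * (2 * ⟪p, q⟫) * (mom T p 1 * mom T p n)) =
      ∑ n ∈ range Nd, (2 * ⟪q, (d n * σ ^ expD n * mom T p n) • (T ^ 1) p +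
        (d n * σ ^ expD n * mom T p 1) • (T ^ n) p +
        (d n * expD n * σ ^ (expD n - 1) * (mom T p 1 * mom T p n)) • p⟫ +
        d n * σ ^ expD n * mom T p n * mom T p 0 ^ 2 +
        d n * (mom T p 1 * (1 / (t ^ 2 * t ^ n)) *
          ∑ l ∈ range n, mom T p l * mom T p (n - 1 - l))) from
      sum_congr rfl fun n _ => by
        rw [momD, momD, inner_add_right, inner_add_right, inner_smul_right, inner_smul_right,
          inner_smul_right, ← hexpD, real_inner_comm q p]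
        simp only [sum_range_one]
        ring]
    simp only [sum_add_distrib]
    ring
  have hsq : 0 ≤ ‖q‖ ^ 2 + 2 * ⟪q, v⟫ + ‖v‖ ^ 2 := by
    have h := sq_nonneg ‖q + v‖
    rw [norm_add_sq_real] at h
    linarith
  obtain ⟨R', hR'⟩ : ∃ R', R' = ε + R := ⟨_, rfl⟩
  have hσR : σ ≤ R' := by rw [hσ, hR']; linarith
  have hp0 : ∀ i, 0 ≤ pw i := fun i => by rw [hpw]; exact div_nonneg (hw0 i) hσ0.le
  have hpsum : ε / σ + ∑ i, pw i = 1 := by
    rw [hpw, ← sum_div, ← add_div, ← hρ, ← hσ, div_self hσ0.ne']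
  have hbr := approx_le G (p0 := ε / σ) hp0 (div_nonneg hε.le hσ0.le) hpsum he0 he1 hZ0 hU z hzZ
    (fun i => hUb _ (hzmem i))
    (fun i => pval a Na (z i)) (fun i => pzd a Na (z i)) (fun i => pval d Nd (z i))
    (fun i => pzd d Nd (z i)) (fun i j => pdd a Na (z i) (z j)) (fun i j => pdd d Nd (z i) (z j))
    (fun i => (happA _ (hzmem i)).1) (fun i => (happA _ (hzmem i)).2.1)
    (fun i => (happD _ (hzmem i)).1) (fun i => (happD _ (hzmem i)).2.1)
    (fun i j => (happA _ (hzmem i)).2.2 _ (hzmem j)) (fun i j => (happD _ (hzmem i)).2.2 _ (hzmem j))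
  simp only [aver, ← hzb, ← hDb] at hbr
  have h73 : σ ^ (7 / 3 : ℝ) = σ * t ^ 4 := by
    rw [ht, ← Real.rpow_natCast, ← Real.rpow_mul hσ0.le]
    nth_rw 2 [← Real.rpow_one σ]
    rw [← Real.rpow_add hσ0]; norm_num
  have hst : 0 ≤ σ * t ^ 4 := by positivity
  have hX := mul_le_mul_of_nonneg_left hbr hst
  have x1 : σ * t ^ 4 * (∑ i, pw i * (G.cg * z i ^ 4)) = G.cg * ∑ i, s i ^ 4 * w i := by
    simp only [mul_sum]
    refine sum_congr rfl fun i _ => ?_
    rw [hsz, hpw]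
    field_simp
  have x2 : σ * t ^ 4 * (∑ i, ∑ j, pw i * pw j *
      (pdd a Na (z i) (z j) - zb * pdd d Nd (z i) (z j))) =
      t * (∑ i, ∑ j, w i * w j * pdd a Na (z i) (z j)) -
        t * zb * (∑ i, ∑ j, w i * w j * pdd d Nd (z i) (z j)) := by
    simp only [mul_sum, ← sum_sub_distrib]
    refine sum_congr rfl fun i _ => sum_congr rfl fun j _ => ?_
    rw [hpw, ← ht3]
    field_simp
  have x3 : σ * t ^ 4 * (Db * (∑ j, pw j) ^ 2) = t * Db * mom T p 0 ^ 2 := by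
    rw [hmom0, ← ht3]; ring
  have x4 : σ * t ^ 4 * (∑ i, pw i * grad pw z (fun j => pval a Na (z j))
      (fun j => pzd a Na (z j)) (fun j => pval d Nd (z j)) (fun j => pzd d Nd (z j)) i ^ 2) =
      ‖v‖ ^ 2 := by
    rw [hvn]
    simp only [mul_sum]
    refine sum_congr rfl fun i _ => ?_
    simp only [hpw]
    field_simp
  have ht4 : t ^ 4 ≤ R' ^ (4 / 3 : ℝ) := by
    rw [ht, ← Real.rpow_natCast, ← Real.rpow_mul hσ0.le]
    norm_num
    exact Real.rpow_le_rpow hσ0.le hσR (by norm_num)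
  have x5 : σ * t ^ 4 * (ε / σ * (8 * G.c * (1 + ∑ i, pw i * z i ^ 4))) ≤
      8 * G.c * ε * (R' ^ (4 / 3 : ℝ) + M ^ 4) := by
    calc σ * t ^ 4 * (ε / σ * (8 * G.c * (1 + ∑ i, pw i * z i ^ 4)))
        = 8 * G.c * ε * (t ^ 4 + ∑ i, pw i * (t * z i) ^ 4) := by
          rw [show ∑ i, pw i * (t * z i) ^ 4 = t ^ 4 * ∑ i, pw i * z i ^ 4 by
            rw [mul_sum]; exact sum_congr rfl fun i _ => by ring]
          field_simp
      _ ≤ _ := by
          refine mul_le_mul_of_nonneg_left (add_le_add ht4 ?_)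
            (mul_nonneg (mul_nonneg (by norm_num) G.c_nonneg) hε.le)
          calc ∑ i, pw i * (t * z i) ^ 4 ≤ ∑ i, pw i * M ^ 4 := sum_le_sum fun i _ => by
                rw [← hsz]
                refine mul_le_mul_of_nonneg_left ?_ (hp0 i)
                rw [← (by decide : Even 4).pow_abs]
                exact pow_le_pow_left₀ (abs_nonneg _) (hsM i) 4
            _ ≤ M ^ 4 := by
                rw [← sum_mul]
                exact mul_le_of_le_one_left (by positivity)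
                  (by linarith [div_nonneg hε.le hσ0.le])
  have x6 : σ * t ^ 4 * (e * (2 + Z + (2 + 3 * Z) ^ 2 * (2 * U + 1))) ≤
      e * (2 + Z + (2 + 3 * Z) ^ 2 * (2 * U + 1)) * R' ^ (7 / 3 : ℝ) := by
    rw [mul_comm, ← h73]
    exact mul_le_mul_of_nonneg_left (Real.rpow_le_rpow hσ0.le hσR (by norm_num))
      (mul_nonneg he0 (by positivity))
  have x7 : (‖p‖ ^ 2) ^ (7 / 3 : ℝ) ≤ σ * t ^ 4 := by
    rw [← h73]
    exact Real.rpow_le_rpow (sq_nonneg _) (by rw [hσ]; linarith) (by norm_num)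
  simp only [mul_sub (σ * t ^ 4), mul_add (σ * t ^ 4) _ (∑ i, ∑ j, _), mul_one, x1, x2, x3, x4] at hX
  rw [← hR', hq]
  linarith

end Vale.Agent.P371.Five
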