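import Vale.Agent.P371.Five.PolyPos

/-!
The signs of all coefficients of an integer polynomial in two variables from one integer value:
at a point large against the coefficients they are the digits of the value.
-/

namespace Vale.Agent.P371.Five

/-- Value of a coefficient list at an integer. -/
def valI (X : ℤ) : List ℤ → ℤ
  | [] => 0
  | a :: p => a + X * valI X p

/-- Value of a table at two integers. -/
def valIT (Y X : ℤ) (p : List (List ℤ)) : ℤ := valI Y (p.map (valI X))

/-- Sum of absolute values. -/
def absC : List ℤ → ℤ
  | [] => 0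
  | a :: p => |a| + absC p

/-- Sum of absolute values of a table. -/
def absT : List (List ℤ) → ℤ
  | [] => 0
  | c :: p => absC c + absT p

theorem absC_nonneg : ∀ p, 0 ≤ absC p
  | [] => le_rfl
  | _ :: p => add_nonneg (abs_nonneg _) (absC_nonneg p)

theorem absT_nonneg : ∀ p, 0 ≤ absT p
  | [] => le_rfl
  | c :: p => add_nonneg (absC_nonneg c) (absT_nonneg p)

theorem absC_addC : ∀ p q, absC (addC p q) ≤ absC p + absC q
  | [], q => by simp [addC, absC]
  | a :: p, [] => by simp [addC, absC]
  | a :: p, b :: q => by
    simp only [addC, absC]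
    linarith [abs_add_le a b, absC_addC p q]

theorem absC_map (a : ℤ) : ∀ q, absC (q.map (a * ·)) = |a| * absC q
  | [] => by simp [absC]
  | b :: q => by simp [absC, absC_map a q, abs_mul, mul_add]

theorem absC_mulC : ∀ p q, absC (mulC p q) ≤ absC p * absC q
  | [], q => by simp [mulC, absC]
  | a :: p, q => by
    simp only [mulC]
    refine (absC_addC _ _).trans ?_
    simp only [absC, absC_map, abs_zero, zero_add, add_mul]
    linarith [absC_mulC p q]

theorem absT_addT : ∀ p q, absT (addT p q) ≤ absT p + absT q
  | [], q => by simp [addT, absT]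
  | c :: p, [] => by simp [addT, absT]
  | c :: p, d :: q => by
    simp only [addT, absT]
    linarith [absC_addC c d, absT_addT p q]

theorem absT_map (c : List ℤ) : ∀ q, absT (q.map (mulC c)) ≤ absC c * absT q
  | [] => by simp [absT]
  | d :: q => by
    simp only [List.map_cons, absT, mul_add]
    linarith [absC_mulC c d, absT_map c q]

theorem absT_mulT : ∀ p q, absT (mulT p q) ≤ absT p * absT q
  | [], q => by simp [mulT, absT]
  | c :: p, q => by
    simp only [mulT]
    refine (absT_addT _ _).trans ?_
    simp only [absT, absC, zero_add, add_mul]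
    linarith [absT_map c q, absT_mulT p q]

theorem length_addC : ∀ p q, (addC p q).length ≤ max p.length q.length
  | [], q => by simp [addC]
  | a :: p, [] => by simp [addC]
  | a :: p, b :: q => by
    simp only [addC, List.length_cons]
    have := length_addC p q
    omega

theorem length_mulC : ∀ p q, (mulC p q).length ≤ p.length + max q.length 1 - 1
  | [], q => by simp [mulC]
  | a :: p, q => by
    simp only [mulC]
    refine (length_addC _ _).trans ?_
    have := length_mulC p q
    simp only [List.length_map, List.length_cons]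
    omega

theorem length_addT : ∀ p q, (addT p q).length ≤ max p.length q.length
  | [], q => by simp [addT]
  | a :: p, [] => by simp [addT]
  | a :: p, b :: q => by
    simp only [addT, List.length_cons]
    have := length_addT p q
    omega

theorem length_mulT : ∀ p q, (mulT p q).length ≤ p.length + max q.length 1 - 1
  | [], q => by simp [mulT]
  | a :: p, q => by
    simp only [mulT]
    refine (length_addT _ _).trans ?_
    have := length_mulT p q
    simp only [List.length_map, List.length_cons]
    omega

theorem rows_addT {m : ℕ} : ∀ {p q : List (List ℤ)}, (∀ c ∈ p, c.length ≤ m) →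
    (∀ c ∈ q, c.length ≤ m) → ∀ c ∈ addT p q, c.length ≤ m
  | [], q, _, hq => by simpa [addT] using hq
  | a :: p, [], hp, _ => by simpa [addT] using hp
  | a :: p, b :: q, hp, hq => by
    intro c hc
    simp only [addT, List.mem_cons] at hc
    rcases hc with rfl | hc
    · have := length_addC a b
      have := hp a List.mem_cons_self
      have := hq b List.mem_cons_self
      omega
    · exact rows_addT (fun d hd => hp d (List.mem_cons_of_mem _ hd))
        (fun d hd => hq d (List.mem_cons_of_mem _ hd)) c hc

theorem rows_mulT {m n : ℕ} (hn : 1 ≤ n) : ∀ {p q : List (List ℤ)}, (∀ c ∈ p, c.length ≤ m) →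
    (∀ c ∈ q, c.length ≤ n) → ∀ c ∈ mulT p q, c.length ≤ m + n - 1
  | [], q, _, _ => by simp [mulT]
  | a :: p, q, hp, hq => by
    intro c hc
    simp only [mulT] at hc
    refine rows_addT ?_ ?_ c hc
    · intro d hd
      simp only [List.mem_map] at hd
      obtain ⟨e, he, rfl⟩ := hd
      have := length_mulC a e
      have := hp a List.mem_cons_self
      have := hq e he
      omega
    · intro d hd
      rcases List.mem_cons.1 hd with rfl | hd
      · simp
      · exact rows_mulT hn (fun d hd => hp d (List.mem_cons_of_mem _ hd)) hq d hd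

theorem valI_addC (X : ℤ) : ∀ p q, valI X (addC p q) = valI X p + valI X q
  | [], q => by simp [addC, valI]
  | a :: p, [] => by simp [addC, valI]
  | a :: p, b :: q => by simp [addC, valI, valI_addC X p q]; ring

theorem valI_map (X a : ℤ) : ∀ q, valI X (q.map (a * ·)) = a * valI X q
  | [] => by simp [valI]
  | b :: q => by simp [valI, valI_map X a q]; ring

theorem valI_mulC (X : ℤ) : ∀ p q, valI X (mulC p q) = valI X p * valI X q
  | [], q => by simp [mulC, valI]
  | a :: p, q => by simp [mulC, valI, valI_addC, valI_map, valI_mulC X p q]; ring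

theorem valIT_addT (Y X : ℤ) : ∀ p q, valIT Y X (addT p q) = valIT Y X p + valIT Y X q
  | [], q => by simp [addT, valIT, valI]
  | c :: p, [] => by simp [addT, valIT, valI]
  | c :: p, d :: q => by
    have := valIT_addT Y X p q
    simp only [valIT] at this
    simp [addT, valIT, valI, valI_addC, this]; ring

theorem valIT_map (Y X : ℤ) (c : List ℤ) :
    ∀ q, valIT Y X (q.map (mulC c)) = valI X c * valIT Y X q
  | [] => by simp [valIT, valI]
  | d :: q => by
    have := valIT_map Y X c q
    simp only [valIT] at this
    simp only [valIT, List.map_cons, valI, valI_mulC, this]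
    ring

theorem valIT_mulT (Y X : ℤ) : ∀ p q, valIT Y X (mulT p q) = valIT Y X p * valIT Y X q
  | [], q => by simp [mulT, valIT, valI]
  | c :: p, q => by
    have h := valIT_mulT Y X p q
    simp only [mulT, valIT_addT, valIT_map]
    simp only [valIT] at h ⊢
    simp only [List.map_cons, valI, h]
    ring

theorem abs_valI_le {X : ℤ} (hX : 1 ≤ X) : ∀ p, |valI X p| ≤ absC p * X ^ p.length
  | [] => by simp [valI, absC]
  | a :: p => by
    have h := mul_le_mul_of_nonneg_left (abs_valI_le hX p) (by linarith : (0 : ℤ) ≤ X)
    have h2 : (1 : ℤ) ≤ X ^ (p.length + 1) := one_le_pow₀ hX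
    simp only [valI, absC, List.length_cons]
    have := abs_add_le a (X * valI X p)
    rw [abs_mul, abs_of_nonneg (by linarith : (0 : ℤ) ≤ X)] at this
    have h3 : X * (absC p * X ^ p.length) = absC p * X ^ (p.length + 1) := by ring
    nlinarith [abs_nonneg a]

theorem absC_le_absT : ∀ {p : List (List ℤ)}, ∀ c ∈ p, absC c ≤ absT p
  | d :: p, c, h => by
    rcases List.mem_cons.1 h with rfl | h
    · simp only [absT]; linarith [absT_nonneg p]
    · simp only [absT]; linarith [absC_le_absT c h, absC_nonneg d]

theorem abs_le_absC : ∀ {p : List ℤ}, ∀ x ∈ p, |x| ≤ absC p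
  | a :: p, x, h => by
    rcases List.mem_cons.1 h with rfl | h
    · simp only [absC]; linarith [absC_nonneg p]
    · simp only [absC]; linarith [abs_le_absC x h, abs_nonneg a]

/-- The digits of `N` in base `X` are below `X / 2` and satisfy `P`. -/
def digitsOK (X : ℤ) (P : ℤ → Bool) : ℕ → ℤ → Bool
  | 0, _ => true
  | n + 1, N => decide (2 * (N % X) < X) && (P (N % X) && digitsOK X P n (N / X))

theorem digitsOK_sound {X : ℤ} {P : ℤ → Bool} : ∀ {c : List ℤ} {n : ℕ}, c.length ≤ n →
    (∀ x ∈ c, 2 * |x| < X) → digitsOK X P n (valI X c) = true → ∀ x ∈ c, 0 ≤ x ∧ P x = true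
  | [], _, _, _, _ => by simp
  | a :: c, 0, h, _, _ => by simp at h
  | a :: c, n + 1, hn, hb, h => by
    simp only [digitsOK, Bool.and_eq_true] at h
    obtain ⟨hd0, hP, hr⟩ := h
    have hd : 2 * (valI X (a :: c) % X) < X := of_decide_eq_true hd0
    simp only [valI] at hd hP hr
    have ha := hb a List.mem_cons_self
    have hX : 0 < X := by linarith [abs_nonneg a]
    rw [Int.add_mul_emod_self_left] at hd hP
    have ha0 : 0 ≤ a := by
      by_contra hneg
      have : a % X = a + X := by
        rw [← Int.add_emod_right, Int.emod_eq_of_lt] <;> linarith [abs_of_neg (not_le.1 hneg)]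
      linarith [abs_of_neg (not_le.1 hneg)]
    have hlt : a < X := by linarith [abs_of_nonneg ha0]
    rw [Int.emod_eq_of_lt ha0 hlt] at hP
    rw [Int.add_mul_ediv_left _ _ hX.ne', Int.ediv_eq_zero_of_lt ha0 hlt, zero_add] at hr
    have hlen : c.length ≤ n := by simpa using hn
    intro x hx
    rcases List.mem_cons.1 hx with rfl | hx
    · exact ⟨ha0, hP⟩
    · exact digitsOK_sound hlen (fun y hy => hb y (List.mem_cons_of_mem _ hy)) hr x hx

namespace Expr

/-- Bound on the sum of absolute values of the coefficients. -/
def nrm : Expr → ℕ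
  | A => 1
  | T => 1
  | const n => n.natAbs
  | add e f => nrm e + nrm f
  | mul e f => nrm e * nrm f

/-- Bound on the number of rows. -/
def rowsB : Expr → ℕ
  | A => 2
  | T => 1
  | const _ => 1
  | add e f => max (rowsB e) (rowsB f)
  | mul e f => rowsB e + rowsB f - 1

/-- Bound on the length of the rows. -/
def colsB : Expr → ℕ
  | A => 1
  | T => 2
  | const _ => 1
  | add e f => max (colsB e) (colsB f)
  | mul e f => colsB e + colsB f - 1

/-- Value at two integers. -/
def evalI (Y X : ℤ) : Expr → ℤ
  | A => Y
  | T => X
  | const n => n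
  | add e f => evalI Y X e + evalI Y X f
  | mul e f => evalI Y X e * evalI Y X f

/-- All coefficients are nonnegative, read off from one value. -/
def kron (e : Expr) : Bool :=
  let X : ℤ := 2 * (e.nrm : ℤ) + 2
  let m := e.colsB
  let Y : ℤ := X ^ (m + 1)
  digitsOK Y (digitsOK X (fun _ => true) m) e.rowsB (e.evalI Y X)

theorem absT_coeffs : ∀ e : Expr, absT e.coeffs ≤ e.nrm
  | .A => by simp [coeffs, absT, absC, nrm]
  | .T => by simp [coeffs, absT, absC, nrm]
  | .const n => by simp [coeffs, absT, absC, nrm]
  | .add e f => by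
    simp only [coeffs, nrm, Nat.cast_add]
    linarith [absT_addT e.coeffs f.coeffs, absT_coeffs e, absT_coeffs f]
  | .mul e f => by
    simp only [coeffs, nrm, Nat.cast_mul]
    exact (absT_mulT _ _).trans (mul_le_mul (absT_coeffs e) (absT_coeffs f) (absT_nonneg _)
      (Nat.cast_nonneg _))

theorem one_le_rowsB : ∀ e : Expr, 1 ≤ e.rowsB
  | .A => by simp [rowsB]
  | .T => by simp [rowsB]
  | .const n => by simp [rowsB]
  | .add e f => (one_le_rowsB e).trans (le_max_left _ _)
  | .mul e f => by
    have := one_le_rowsB e
    have := one_le_rowsB f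
    simp only [rowsB]; omega

theorem one_le_colsB : ∀ e : Expr, 1 ≤ e.colsB
  | .A => by simp [colsB]
  | .T => by simp [colsB]
  | .const n => by simp [colsB]
  | .add e f => (one_le_colsB e).trans (le_max_left _ _)
  | .mul e f => by
    have := one_le_colsB e
    have := one_le_colsB f
    simp only [colsB]; omega

theorem length_coeffs : ∀ e : Expr, e.coeffs.length ≤ e.rowsB
  | .A => by simp [coeffs, rowsB]
  | .T => by simp [coeffs, rowsB]
  | .const n => by simp [coeffs, rowsB]
  | .add e f => by
    have := length_addT e.coeffs f.coeffs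
    have := length_coeffs e
    have := length_coeffs f
    simp only [coeffs, rowsB]; omega
  | .mul e f => by
    have := length_mulT e.coeffs f.coeffs
    have := one_le_rowsB e
    have := one_le_rowsB f
    have := length_coeffs e
    have := length_coeffs f
    simp only [coeffs, rowsB]; omega

theorem cols_coeffs : ∀ e : Expr, ∀ c ∈ e.coeffs, c.length ≤ e.colsB
  | .A => by simp [coeffs, colsB]
  | .T => by simp [coeffs, colsB]
  | .const n => by simp [coeffs, colsB]
  | .add e f => rows_addT (fun c hc => (cols_coeffs e c hc).trans (le_max_left _ _))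
      (fun c hc => (cols_coeffs f c hc).trans (le_max_right _ _))
  | .mul e f => rows_mulT (one_le_colsB f) (cols_coeffs e) (cols_coeffs f)

theorem valIT_coeffs (Y X : ℤ) : ∀ e : Expr, valIT Y X e.coeffs = e.evalI Y X
  | .A => by simp [coeffs, valIT, valI, evalI]
  | .T => by simp [coeffs, valIT, valI, evalI]
  | .const n => by simp [coeffs, valIT, valI, evalI]
  | .add e f => by simp [coeffs, valIT_addT, evalI, valIT_coeffs Y X e, valIT_coeffs Y X f]
  | .mul e f => by simp [coeffs, valIT_mulT, evalI, valIT_coeffs Y X e, valIT_coeffs Y X f]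

theorem kron_sound (e : Expr) (h : e.kron = true) : nonnegT e.coeffs = true := by
  simp only [kron] at h
  generalize hX : 2 * (e.nrm : ℤ) + 2 = X at h
  rw [← valIT_coeffs, valIT] at h
  have hn : (0 : ℤ) ≤ e.nrm := Nat.cast_nonneg _
  have hX1 : 1 ≤ X := by linarith
  have hrow : ∀ x ∈ e.coeffs.map (valI X), 2 * |x| < X ^ (e.colsB + 1) := by
    intro x hx
    obtain ⟨c, hc, rfl⟩ := List.mem_map.1 hx
    have h1 := abs_valI_le hX1 c
    have h2 : X ^ c.length ≤ X ^ e.colsB := pow_le_pow_right₀ hX1 (cols_coeffs e c hc)
    have h3 := (absC_le_absT c hc).trans (absT_coeffs e)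
    have h4 : 0 < X ^ e.colsB := pow_pos (by linarith) _
    have h5 := mul_le_mul h3 h2 (pow_nonneg (by linarith) _) hn
    rw [pow_succ]
    nlinarith
  have := digitsOK_sound (by simpa using length_coeffs e) hrow h
  simp only [nonnegT, List.all_eq_true, decide_eq_true_eq]
  intro c hc
  obtain ⟨-, hP⟩ := this (valI X c) (List.mem_map.2 ⟨c, hc, rfl⟩)
  have hb : ∀ x ∈ c, 2 * |x| < X := fun x hx => by
    linarith [(abs_le_absC x hx).trans ((absC_le_absT c hc).trans (absT_coeffs e))]
  exact fun x hx => (digitsOK_sound (cols_coeffs e c hc) hb hP x hx).1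

end Expr

end Vale.Agent.P371.Five
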