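import Vale.Agent.P371.Five.Glue
import Vale.Agent.P371.Five.Bounds

/-!
The pair inequality from one-sided facts about the profile and algebraic inequalities.
-/

namespace Vale.Agent.P371.Five

open Set

/-- `√(1 + 16 z² / 25)`. -/
noncomputable def root (z : ℝ) : ℝ := Real.sqrt (1 + 16 / 25 * z ^ 2)

/-- The comparison function for the trapezoidal error. -/
noncomputable def cmpF (z : ℝ) : ℝ := 50 / 27 * z * root z

/-- Its derivative. -/
noncomputable def cmpF' (z : ℝ) : ℝ := 50 / 27 * (1 + 32 / 25 * z ^ 2) / root z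

/-- The one-sided facts about the profile. -/
structure Facts (phi dphi P : ℝ → ℝ) : Prop where
  deriv : ∀ z, HasDerivAt phi (dphi z) z
  oddP : ∀ z, P (-z) = -P z
  oddPhi : ∀ z, phi (-z) = -phi z
  evenDphi : ∀ z, dphi (-z) = dphi z
  trap : ConcaveOn ℝ univ fun z => dphi z - cmpF' z
  low : MonotoneOn (fun z => P z - loP z) (Ici 0)
  high : MonotoneOn (fun z => hiP z - P z) (Ici 0)
  dinc : MonotoneOn (fun z => P z - phi z - loD z) (Ici 0)
  dpt : ∀ z, 0 ≤ z → ptD z ≤ P z - phi z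
  dmax : MonotoneOn (fun z => z / 3 - (P z - phi z)) (Ici 0)

/-- The algebraic inequality for two points on one side. -/
def SameSide : Prop := ∀ a b : ℝ, 0 ≤ a → a ≤ b →
  0 ≤ pairLow (trapSame a b) (loDSlope a b) (ratPSlope (55 / 100) (786 / 1000) (848 / 1000) a b)
      (loP a + loP b) a b ∧
    0 ≤ pairLow (trapSame a b) (loDSlope a b) (ratPSlope (58 / 100) (584 / 1000) (58 / 100) a b)
      (loP a + loP b) a b

/-- The algebraic inequality for two points on opposite sides. -/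
def OppSide : Prop := ∀ a b : ℝ, 0 ≤ a → a ≤ b → 0 < b →
  0 ≤ pairLow (trapMixed a b)
      ((3 + 21 / 10 * a * b) / ((3 + 21 / 10 * a ^ 2) * (3 + 21 / 10 * b ^ 2)))
      ((loP a + loP b) / (a + b)) (loP b - loP a) (-a) b ∧
    0 ≤ pairLow (trapMixed a b)
      ((3 + 21 / 10 * a * b) / ((3 + 21 / 10 * a ^ 2) * (3 + 21 / 10 * b ^ 2)))
      ((hiP a + hiP b) / (a + b)) (loP b - loP a) (-a) b

/-- A secant. -/
noncomputable def sec (f : ℝ → ℝ) (x y : ℝ) : ℝ := (f y - f x) / (y - x)

/-- The trapezoidal error of `cmpF` divided by `(y - x)²`. -/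
noncomputable def trapF (x y : ℝ) : ℝ :=
  -(32 / 27 * (root x + root y)) /
    (2 * root x * root y * (1 + root x * root y + 16 / 25 * x * y) ^ 2)

/-- The part of the lower kernel independent of the two secants. -/
noncomputable def lowConst (R Q x y : ℝ) : ℝ :=
  R + amp * (bump x * bump y / 4 +
      Q * ((x + y) / 2 * bump x * bump y) * (1 - (bump x + bump y) / 3)) -
    amp ^ 2 * ((x + y) / 2 * bump x * bump y) ^ 2 * (y - x) ^ 2 *
      (3 / 2 + 1 / 3 * (bump x + bump y) ^ 2)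

/-- The lower kernel; `e` stands for the secant of `P - φ` and `p` for that of `P`. -/
noncomputable def lowKer (R Q x y e p : ℝ) : ℝ :=
  lowConst R Q x y + e * (p - e / 2) + amp * (e * (bump x + bump y) -
    p * (bump x ^ 2 + bump y ^ 2) / 3 -
    3 / (8 * p) * ((1 - x * y / 2) * bump x * bump y / 2 + 2 * e) ^ 2)

theorem root_pos (z : ℝ) : 0 < root z := Real.sqrt_pos.2 (by positivity)

theorem root_sq (z : ℝ) : root z ^ 2 = 1 + 16 / 25 * z ^ 2 := Real.sq_sqrt (by positivity)

theorem hasDerivAt_cmpF (z : ℝ) : HasDerivAt cmpF (cmpF' z) z := by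
  have h1 : HasDerivAt (fun z : ℝ => 1 + 16 / 25 * z ^ 2) (16 / 25 * (2 * z)) z := by
    simpa using ((hasDerivAt_pow 2 z).const_mul (16 / 25 : ℝ)).const_add 1
  have h2 := ((hasDerivAt_id z).const_mul (50 / 27 : ℝ)).mul (h1.sqrt (by positivity))
  refine h2.congr_deriv ?_
  have hr := root_pos z
  have hs := root_sq z
  rw [cmpF']
  simp only [id_eq, mul_one]
  rw [show Real.sqrt (1 + 16 / 25 * z ^ 2) = root z from rfl]
  field_simp
  linear_combination (25 : ℝ) * hs

theorem cmpF_trap {x y : ℝ} (h : x < y) :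
    sec cmpF x y - (cmpF' x + cmpF' y) / 2 = (y - x) ^ 2 * trapF x y := by
  have ha := root_pos x
  have hb := root_pos y
  have sa := root_sq x
  have sb := root_sq y
  have hu : y - x ≠ 0 := sub_ne_zero.2 h.ne'
  have hD : 0 < 1 + root x * root y + 16 / 25 * x * y := by
    nlinarith [sq_nonneg (root x - root y), mul_pos ha hb, sq_nonneg (x + y)]
  unfold sec cmpF cmpF' trapF
  obtain ⟨a, hra⟩ : ∃ a, a = root x := ⟨_, rfl⟩
  obtain ⟨b, hrb⟩ : ∃ b, b = root y := ⟨_, rfl⟩
  simp only [← hra, ← hrb] at ha hb sa sb hD ⊢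
  have hk : (y * a - x * b) * (1 + a * b + 16 / 25 * x * y) = (y - x) * (a + b) := by
    linear_combination y * b * sa - x * a * sb
  have hq : y * a - x * b = (y - x) * (a + b) / (1 + a * b + 16 / 25 * x * y) := by
    rw [eq_div_iff hD.ne']; exact hk
  have e1 : (50 / 27 * y * b - 50 / 27 * x * a) / (y - x) -
      (50 / 27 * (1 + 32 / 25 * x ^ 2) / a + 50 / 27 * (1 + 32 / 25 * y ^ 2) / b) / 2 =
      -(32 / 27) * (y * a - x * b) ^ 2 / (2 * a * b * (a + b)) := by
    have hab : a + b ≠ 0 := by positivity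
    field_simp
    grind
  rw [e1, hq]
  field_simp

/-- A function whose derivative is concave lies above its trapezoid. -/
theorem trapezoid {h h' : ℝ → ℝ} (hd : ∀ z, HasDerivAt h (h' z) z) (hc : ConcaveOn ℝ univ h')
    {x y : ℝ} (hxy : x < y) : (h' x + h' y) / 2 * (y - x) ≤ h y - h x := by
  obtain ⟨g, hg⟩ : ∃ g : ℝ → ℝ, g = fun t => h (x + t * (y - x)) -
      (y - x) * (t * h' x + t ^ 2 / 2 * (h' y - h' x)) := ⟨_, rfl⟩
  have hgd : ∀ t, HasDerivAt g
      ((y - x) * (h' (x + t * (y - x)) - ((1 - t) * h' x + t * h' y))) t := fun t => by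
    rw [hg]
    have h1 := (hd (x + t * (y - x))).comp t (((hasDerivAt_id t).mul_const (y - x)).const_add x)
    have h2 := (((hasDerivAt_id t).mul_const (h' x)).add
      (((hasDerivAt_pow 2 t).div_const 2).mul_const (h' y - h' x))).const_mul (y - x)
    exact (h1.sub h2).congr_deriv (by simp; ring)
  have hm : MonotoneOn g (Icc 0 1) := monotoneOn_of_hasDerivWithinAt_nonneg (convex_Icc 0 1)
    (fun t _ => (hgd t).continuousAt.continuousWithinAt) (fun t _ => (hgd t).hasDerivWithinAt)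
    fun t ht => by
      rw [interior_Icc] at ht
      refine mul_nonneg (sub_nonneg.2 hxy.le) (sub_nonneg.2 ?_)
      have := hc.2 (mem_univ x) (mem_univ y) (sub_nonneg.2 ht.2.le) ht.1.le (by ring)
      simp only [smul_eq_mul] at this
      convert this using 2
      ring
  have h01 := hm (left_mem_Icc.2 zero_le_one) (right_mem_Icc.2 zero_le_one) zero_le_one
  simp only [hg, zero_mul, add_zero, one_mul] at h01
  rw [show x + (y - x) = y by ring] at h01
  nlinarith [h01]

theorem ratPSlope_eq {b g e x y : ℝ} (he : 0 ≤ e) (hx : 0 ≤ x) (h : x < y) :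
    sec (ratP b g e) x y = ratPSlope b g e x y := by
  have hy : 0 ≤ y := hx.trans h.le
  have h1 : 0 < 1 + e * x := by positivity
  have h2 : 0 < 1 + e * y := by positivity
  have hu : y - x ≠ 0 := sub_ne_zero.2 h.ne'
  unfold sec ratP ratPSlope
  field_simp
  ring

theorem loDSlope_eq {x y : ℝ} (h : x < y) : sec loD x y = loDSlope x y := by
  have hu : y - x ≠ 0 := sub_ne_zero.2 h.ne'
  unfold sec loD loDSlope
  field_simp
  ring

theorem one_le_sec_loP {x y : ℝ} (hx : 0 ≤ x) (h : x < y) : 1 ≤ sec loP x y := by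
  have hy : 0 ≤ y := hx.trans h.le
  rw [loP, ratPSlope_eq (by norm_num) hx h, ratPSlope, one_le_div (by positivity)]
  nlinarith [mul_nonneg hx hy, mul_nonneg (mul_nonneg hx hy) (add_nonneg hx hy),
    sq_nonneg (x + y - 1 / 4), sq_nonneg (x - y)]

theorem le_loP {x : ℝ} (hx : 0 ≤ x) : x ≤ loP x := by
  rcases eq_or_lt_of_le hx with rfl | h
  · simp [loP, ratP]
  · have := one_le_sec_loP le_rfl h
    rw [sec, one_le_div (sub_pos.2 h)] at this
    simpa [loP, ratP] using this

/-- `lowKer` is monotone in the secant of `P - φ` up to `1/3`. -/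
theorem lowKer_mono {R Q x y e e' p : ℝ} (he : e ≤ e') (he' : e' ≤ 1 / 3) (hp : 1 ≤ p) :
    lowKer R Q x y e p ≤ lowKer R Q x y e' p := by
  obtain ⟨a, ha⟩ : ∃ a, a = (1 - x * y / 2) * bump x * bump y / 2 := ⟨_, rfl⟩
  have hC := bump_pos x
  have hD := bump_pos y
  have ha2 : a ≤ 1 / 2 := by
    rw [ha]
    unfold bump
    field_simp
    nlinarith [sq_nonneg (x + y), sq_nonneg (x * y), sq_nonneg x, sq_nonneg y]
  have hq : 3 / (4 * p) * (2 * a + 2 * (e + e')) ≤ 7 / 4 := by
    rw [div_mul_eq_mul_div, div_le_iff₀ (by positivity)]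
    linarith
  have hk : amp = 1 / 5 := rfl
  have e0 : lowKer R Q x y e' p - lowKer R Q x y e p = (e' - e) * (p - (e + e') / 2 +
      amp * (bump x + bump y) - amp * (3 / (4 * p) * (2 * a + 2 * (e + e')))) := by
    rw [ha, lowKer, lowKer]
    field_simp
    ring
  rw [← sub_nonneg, e0]
  refine mul_nonneg (sub_nonneg.2 he) ?_
  rw [hk]
  nlinarith

/-- `lowKer` is concave in the secant of `P`. -/
theorem lowKer_between {R Q x y e p p1 p2 : ℝ} (h1 : 0 < p1) (hp1 : p1 ≤ p) (hp2 : p ≤ p2)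
    (k1 : 0 ≤ lowKer R Q x y e p1) (k2 : 0 ≤ lowKer R Q x y e p2) : 0 ≤ lowKer R Q x y e p := by
  obtain ⟨γ, hγ⟩ : ∃ γ, γ = amp * (3 / 8) *
      ((1 - x * y / 2) * bump x * bump y / 2 + 2 * e) ^ 2 := ⟨_, rfl⟩
  have hγ0 : 0 ≤ γ := by rw [hγ]; unfold amp; positivity
  have hp : 0 < p := h1.trans_le hp1
  have hp2' : 0 < p2 := hp.trans_le hp2
  rcases eq_or_lt_of_le (hp1.trans hp2) with h | h
  · rwa [show p = p1 by linarith]
  · have e0 : (p2 - p1) * lowKer R Q x y e p = (p2 - p) * lowKer R Q x y e p1 +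
        (p - p1) * lowKer R Q x y e p2 + γ * ((p2 - p1) * (p - p1) * (p2 - p) / (p * p1 * p2)) := by
      rw [hγ, lowKer, lowKer, lowKer]
      field_simp
      ring
    refine (mul_nonneg_iff_of_pos_left (sub_pos.2 h)).1 ?_
    rw [e0]
    have := mul_nonneg (sub_nonneg.2 hp2) k1
    have := mul_nonneg (sub_nonneg.2 hp1) k2
    have : 0 ≤ γ * ((p2 - p1) * (p - p1) * (p2 - p) / (p * p1 * p2)) :=
      mul_nonneg hγ0 (div_nonneg (mul_nonneg (mul_nonneg (sub_nonneg.2 h.le) (sub_nonneg.2 hp1))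
        (sub_nonneg.2 hp2)) (by positivity))
    linarith

variable {phi dphi P : ℝ → ℝ}

theorem pairLow_eq {R δ p Q x y : ℝ} (hp : 0 < p) :
    pairLow R δ p Q x y = p * lowKer R Q x y δ p := by
  unfold pairLow lowKer lowConst
  field_simp
  ring

theorem sqLow_pos {t : ℝ} (ht : 0 ≤ t) : 0 < sqLow t := by unfold sqLow; positivity

theorem sqLow_le_root {z : ℝ} (hz : 0 ≤ z) : sqLow (4 / 5 * z) ≤ root z := by
  unfold root
  refine Real.le_sqrt_of_sq_le ?_
  rw [sqLow, div_pow, div_le_iff₀ (by positivity)]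
  nlinarith [pow_nonneg hz 3, sq_nonneg z]

theorem trapF_eq (x y : ℝ) : trapF x y = -(32 / 27) * (1 / root x + 1 / root y) /
    (2 * (1 + root x * root y + 16 / 25 * x * y) ^ 2) := by
  have := root_pos x
  have := root_pos y
  unfold trapF
  field_simp
  ring

theorem trapSame_le {a b : ℝ} (ha : 0 ≤ a) (hb : 0 ≤ b) : trapSame a b ≤ trapF a b := by
  have p1 := sqLow_pos (by positivity : (0 : ℝ) ≤ 4 / 5 * a)
  have p2 := sqLow_pos (by positivity : (0 : ℝ) ≤ 4 / 5 * b)
  have := sqLow_le_root ha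
  have := sqLow_le_root hb
  have := root_pos a
  have := root_pos b
  rw [trapF_eq, trapSame, neg_mul, neg_div, neg_mul, neg_div, neg_le_neg_iff]
  gcongr

theorem trapMixed_le {a b : ℝ} (ha : 0 ≤ a) (hb : 0 ≤ b) : trapMixed a b ≤ trapF (-a) b := by
  have p1 := sqLow_pos (by positivity : (0 : ℝ) ≤ 4 / 5 * a)
  have p2 := sqLow_pos (by positivity : (0 : ℝ) ≤ 4 / 5 * b)
  have := sqLow_le_root ha
  have := sqLow_le_root hb
  have hr : root (-a) = root a := by simp [root]
  have ra := root_pos a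
  have rb := root_pos b
  have hm : (2 + 2 * (4 / 5 * a) ^ 2 + 2 * (4 / 5 * b) ^ 2) / (2 + (4 / 5 * a + 4 / 5 * b) ^ 2) ≤
      root a * root b + 16 / 25 * -a * b := by
    obtain ⟨k, hk⟩ : ∃ k, k = root a * root b := ⟨_, rfl⟩
    have hk2 : k ^ 2 = (1 + 16 / 25 * a ^ 2) * (1 + 16 / 25 * b ^ 2) := by
      rw [hk, mul_pow, root_sq, root_sq]
    have hle : k ≤ 1 + (16 / 25 * a ^ 2 + 16 / 25 * b ^ 2) / 2 := by
      nlinarith [sq_nonneg (root a - root b), root_sq a, root_sq b]
    have hge : 16 / 25 * a * b ≤ k := by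
      nlinarith [mul_pos ra rb, mul_nonneg ha hb]
    rw [← hk, div_le_iff₀ (by positivity)]
    nlinarith [mul_le_mul_of_nonneg_left hle (sub_nonneg.2 hge)]
  rw [trapF_eq, trapMixed, hr, neg_mul, neg_div, neg_mul, neg_div, neg_le_neg_iff,
    show 1 + root a * root b + 16 / 25 * -a * b =
      1 + (root a * root b + 16 / 25 * -a * b) by ring]
  gcongr

/-- The kernel at an ordered pair is at least `(y - x)²` times the lower kernel. -/
theorem lowKer_le (hF : Facts phi dphi P) {x y : ℝ} (h : x < y) (hs : 0 ≤ x + y) {R Q : ℝ} (hR : R ≤ trapF x y)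
    (hQ0 : Q ≤ P x + P y) (hp0 : 0 < sec P x y) (c : ℝ) :
    (y - x) ^ 2 * lowKer R Q x y (sec (fun z => P z - phi z) x y) (sec P x y) ≤
      pairKer c x y (phi x) (phi y) (dphi x) (dphi y) (P x) (P y) (sec phi x y) := by
  obtain ⟨u, hu⟩ : ∃ u, u = y - x := ⟨_, rfl⟩
  have hu0 : 0 < u := hu ▸ sub_pos.2 h
  obtain ⟨p, hp⟩ : ∃ p, p = sec P x y := ⟨_, rfl⟩
  obtain ⟨e, he⟩ : ∃ e, e = sec (fun z => P z - phi z) x y := ⟨_, rfl⟩
  rw [← hp] at hp0
  have hd : ∀ z, HasDerivAt (fun z => phi z - cmpF z) (dphi z - cmpF' z) z :=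
    fun z => (hF.deriv z).sub (hasDerivAt_cmpF z)
  have ht : u ^ 2 * trapF x y ≤ sec phi x y - (dphi x + dphi y) / 2 := by
    have := trapezoid hd hF.trap h
    have e1 := cmpF_trap h
    rw [sec, ← hu] at e1 ⊢
    rw [← hu] at this
    have : (dphi x + dphi y) / 2 - (cmpF' x + cmpF' y) / 2 ≤
        (phi y - phi x) / u - (cmpF y - cmpF x) / u := by
      rw [← sub_div ((phi y - phi x) : ℝ), le_div_iff₀ hu0]; linarith
    linarith
  have hQ : Q * (x + y) ≤ (P x + P y) * (x + y) := mul_le_mul_of_nonneg_right hQ0 hs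
  have hmin : -(3 / (8 * p) * ((1 - x * y / 2) * bump x * bump y / 2 + 2 * e) ^ 2) ≤
      2 / 3 * c ^ 2 * p - c * ((1 - x * y / 2) * bump x * bump y / 2 + 2 * e) := by
    obtain ⟨A, hA⟩ : ∃ A, A = (1 - x * y / 2) * bump x * bump y / 2 + 2 * e := ⟨_, rfl⟩
    rw [← hA, ← sub_nonneg, show 2 / 3 * c ^ 2 * p - c * A - -(3 / (8 * p) * A ^ 2) =
      2 / 3 * p * (c - 3 * A / (4 * p)) ^ 2 by field_simp; ring]
    positivity
  have hC := bump_pos x
  have hD := bump_pos y
  have h3 : 0 ≤ 1 - (bump x + bump y) / 3 := by linarith [bump_le_one x, bump_le_one y]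
  have hQ' : Q * ((x + y) / 2 * bump x * bump y) * (1 - (bump x + bump y) / 3) ≤
      (P x + P y) * ((x + y) / 2 * bump x * bump y) * (1 - (bump x + bump y) / 3) := by
    refine mul_le_mul_of_nonneg_right ?_ h3
    nlinarith [mul_le_mul_of_nonneg_right hQ (mul_pos hC hD).le]
  have hPy : P y = P x + p * u := by rw [hp, sec, ← hu]; field_simp; ring
  have hfy : phi y = phi x + (p - e) * u := by rw [hp, he, sec, sec, ← hu]; field_simp; ring
  have key : pairKer c x y (phi x) (phi y) (dphi x) (dphi y) (P x) (P y) (sec phi x y) =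
      (sec phi x y - (dphi x + dphi y) / 2) + u ^ 2 * (e * (p - e / 2) + amp * (bump x * bump y / 4 +
        (P x + P y) * ((x + y) / 2 * bump x * bump y) * (1 - (bump x + bump y) / 3) +
        e * (bump x + bump y) - p * (bump x ^ 2 + bump y ^ 2) / 3 +
        (2 / 3 * c ^ 2 * p - c * ((1 - x * y / 2) * bump x * bump y / 2 + 2 * e))) -
        amp ^ 2 * ((x + y) / 2 * bump x * bump y) ^ 2 * u ^ 2 *
          (3 / 2 + 1 / 3 * (bump x + bump y) ^ 2)) := by
    have e2 : bump y ^ 2 = bump x ^ 2 +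
        (bump x + bump y) * (u * (-(x + y) / 2 * bump x * bump y)) := by
      rw [hu, ← slope_bump]; ring
    rw [pairKer, slope_bump, slope_mul_bump, ← hu, hPy, hfy]
    linear_combination amp * u * (2 / 3 * P x + p * u / 3) * e2
  rw [key, lowKer, lowConst, ← he, ← hp, ← hu]
  have ha : (0 : ℝ) ≤ amp := by norm_num [amp]
  linarith [mul_le_mul_of_nonneg_left hQ' (mul_nonneg (sq_nonneg u) ha),
    mul_le_mul_of_nonneg_left hmin (mul_nonneg (sq_nonneg u) ha), ht,
    mul_le_mul_of_nonneg_left hR (sq_nonneg u)]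

theorem pair_of_facts (hF : Facts phi dphi P) (hS : SameSide) (hO : OppSide) (x y : ℝ) :
    ∀ c ∈ Icc (0 : ℝ) 1,
      0 ≤ pairKer c x y (phi x) (phi y) (dphi x) (dphi y) (P x) (P y) (slope' phi dphi x y) := by
  suffices H : ∀ x y c, x < y → 0 ≤ x + y →
      0 ≤ pairKer c x y (phi x) (phi y) (dphi x) (dphi y) (P x) (P y) (sec phi x y) by
    intro c _
    have sym : ∀ x y, pairKer c x y (phi x) (phi y) (dphi x) (dphi y) (P x) (P y)
        (slope' phi dphi x y) = pairKer c y x (phi y) (phi x) (dphi y) (dphi x) (P y) (P x)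
          (slope' phi dphi y x) := fun x y => by
      rw [slope'_comm phi dphi y x, pairKer, pairKer]; ring
    have neg : ∀ x y, pairKer c x y (phi x) (phi y) (dphi x) (dphi y) (P x) (P y)
        (slope' phi dphi x y) = pairKer c (-y) (-x) (phi (-y)) (phi (-x)) (dphi (-y)) (dphi (-x))
          (P (-y)) (P (-x)) (slope' phi dphi (-y) (-x)) := fun x y => by
      have hs : slope' phi dphi (-y) (-x) = slope' phi dphi x y := by
        unfold slope'
        rcases eq_or_ne x y with rfl | h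
        · simp [hF.evenDphi]
        · rw [if_neg h, if_neg (by simpa using h.symm), hF.oddPhi, hF.oddPhi]; ring_nf
      rw [hs, hF.oddPhi, hF.oddPhi, hF.evenDphi, hF.evenDphi, hF.oddP, hF.oddP, pairKer, pairKer,
        show bump (-x) = bump x by simp [bump], show bump (-y) = bump y by simp [bump]]
      ring
    have ord : ∀ x y, x < y → 0 ≤ pairKer c x y (phi x) (phi y) (dphi x) (dphi y) (P x) (P y)
        (slope' phi dphi x y) := by
      intro x y h
      rcases le_total 0 (x + y) with hs | hs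
      · rw [slope', if_neg h.ne]; exact H x y c h hs
      · rw [neg, slope', if_neg (by simpa using h.ne')]
        exact H (-y) (-x) c (by linarith) (by linarith)
    rcases lt_trichotomy x y with h | rfl | h
    · exact ord x y h
    · simp [pairKer, slope']
    · rw [sym]; exact ord y x h
  intro x y c h hs
  have hu : 0 < y - x := sub_pos.2 h
  obtain ⟨e, he⟩ : ∃ e, e = sec (fun z => P z - phi z) x y := ⟨_, rfl⟩
  suffices hh : ∃ R Q e0 p1 p2, R ≤ trapF x y ∧ Q ≤ P x + P y ∧ 1 ≤ p1 ∧ p1 ≤ sec P x y ∧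
      sec P x y ≤ p2 ∧ e0 ≤ e ∧ e ≤ 1 / 3 ∧ 0 ≤ pairLow R e0 p1 Q x y ∧
      0 ≤ pairLow R e0 p2 Q x y by
    obtain ⟨R, Q, e0, p1, p2, hR, hQ, h1, hp1, hp2, he0, he3, k1, k2⟩ := hh
    have h0 : 0 < p1 := zero_lt_one.trans_le h1
    rw [pairLow_eq h0] at k1
    rw [pairLow_eq (h0.trans_le (hp1.trans hp2))] at k2
    refine le_trans (mul_nonneg (sq_nonneg _) ?_)
      (lowKer_le hF h hs hR hQ (h0.trans_le hp1) c)
    rw [← he]
    exact lowKer_between h0 hp1 hp2
      (((mul_nonneg_iff_of_pos_left h0).1 k1).trans (lowKer_mono he0 he3 h1))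
      (((mul_nonneg_iff_of_pos_left (h0.trans_le (hp1.trans hp2))).1 k2).trans
        (lowKer_mono he0 he3 (h1.trans (hp1.trans hp2))))
  have hy : 0 ≤ y := by linarith
  have hP0 : P 0 = 0 := by have := hF.oddP 0; simp only [neg_zero] at this; linarith
  have hphi0 : phi 0 = 0 := by have := hF.oddPhi 0; simp only [neg_zero] at this; linarith
  rcases le_or_gt 0 x with hx | hx
  · obtain ⟨k1, k2⟩ := hS x y hx h.le
    have m1 := hF.low hx hy h.le
    have m2 := hF.high hx hy h.le
    have m3 := hF.dinc hx hy h.le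
    have m4 := hF.dmax hx hy h.le
    have m5 := hF.low self_mem_Ici hx hx
    have m6 := hF.low self_mem_Ici hy hy
    simp only [hP0] at m1 m2 m3 m4 m5 m6
    simp only [loP, ratP, mul_zero, zero_mul, zero_div, sub_zero] at m5 m6
    refine ⟨_, _, _, _, _, trapSame_le hx hy, ?_, ?_, ?_, ?_, ?_, ?_, k1, k2⟩
    · simp only [loP, ratP]; linarith
    · rw [← ratPSlope_eq (by norm_num) hx h, ← loP]; exact one_le_sec_loP hx h
    · rw [← ratPSlope_eq (by norm_num) hx h, ← loP, sec, sec, div_le_div_iff_of_pos_right hu]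
      linarith
    · rw [← ratPSlope_eq (by norm_num) hx h, ← hiP, sec, sec, div_le_div_iff_of_pos_right hu]
      linarith
    · rw [he, ← loDSlope_eq h, sec, sec, div_le_div_iff_of_pos_right hu]
      linarith
    · rw [he, sec, div_le_iff₀ hu]
      linarith
  · obtain ⟨a, ha0, hxa⟩ : ∃ a, 0 ≤ a ∧ x = -a := ⟨-x, by linarith, by ring⟩
    subst hxa
    have hab : a ≤ y := by linarith
    obtain ⟨k1, k2⟩ := hO a y ha0 hab (by linarith)
    have m1 := hF.low ha0 hy hab
    have m5 := hF.low self_mem_Ici ha0 ha0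
    have m6 := hF.low self_mem_Ici hy hy
    have m7 := hF.high self_mem_Ici ha0 ha0
    have m8 := hF.high self_mem_Ici hy hy
    have m9 := hF.dmax self_mem_Ici ha0 ha0
    have m10 := hF.dmax self_mem_Ici hy hy
    have d1 := hF.dpt a ha0
    have d2 := hF.dpt y hy
    have l0 : loP 0 = 0 ∧ hiP 0 = 0 := by simp [loP, hiP, ratP]
    simp only [hP0, hphi0, l0.1, l0.2, sub_zero, zero_div] at m1 m5 m6 m7 m8 m9 m10
    have hu' : 0 < a + y := by linarith
    have hpe : sec P (-a) y = (P a + P y) / (a + y) := by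
      rw [sec, hF.oddP]; ring_nf
    have hee : e = ((P a - phi a) + (P y - phi y)) / (a + y) := by
      rw [he, sec, hF.oddP, hF.oddPhi]; ring_nf
    refine ⟨_, _, _, _, _, trapMixed_le ha0 hy, ?_, ?_, ?_, ?_, ?_, ?_, k1, k2⟩
    · rw [hF.oddP]; linarith
    · rw [one_le_div hu']; linarith [le_loP ha0, le_loP hy]
    · rw [hpe, div_le_div_iff_of_pos_right hu']; linarith
    · rw [hpe, div_le_div_iff_of_pos_right hu']; linarith
    · rw [hee]
      have e0 : (3 + 21 / 10 * a * y) / ((3 + 21 / 10 * a ^ 2) * (3 + 21 / 10 * y ^ 2)) =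
          (ptD a + ptD y) / (a + y) := by
        unfold ptD; field_simp; ring
      rw [e0, div_le_div_iff_of_pos_right hu']
      linarith
    · rw [hee, div_le_iff₀ hu']
      linarith

end Vale.Agent.P371.Five
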