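import Vale.Agent.P371.Five.CertSameLo
import Vale.Agent.P371.Five.CertSameHi
import Vale.Agent.P371.Five.CertMixedLo
import Vale.Agent.P371.Five.CertMixedHi
import Vale.Agent.P371.Five.Reduce

/-!
The two rational pair inequalities, by positivity of the coefficients of their numerators.
-/

namespace Vale.Agent.P371.Five.Cert

open Five.Expr (A T)

theorem pairLow_eq (a t x y : ℝ) (Rn Rd en ed pn pd qn qd s u xy : Expr)
    (hx : bump x = 2 / U.eval a t) (hy : bump y = 2 / V.eval a t) (hs : s.eval a t = x + y)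
    (hu : u.eval a t = y - x) (hxy : xy.eval a t = x * y) (h1 : Rd.eval a t ≠ 0)
    (h2 : ed.eval a t ≠ 0) (h3 : pd.eval a t ≠ 0) (h4 : qd.eval a t ≠ 0) :
    pairLow (Rn.eval a t / Rd.eval a t) (en.eval a t / ed.eval a t)
        (pn.eval a t / pd.eval a t) (qn.eval a t / qd.eval a t) x y =
      (core Rn Rd en ed pn pd qn qd s u xy).eval a t /
        (600 * Rd.eval a t * ed.eval a t ^ 2 * pd.eval a t ^ 2 * qd.eval a t *
          (U.eval a t * V.eval a t) ^ 4) := by
  have hU : U.eval a t ≠ 0 := by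
    simp [U]; nlinarith [mul_self_nonneg a]
  have hV : V.eval a t ≠ 0 := by
    simp [V, B]; nlinarith [mul_self_nonneg (a + t)]
  simp only [core, Expr.eval_add, Expr.eval_sub, Expr.eval_mul, Expr.eval_num]
  rw [pairLow, amp, hx, hy, hs, hu, hxy]
  generalize U.eval a t = U' at *
  generalize V.eval a t = V' at *
  generalize Rn.eval a t = rn
  generalize Rd.eval a t = rd at *
  generalize en.eval a t = e1
  generalize ed.eval a t = e2 at *
  generalize pn.eval a t = p1
  generalize pd.eval a t = p2 at *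
  generalize qn.eval a t = q1
  generalize qd.eval a t = q2 at *
  push_cast
  field_simp
  ring

theorem sameLo_nonneg {a t : ℝ} (ha : 0 ≤ a) (ht : 0 ≤ t) :
    0 ≤ (same 550 786 848).eval a t := by
  have h := Expr.eval_nonneg _ sameLo_check ha ht
  simp only [Expr.eval_sub] at h
  have hl : 0 ≤ lowSame.eval a t := by
    simp only [lowSame, Expr.eval_mul, Expr.eval_sub, Expr.eval_add, Expr.eval_num, Expr.eval_A,
      Expr.eval_T]
    push_cast
    refine mul_nonneg (by norm_num) ?_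
    nlinarith [sq_nonneg (t + 2 * a - 3 / 20)]
  linarith

theorem mixedLo_nonneg {a t : ℝ} (ha : 0 ≤ a) (ht : 0 ≤ t) :
    0 ≤ (mixed 550 786 848).eval a t := by
  have h := Expr.eval_nonneg _ mixedLo_check ha ht
  simp only [Expr.eval_sub] at h
  have hl : 0 ≤ lowMixed.eval a t := by
    simp only [lowMixed, Expr.eval_mul, Expr.eval_sub, Expr.eval_add, Expr.eval_num, Expr.eval_A,
      Expr.eval_T]
    push_cast
    have h1 : 0 ≤ 100 - 300 * t + 1000 * t * t := by nlinarith [sq_nonneg (t - 3 / 20)]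
    have h2 : 0 ≤ 400 - 400 * t + 400 * t * t := by nlinarith [sq_nonneg (t - 1 / 2)]
    positivity
  linarith

theorem bump_eq (z : ℝ) : bump z = 2 / (2 + z * z) := by
  rw [bump]; field_simp

theorem ratP_eq (b g e z : ℝ) (h : 1000 + e * z ≠ 0) :
    ratP (b / 1000) (g / 1000) (e / 1000) z =
      4 * z * (1000 + b * z + g * z * z) / (3 * (1000 + e * z)) := by
  have h' : 1 + e / 1000 * z ≠ 0 := by intro h0; apply h; linarith
  rw [ratP]; field_simp

theorem ratPSlope_eq (b g e x y : ℝ) (hx : 1000 + e * x ≠ 0) (hy : 1000 + e * y ≠ 0) :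
    ratPSlope (b / 1000) (g / 1000) (e / 1000) x y =
      4 * (1000000 + 1000 * b * (x + y) + 1000 * g * (x * x + x * y + y * y) +
          e * x * y * (b + g * (x + y))) / (3 * (1000 + e * x) * (1000 + e * y)) := by
  have hx' : 1 + e / 1000 * x ≠ 0 := by intro h0; apply hx; linarith
  have hy' : 1 + e / 1000 * y ≠ 0 := by intro h0; apply hy; linarith
  rw [ratPSlope]; field_simp; ring

theorem sqLow_eq {z : ℝ} (hz : 0 ≤ z) :
    sqLow (4 / 5 * z) = (50 + 20 * z + 16 * z * z) / (50 + 20 * z) := by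
  rw [sqLow]; field_simp; ring

theorem trapSame_eq {a t : ℝ} (ha : 0 ≤ a) (ht : 0 ≤ t) :
    trapSame a (a + t) = rSameN.eval a t / rSameD.eval a t := by
  simp only [rSameN, rSameD, midSame, trN, cn, cd, B, Expr.eval_add, Expr.eval_mul, Expr.eval_neg,
    Expr.eval_num, Expr.eval_A, Expr.eval_T]
  push_cast
  rw [trapSame, sqLow_eq ha, sqLow_eq (by linarith : 0 ≤ a + t)]
  field_simp
  ring

theorem trapMixed_eq {a t : ℝ} (ha : 0 ≤ a) (ht : 0 ≤ t) :
    trapMixed a (a + t) = rMixN.eval a t / rMixD.eval a t := by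
  simp only [rMixN, rMixD, trN, cn, cd, B, Expr.eval_add, Expr.eval_mul, Expr.eval_neg,
    Expr.eval_num, Expr.eval_A, Expr.eval_T]
  push_cast
  rw [trapMixed, sqLow_eq ha, sqLow_eq (by linarith : 0 ≤ a + t)]
  field_simp
  ring

theorem loDSlope_eq (a t : ℝ) : loDSlope a (a + t) = dSameN.eval a t / dSameD.eval a t := by
  simp only [dSameN, dSameD, sq, B, Expr.eval_add, Expr.eval_mul, Expr.eval_sub, Expr.eval_num,
    Expr.eval_A, Expr.eval_T]
  push_cast
  rw [loDSlope]
  field_simp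
  ring

/-- The slope constants used by `loP` and `hiP`. -/
def Consts (b g e : ℝ) : Prop :=
  (b = 55 / 100 ∧ g = 786 / 1000 ∧ e = 848 / 1000) ∨
    (b = 58 / 100 ∧ g = 584 / 1000 ∧ e = 58 / 100)

theorem same_sign {a b : ℝ} (ha : 0 ≤ a) (hab : a ≤ b) {β γ ε : ℝ} (hc : Consts β γ ε) :
    0 ≤ pairLow (trapSame a b) (loDSlope a b) (ratPSlope β γ ε a b) (loP a + loP b) a b := by
  obtain ⟨t, ht, rfl⟩ : ∃ t, 0 ≤ t ∧ b = a + t := ⟨b - a, by linarith, by ring⟩
  have hb : 0 ≤ a + t := by linarith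
  obtain ⟨nb, ng, ne, hβ, hγ, hε, hE⟩ : ∃ nb ng ne : ℕ, β = (nb : ℝ) / 1000 ∧
      γ = (ng : ℝ) / 1000 ∧ ε = (ne : ℝ) / 1000 ∧
      0 ≤ (same (.const nb) (.const ng) (.const ne)).eval a t := by
    rcases hc with ⟨h1, h2, h3⟩ | ⟨h1, h2, h3⟩
    · exact ⟨550, 786, 848, by rw [h1]; norm_num, by rw [h2]; norm_num, by rw [h3]; norm_num,
        sameLo_nonneg ha ht⟩
    · exact ⟨580, 584, 580, by rw [h1]; norm_num, by rw [h2]; norm_num, by rw [h3]; norm_num,
        Expr.eval_nonneg _ sameHi_check ha ht⟩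
  have hs : ratPSlope β γ ε a (a + t) =
      (pSameN (.const nb) (.const ng) (.const ne)).eval a t / (pSameD (.const ne)).eval a t := by
    rw [hβ, hγ, hε, ratPSlope_eq _ _ _ _ _ (by positivity) (by positivity)]
    simp [pSameN, pSameD, lin, B]
  have hq : loP a + loP (a + t) = (sumN 550 786 848).eval a t / (pSameD 848).eval a t := by
    rw [loP, show (55 / 100 : ℝ) = 550 / 1000 by norm_num, ratP_eq _ _ _ _ (by positivity),
      ratP_eq _ _ _ _ (by positivity)]
    simp only [sumN, pSameD, quad, lin, B, Expr.eval_add, Expr.eval_mul, Expr.eval_num,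
      Expr.eval_A, Expr.eval_T]
    push_cast
    field_simp
  have hpd : 0 < (pSameD (.const ne)).eval a t := by simp [pSameD, lin, B]; positivity
  have hqd : 0 < (pSameD 848).eval a t := by simp [pSameD, lin, B]; positivity
  have hrd : 0 < rSameD.eval a t := by simp [rSameD, midSame, cn, cd, B]; positivity
  have hed : 0 < dSameD.eval a t := by simp [dSameD, sq, B]; positivity
  rw [trapSame_eq ha ht, loDSlope_eq, hs, hq,
    pairLow_eq a t a (a + t) _ _ _ _ _ _ _ _ (A + B) T (A * B) (by simp [bump_eq, U])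
      (by simp [bump_eq, V, B]) (by simp [B]) (by simp) (by simp [B]) hrd.ne' hed.ne' hpd.ne'
      hqd.ne']
  exact div_nonneg hE (by positivity)

theorem opp_sign {a b : ℝ} (ha : 0 ≤ a) (hab : a ≤ b) (hb : 0 < b) {β γ ε : ℝ}
    (hc : Consts β γ ε) :
    0 ≤ pairLow (trapMixed a b)
      ((3 + 21 / 10 * a * b) / ((3 + 21 / 10 * a ^ 2) * (3 + 21 / 10 * b ^ 2)))
      ((ratP β γ ε a + ratP β γ ε b) / (a + b)) (loP b - loP a) (-a) b := by
  obtain ⟨t, ht, rfl⟩ : ∃ t, 0 ≤ t ∧ b = a + t := ⟨b - a, by linarith, by ring⟩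
  obtain ⟨nb, ng, ne, hβ, hγ, hε, hE⟩ : ∃ nb ng ne : ℕ, β = (nb : ℝ) / 1000 ∧
      γ = (ng : ℝ) / 1000 ∧ ε = (ne : ℝ) / 1000 ∧
      0 ≤ (mixed (.const nb) (.const ng) (.const ne)).eval a t := by
    rcases hc with ⟨h1, h2, h3⟩ | ⟨h1, h2, h3⟩
    · exact ⟨550, 786, 848, by rw [h1]; norm_num, by rw [h2]; norm_num, by rw [h3]; norm_num,
        mixedLo_nonneg ha ht⟩
    · exact ⟨580, 584, 580, by rw [h1]; norm_num, by rw [h2]; norm_num, by rw [h3]; norm_num,
        Expr.eval_nonneg _ mixedHi_check ha ht⟩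
  have hab' : 0 < a + (a + t) := by linarith
  have hs : (ratP β γ ε a + ratP β γ ε (a + t)) / (a + (a + t)) =
      (sumN (.const nb) (.const ng) (.const ne)).eval a t /
        (pSameD (.const ne) * (A + B)).eval a t := by
    rw [hβ, hγ, hε, ratP_eq _ _ _ _ (by positivity), ratP_eq _ _ _ _ (by positivity)]
    simp only [sumN, pSameD, quad, lin, B, Expr.eval_add, Expr.eval_mul, Expr.eval_num,
      Expr.eval_A, Expr.eval_T, Expr.eval_const]
    push_cast
    field_simp
  have hq : loP (a + t) - loP a = (diffN 550 786 848).eval a t / (pSameD 848).eval a t := by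
    rw [loP, show (55 / 100 : ℝ) = 550 / 1000 by norm_num, ratP_eq _ _ _ _ (by positivity),
      ratP_eq _ _ _ _ (by positivity)]
    simp only [diffN, pSameD, quad, lin, B, Expr.eval_add, Expr.eval_mul, Expr.eval_sub,
      Expr.eval_num, Expr.eval_A, Expr.eval_T]
    push_cast
    field_simp
  have hd : (3 + 21 / 10 * a * (a + t)) /
      ((3 + 21 / 10 * a ^ 2) * (3 + 21 / 10 * (a + t) ^ 2)) =
      dMixN.eval a t / dMixD.eval a t := by
    simp only [dMixN, dMixD, B, Expr.eval_add, Expr.eval_mul, Expr.eval_num, Expr.eval_A,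
      Expr.eval_T]
    push_cast
    field_simp
    ring
  have hpd : 0 < (pSameD (.const ne) * (A + B)).eval a t := by
    simp [pSameD, lin, B]; positivity
  have hqd : 0 < (pSameD 848).eval a t := by simp [pSameD, lin, B]; positivity
  have hrd : 0 < rMixD.eval a t := by simp [rMixD, cn, B]; positivity
  have hed : 0 < dMixD.eval a t := by simp [dMixD, B]; positivity
  rw [trapMixed_eq ha ht, hd, hs, hq,
    pairLow_eq a t (-a) (a + t) _ _ _ _ _ _ _ _ T (A + B) (-(A * B)) (by simp [bump_eq, U])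
      (by simp [bump_eq, V, B]) (by simp) (by simp [B]; ring) (by simp [B]) hrd.ne' hed.ne'
      hpd.ne' hqd.ne']
  exact div_nonneg hE (by positivity)

/-- The same-sign inequality at both slope bounds. -/
theorem sameSide : SameSide := fun a b ha hab =>
  ⟨same_sign ha hab (Or.inl ⟨rfl, rfl, rfl⟩), same_sign ha hab (Or.inr ⟨rfl, rfl, rfl⟩)⟩

/-- The opposite-sign inequality at both slope bounds. -/
theorem oppSide : OppSide := fun a b ha hab hb =>
  ⟨opp_sign ha hab hb (Or.inl ⟨rfl, rfl, rfl⟩), opp_sign ha hab hb (Or.inr ⟨rfl, rfl, rfl⟩)⟩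

end Vale.Agent.P371.Five.Cert
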