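import Vale.Agent.P371.Five.PolyPos

/-!
The numerators of the two rational pair inequalities, as polynomial expressions in `(a, t)`,
`b = a + t`.
-/

namespace Vale.Agent.P371.Five.Cert

open Five.Expr (A T)

/-- The larger node. -/
def B : Expr := A + T

/-- `2 + a²`. -/
def U : Expr := 2 + A * A

/-- `2 + b²`. -/
def V : Expr := 2 + B * B

/-- The numerator of `pairLow` at `(x, y)`; `s = x + y`, `u = y - x`, `xy = x y`. -/
def core (Rn Rd en ed pn pd qn qd s u xy : Expr) : Expr :=
  let L := U * V
  let S := U + V
  let L2 := L * L
  let L3 := L2 * L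
  let L4 := L2 * L2
  let e2 := ed * ed
  let An := (2 - xy) * ed + 2 * en * L
  600 * Rn * (e2 * (pn * pd) * (qd * L4)) +
    Rd *
      (qd *
          (pn * pn * (L2 * (600 * (en * ed) * L2 - 160 * (U * U + V * V) * e2)) +
              pn * pd *
                (L3 * (120 * e2 + 240 * (en * ed) * S - 300 * (en * en) * L) -
                  16 * (s * s) * (u * u) * (9 * L2 + 8 * S * S) * e2) -
            45 * (An * An) * (pd * pd) * L2) +
        80 * (pn * qn) * (s * (3 * L - 2 * S)) * (e2 * pd) * L2)

/-- `50 + 20 z + 16 z²`. -/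
def cn (z : Expr) : Expr := 50 + 20 * z + 16 * z * z

/-- `50 + 20 z`. -/
def cd (z : Expr) : Expr := 50 + 20 * z

/-- `1000 + k z`. -/
def lin (k z : Expr) : Expr := 1000 + k * z

/-- `1000 + b z + g z²`. -/
def quad (b g z : Expr) : Expr := 1000 + b * z + g * z * z

/-- The sum of the reciprocals in the trapezoid bound, numerator. -/
def trN : Expr := cd A * cn B + cd B * cn A

/-- The middle factor of the same-sign trapezoid bound. -/
def midSame : Expr :=
  25 * (cd A * cd B) + 25 * (cn A * cn B) + 16 * A * B * (cd A * cd B)

/-- Same-sign trapezoid bound, numerator. -/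
def rSameN : Expr := -(20000 * trN * (cd A * cd B) * (cd A * cd B))

/-- Same-sign trapezoid bound, denominator. -/
def rSameD : Expr := 54 * (cn A * cn B) * midSame * midSame

/-- Mixed trapezoid bound, numerator. -/
def rMixN : Expr :=
  -(32 * trN * (50 + 16 * (A + B) * (A + B)) * (50 + 16 * (A + B) * (A + B)))

/-- Mixed trapezoid bound, denominator. -/
def rMixD : Expr :=
  54 * (cn A * cn B) * (50 + 16 * (A + B) * (A + B) + (50 + 32 * A * A + 32 * B * B)) *
    (50 + 16 * (A + B) * (A + B) + (50 + 32 * A * A + 32 * B * B))

/-- `1000 + k z²`. -/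
def sq (k z : Expr) : Expr := 1000 + k * z * z

/-- Same-sign slope of `P - φ`, numerator. -/
def dSameN : Expr :=
  1000 * (1000 - 656 * A * B) * sq 625 A * sq 625 A * sq 625 B * sq 625 B -
    28500000 * (A + B) * (A * A * sq 625 B + B * B * sq 625 A) * sq 656 A * sq 656 B

/-- Same-sign slope of `P - φ`, denominator. -/
def dSameD : Expr :=
  3 * sq 656 A * sq 656 B * sq 625 A * sq 625 A * sq 625 B * sq 625 B

/-- Mixed slope of `P - φ`, numerator. -/
def dMixN : Expr := 300 + 210 * A * B

/-- Mixed slope of `P - φ`, denominator. -/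
def dMixD : Expr := (30 + 21 * A * A) * (30 + 21 * B * B)

/-- Same-sign slope of `P`, numerator. -/
def pSameN (b g e : Expr) : Expr :=
  4 * (1000000 + 1000 * b * (A + B) + 1000 * g * (A * A + A * B + B * B) +
    e * A * B * (b + g * (A + B)))

/-- Slope denominator. -/
def pSameD (e : Expr) : Expr := 3 * lin e A * lin e B

/-- Sum of two values, numerator. -/
def sumN (b g e : Expr) : Expr := 4 * (A * quad b g A * lin e B + B * quad b g B * lin e A)

/-- Difference of two values, numerator. -/
def diffN (b g e : Expr) : Expr := 4 * (B * quad b g B * lin e A - A * quad b g A * lin e B)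

/-- Same sign, for given slope constants. -/
def same (b g e : Expr) : Expr :=
  core rSameN rSameD dSameN dSameD (pSameN b g e) (pSameD e) (sumN 550 786 848) (pSameD 848)
    (A + B) T (A * B)

/-- Opposite signs, for given slope constants. -/
def mixed (b g e : Expr) : Expr :=
  core rMixN rMixD dMixN dMixD (sumN b g e) (pSameD e * (A + B)) (diffN 550 786 848) (pSameD 848)
    T (A + B) (-(A * B))

/-- Low-order part of `same` at the lower constants. -/
def lowSame : Expr :=
  1000000000000000000000000000000000000000000000000000000000000000000000 *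
    (2000000 - 3000000 * (T + 2 * A) + 10000000 * (T + 2 * A) * (T + 2 * A))

/-- Low-order part of `mixed` at the lower constants. -/
def lowMixed : Expr :=
  1000000000000000000000000000000000000 *
    (T * T * (100 - 300 * T + 1000 * T * T) + A * T * (400 - 400 * T + 400 * T * T))

end Vale.Agent.P371.Five.Cert
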