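import Vale.Agent.P371.Five.CertDefs
import Vale.Agent.P371.Five.PolyKron

/-!
Kernel check of one coefficient table.
-/

namespace Vale.Agent.P371.Five.Cert

theorem sameLo_check : nonnegT (same 550 786 848 - lowSame).coeffs = true :=
  Expr.kron_sound _ (by decide +kernel)

end Vale.Agent.P371.Five.Cert
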