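import Vale.Agent.P371.Five.Encl

/-!
A rational enclosure of the weight `cg`: backward barriers from infinity against the forward
barriers at `z = 2`.
-/

namespace Vale.Agent.P371.Five.Encl

open PolyCert Set Filter Topology

/-- A series `z² S (1/z)`. -/
noncomputable def ser (a : P1) (z : ℝ) : ℝ := z ^ 2 * ev a (1 / z)

/-- Its derivative. -/
noncomputable def serD (a : P1) (z : ℝ) : ℝ := 2 * z * ev a (1 / z) - ev (deriv1 a) (1 / z)

/-- The residual of a series times `w ^ 4`, in `w = 1 / z`. -/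
def resS (a : P1) : P1 :=
  add (mul (add (smul 2 a) (smul (-1) (mul [0, 1] (deriv1 a)))) (add [0, 0, 0, 3] (smul 2 a)))
    (smul (-4) (add [0, 0, 0, 0, 1] (mul a a)))

theorem hasDerivAt_ser (a : P1) {z : ℝ} (hz : 0 < z) : HasDerivAt (ser a) (serD a z) z := by
  have h1 : HasDerivAt (fun z : ℝ => 1 / z) (-(z ^ 2)⁻¹) z := by
    simpa [one_div] using hasDerivAt_inv hz.ne'
  refine ((hasDerivAt_pow 2 z).mul ((hasDerivAt_ev a (1 / z)).comp z h1)).congr_deriv ?_
  rw [serD]
  simp only [Function.comp_apply]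
  push_cast
  field_simp
  ring

theorem res_ser (a : P1) {z : ℝ} (hz : 0 < z) :
    res z (ser a z) (serD a z) = z ^ 4 * ev (resS a) (1 / z) := by
  simp only [res, resS, ser, serD, ev_add, ev_mul, ev_smul, ev_cons, ev_nil]
  push_cast
  field_simp
  ring

theorem tendsto_ser (a : P1) : Tendsto (fun z => ser a z / z ^ 2) atTop (𝓝 (ev a 0)) := by
  have h : Tendsto (fun z : ℝ => ev a (1 / z)) atTop (𝓝 (ev a 0)) :=
    ((continuous_ev a).tendsto 0).comp
      ((tendsto_const_nhds (x := (1 : ℝ))).div_atTop tendsto_id)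
  refine h.congr' ?_
  filter_upwards [eventually_gt_atTop (0 : ℝ)] with z hz
  rw [ser, mul_div_cancel_left₀ _ (by positivity)]

/-- Series below the profile when `12386/10000` is below `√cg`. -/
def serLow : P1 := [6193 / 5000, 0, 0, 1, -10097 / 25000, 0, -7569 / 12500, 291 / 625,
  -3289 / 50000, 33279 / 100000]

/-- Series above the profile when `12383/10000` is above `√cg`. -/
def serUpp : P1 := [12383 / 10000, 0, 0, 1, -20179 / 50000, 0, -60567 / 100000, 23291 / 50000,
  12417 / 100000]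

/-- The value of `z² S (1/z)` at `z = 2`. -/
def atTwo : P1 → ℚ
  | [] => 0
  | a :: p => 4 * a + 1 / 2 * atTwo p

theorem ev_atTwo : ∀ a : P1, ser a 2 = atTwo a
  | [] => by simp [ser, atTwo]
  | a :: p => by
    have h := ev_atTwo p
    simp only [ser, atTwo, ev_cons] at *
    push_cast
    linarith

/-- The value of a polynomial at `2`. -/
def evTwo : P1 → ℚ
  | [] => 0
  | a :: p => a + 2 * evTwo p

theorem ev_evTwo : ∀ a : P1, ev a 2 = evTwo a
  | [] => by simp [evTwo]
  | a :: p => by simp [evTwo, ev_evTwo p]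

/-- The certificate of the enclosure. -/
def cgOK : Bool :=
  decide ((resS serLow).take 4 = [0, 0, 0, 0]) && decide ((resS serUpp).take 4 = [0, 0, 0, 0]) &&
  pos ((resS serLow).drop 4) 12 (1 / 4) (1 / 4) &&
  pos (smul (-1) ((resS serUpp).drop 4)) 12 (1 / 4) (1 / 4) &&
  decide (evTwo uppP < atTwo serLow) && decide (atTwo serUpp < evTwo lowP)

theorem cgOK_eq : cgOK = true := by decide +kernel

/-- **The enclosure of `cg`.** -/
theorem cg_bounds : (12383 / 10000 : ℝ) ^ 2 < cg ∧ cg < (12386 / 10000 : ℝ) ^ 2 := by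
  have h := cgOK_eq
  simp only [cgOK, Bool.and_eq_true, decide_eq_true_eq] at h
  obtain ⟨⟨⟨⟨⟨t1, t2⟩, r1⟩, r2⟩, v1⟩, v2⟩ := h
  have hw : ∀ z : ℝ, z ∈ Ici (2 : ℝ) →
      |1 / z - ((1 / 4 : ℚ) : ℝ)| ≤ ((1 / 4 : ℚ) : ℝ) := fun z hz => by
    have hz2 : (2 : ℝ) ≤ z := hz
    have h1 : 1 / z ≤ 1 / 2 := one_div_le_one_div_of_le (by norm_num) hz2
    have h0 : 0 < 1 / z := by positivity
    push_cast
    rw [abs_le]
    constructor <;> linarith
  have hp := mem_barriers (z := 2) ⟨by norm_num, le_rfl⟩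
  constructor
  · by_contra hc
    have hQ := prof_le_of_res_lim (Q := ser serUpp) (Q' := serD serUpp) (a := 2)
      (b := 12383 / 10000) (fun z hz => hasDerivAt_ser _ (lt_of_lt_of_le two_pos hz))
      (fun z hz => ?_) (by norm_num) (not_lt.1 hc) (by
        have e : ev serUpp 0 = 12383 / 10000 := by simp [serUpp]
        exact e ▸ tendsto_ser serUpp) 2 self_mem_Ici
    · rw [ev_atTwo] at hQ
      have : (atTwo serUpp : ℝ) < evTwo lowP := by exact_mod_cast v2
      simp only [ev_evTwo] at hp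
      linarith [hp.2.1]
    have hz0 : (0 : ℝ) < z := lt_of_lt_of_le two_pos hz
    have := pos_spec _ _ _ _ r2 (1 / z) (hw z hz)
    rw [ev_smul] at this
    push_cast at this
    rw [res_ser _ hz0, ev_take_drop 4 (resS serUpp) (1 / z) t2]
    exact mul_nonpos_of_nonneg_of_nonpos (by positivity)
      (mul_nonpos_of_nonneg_of_nonpos (by positivity) (by linarith))
  · by_contra hc
    have hQ := le_prof_of_res_lim (Q := ser serLow) (Q' := serD serLow) (a := 2)
      (b := 12386 / 10000) (fun z hz => hasDerivAt_ser _ (lt_of_lt_of_le two_pos hz))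
      (fun z hz => ?_) (by norm_num) (not_lt.1 hc) (by
        have e : ev serLow 0 = 12386 / 10000 := by simp [serLow]; norm_num
        exact e ▸ tendsto_ser serLow) 2 self_mem_Ici
    · rw [ev_atTwo] at hQ
      have : (evTwo uppP : ℝ) < atTwo serLow := by exact_mod_cast v1
      simp only [ev_evTwo] at hp
      linarith [hp.2.2]
    have hz0 : (0 : ℝ) < z := lt_of_lt_of_le two_pos hz
    rw [res_ser _ hz0, ev_take_drop 4 (resS serLow) (1 / z) t1]
    exact mul_nonneg (by positivity)
      (mul_nonneg (by positivity) (pos_spec _ _ _ _ r1 (1 / z) (hw z hz)).le)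

end Vale.Agent.P371.Five.Encl
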