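import Mathlib

/-!
The constant of the one-soliton profile at exponent `5/4`.
-/

namespace Vale.Agent.P371.Five

open MeasureTheory Set

/-- `∫₀^∞ (1 + t²) ^ (-5/4)`. -/
noncomputable def profInt : ℝ := ∫ t in Ioi (0 : ℝ), (1 + t ^ 2) ^ (-(5 / 4) : ℝ)

/-- The limit of `z / √|P|` along the profile. -/
noncomputable def jcon : ℝ := 3 / 4 * profInt

/-- The weight of the fifth power. -/
noncomputable def cg : ℝ := 1 / jcon ^ 4

theorem profInt_integrable :
    IntegrableOn (fun t : ℝ => (1 + t ^ 2) ^ (-(5 / 4) : ℝ)) (Ioi 0) := by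
  have h := integrable_rpow_neg_one_add_norm_sq (E := ℝ) (μ := volume) (r := 5 / 2) (by norm_num)
  refine Integrable.integrableOn (h.congr (.of_forall fun t => ?_))
  simp only [Real.norm_eq_abs, sq_abs]
  norm_num

theorem profInt_eq :
    profInt = Real.sqrt Real.pi * Real.Gamma (3 / 4) / (2 * Real.Gamma (5 / 4)) := by
  have hG := Real.Gamma_pos_of_pos (by norm_num : (0 : ℝ) < 5 / 4)
  have hG' := Real.Gamma_pos_of_pos (by norm_num : (0 : ℝ) < 3 / 4)
  have hI := profInt_integrable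
  have hA : ∀ t : ℝ, ENNReal.ofReal (Real.Gamma (5 / 4) * (1 + t ^ 2) ^ (-(5 / 4) : ℝ)) =
      ∫⁻ s in Ioi (0 : ℝ), ENNReal.ofReal (s ^ (1 / 4 : ℝ) * Real.exp (-((1 + t ^ 2) * s))) := by
    intro t
    have hr : 0 < 1 + t ^ 2 := by positivity
    have h := Real.integral_rpow_mul_exp_neg_mul_Ioi (a := 5 / 4) (r := 1 + t ^ 2) (by norm_num) hr
    rw [show (5 / 4 : ℝ) - 1 = 1 / 4 by norm_num] at h
    have hi : IntegrableOn (fun s : ℝ => s ^ (1 / 4 : ℝ) * Real.exp (-((1 + t ^ 2) * s))) (Ioi 0) :=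
      .of_integral_ne_zero (by rw [h]; positivity)
    rw [← ofReal_integral_eq_lintegral_ofReal hi
      (by filter_upwards [ae_restrict_mem measurableSet_Ioi] with s (hs : 0 < s) using by positivity),
      h, one_div (1 + t ^ 2), Real.inv_rpow hr.le, ← Real.rpow_neg hr.le, mul_comm]
  have hB : ∀ s ∈ Ioi (0 : ℝ),
      ∫⁻ t in Ioi (0 : ℝ), ENNReal.ofReal (s ^ (1 / 4 : ℝ) * Real.exp (-((1 + t ^ 2) * s))) =
      ENNReal.ofReal (Real.sqrt Real.pi / 2 * (Real.exp (-s) * s ^ (3 / 4 - 1 : ℝ))) := by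
    intro s (hs : 0 < s)
    have e : ∀ t : ℝ, s ^ (1 / 4 : ℝ) * Real.exp (-((1 + t ^ 2) * s)) =
        s ^ (1 / 4 : ℝ) * Real.exp (-s) * Real.exp (-s * t ^ 2) := fun t => by
      rw [mul_assoc, ← Real.exp_add]; ring_nf
    simp only [e]
    rw [← ofReal_integral_eq_lintegral_ofReal (((integrable_exp_neg_mul_sq hs).integrableOn).const_mul _)
      (.of_forall fun t => by positivity), MeasureTheory.integral_const_mul, integral_gaussian_Ioi,
      Real.sqrt_div Real.pi_pos.le, Real.sqrt_eq_rpow s]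
    congr 1
    rw [show (3 / 4 - 1 : ℝ) = 1 / 4 - 1 / 2 by norm_num, Real.rpow_sub hs]
    ring
  have hg : IntegrableOn (fun s : ℝ => Real.exp (-s) * s ^ (3 / 4 - 1 : ℝ)) (Ioi 0) :=
    Real.GammaIntegral_convergent (by norm_num)
  have key : ENNReal.ofReal (Real.Gamma (5 / 4) * profInt) =
      ENNReal.ofReal (Real.sqrt Real.pi / 2 * Real.Gamma (3 / 4)) := by
    rw [profInt, ← MeasureTheory.integral_const_mul,
      ofReal_integral_eq_lintegral_ofReal (hI.const_mul _) (.of_forall fun t => by positivity)]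
    simp only [hA]
    rw [lintegral_lintegral_swap (by fun_prop), setLIntegral_congr_fun measurableSet_Ioi hB,
      ← ofReal_integral_eq_lintegral_ofReal (hg.const_mul _)
      (by filter_upwards [ae_restrict_mem measurableSet_Ioi] with s (hs : 0 < s) using by positivity),
      MeasureTheory.integral_const_mul, Real.Gamma_eq_integral (by norm_num : (0 : ℝ) < 3 / 4)]
  have h0 : 0 ≤ profInt := integral_nonneg fun t => by positivity
  rw [ENNReal.ofReal_eq_ofReal_iff (by positivity) (by positivity)] at key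
  field_simp
  linarith

theorem jcon_pos : 0 < jcon := by
  have := Real.Gamma_pos_of_pos (by norm_num : (0 : ℝ) < 5 / 4)
  have := Real.Gamma_pos_of_pos (by norm_num : (0 : ℝ) < 3 / 4)
  rw [jcon, profInt_eq]
  positivity

theorem cg_pos : 0 < cg := by
  have := jcon_pos
  unfold cg
  positivity

/-- The constant produced by the calibration is the one-bound-state constant at exponent `5/4`. -/
theorem const_eq :
    5 / 4 * (cg / 16) ^ (1 / 4 : ℝ) * (4 / 7 * (3 / 7 : ℝ) ^ (3 / 4 : ℝ)) =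
      2 * (3 / 7 : ℝ) ^ (3 / 4 : ℝ) *
        (Real.Gamma (9 / 4) / (2 * Real.sqrt Real.pi * Real.Gamma (11 / 4))) := by
  have hj := jcon_pos
  have e : (cg / 16) ^ (1 / 4 : ℝ) = 1 / (2 * jcon) := by
    rw [cg, show 1 / jcon ^ 4 / 16 = (1 / (2 * jcon)) ^ (4 : ℕ) by ring, ← Real.rpow_natCast,
      ← Real.rpow_mul (by positivity)]
    norm_num
  have g1 : Real.Gamma (9 / 4) = 5 / 4 * Real.Gamma (5 / 4) := by
    rw [show (9 / 4 : ℝ) = 5 / 4 + 1 by norm_num, Real.Gamma_add_one (by norm_num)]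
  have g2 : Real.Gamma (11 / 4) = 21 / 16 * Real.Gamma (3 / 4) := by
    rw [show (11 / 4 : ℝ) = 7 / 4 + 1 by norm_num, Real.Gamma_add_one (by norm_num),
      show (7 / 4 : ℝ) = 3 / 4 + 1 by norm_num, Real.Gamma_add_one (by norm_num)]
    ring
  have := Real.Gamma_pos_of_pos (by norm_num : (0 : ℝ) < 5 / 4)
  have := Real.Gamma_pos_of_pos (by norm_num : (0 : ℝ) < 3 / 4)
  have := Real.sqrt_pos.2 Real.pi_pos
  rw [e, g1, g2, jcon, profInt_eq]
  field_simp
  ring

end Vale.Agent.P371.Five
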