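import Vale.Agent.P371.Five.Const

/-!
The one-soliton profile at exponent `5/4`: the inverse of
`p ↦ 3/4 (1 + p²) ^ (1/4) ∫₀^p (1 + t²) ^ (-5/4)`, the gauge built from it, and a comparison
principle that turns bounds on the profile into sign conditions of elementary functions.
-/

namespace Vale.Agent.P371.Five

open MeasureTheory Set Filter Topology

/-- `∫₀^p (1 + t²) ^ (-5/4)`. -/
noncomputable def zint (p : ℝ) : ℝ := ∫ t in (0 : ℝ)..p, (1 + t ^ 2) ^ (-(5 / 4) : ℝ)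

/-- The inverse of the profile. -/
noncomputable def zmap (p : ℝ) : ℝ := 3 / 4 * (1 + p ^ 2) ^ (1 / 4 : ℝ) * zint p

theorem continuous_zker : Continuous fun t : ℝ => (1 + t ^ 2) ^ (-(5 / 4) : ℝ) :=
  (continuous_const.add (continuous_pow 2)).rpow_const fun t =>
    Or.inl (ne_of_gt (by simp only [Pi.add_apply]; positivity))

theorem hasDerivAt_zint (p : ℝ) : HasDerivAt zint ((1 + p ^ 2) ^ (-(5 / 4) : ℝ)) p :=
  (continuous_zker.integral_hasStrictDerivAt 0 p).hasDerivAt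

theorem strictMono_zint : StrictMono zint :=
  strictMono_of_hasDerivAt_pos hasDerivAt_zint fun p => by positivity

theorem zint_zero : zint 0 = 0 := by simp [zint]

theorem zint_neg (p : ℝ) : zint (-p) = -zint p := by
  have h := intervalIntegral.integral_comp_neg (a := 0) (b := p)
    (fun t : ℝ => (1 + t ^ 2) ^ (-(5 / 4) : ℝ))
  simp only [neg_sq, neg_zero] at h
  rw [zint, zint, h, intervalIntegral.integral_symm]

theorem zmap_zero : zmap 0 = 0 := by simp [zmap, zint_zero]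

theorem zmap_neg (p : ℝ) : zmap (-p) = -zmap p := by
  rw [zmap, zmap, zint_neg, neg_sq]; ring

theorem zmap_mul_nonneg (p : ℝ) : 0 ≤ zmap p * p := by
  rcases le_total 0 p with h | h
  · have : 0 ≤ zint p := zint_zero ▸ strictMono_zint.monotone h
    unfold zmap; positivity
  · have h' : zint p ≤ 0 := zint_zero ▸ strictMono_zint.monotone h
    refine mul_nonneg_of_nonpos_of_nonpos (mul_nonpos_of_nonneg_of_nonpos ?_ h') h
    positivity

theorem hasDerivAt_zmap (p : ℝ) :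
    HasDerivAt zmap ((3 + 2 * zmap p * p) / (4 * (1 + p ^ 2))) p := by
  have hb : (0 : ℝ) < 1 + p ^ 2 := by positivity
  have h1 : HasDerivAt (fun p : ℝ => 1 + p ^ 2) (2 * p) p := by
    simpa using (hasDerivAt_pow 2 p).const_add 1
  have h2 := ((h1.rpow_const (p := (1 / 4 : ℝ)) (Or.inl hb.ne')).const_mul (3 / 4 : ℝ)).mul
    (hasDerivAt_zint p)
  refine h2.congr_deriv ?_
  have e1 : (1 + p ^ 2) ^ (1 / 4 - 1 : ℝ) = (1 + p ^ 2) ^ (1 / 4 : ℝ) / (1 + p ^ 2) := by
    rw [Real.rpow_sub hb, Real.rpow_one]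
  have e2 : (1 + p ^ 2) ^ (1 / 4 : ℝ) * (1 + p ^ 2) ^ (-(5 / 4) : ℝ) = 1 / (1 + p ^ 2) := by
    rw [← Real.rpow_add hb, show (1 / 4 : ℝ) + -(5 / 4) = -1 by norm_num, Real.rpow_neg_one,
      one_div]
  rw [e1, mul_assoc (3 / 4 : ℝ) ((1 + p ^ 2) ^ (1 / 4 : ℝ)), e2, zmap]
  field_simp
  ring

theorem strictMono_zmap : StrictMono zmap :=
  strictMono_of_hasDerivAt_pos hasDerivAt_zmap fun p => by
    have := zmap_mul_nonneg p
    exact div_pos (by linarith) (by positivity)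

theorem continuous_zmap : Continuous zmap :=
  continuous_iff_continuousAt.2 fun p => (hasDerivAt_zmap p).continuousAt

theorem zmap_ge {p : ℝ} (hp : 1 ≤ p) :
    3 / 4 * zint 1 * (1 + p ^ 2) ^ (1 / 4 : ℝ) ≤ zmap p := by
  rw [zmap, mul_right_comm]
  exact mul_le_mul_of_nonneg_left (strictMono_zint.monotone hp) (by positivity)

theorem zint_one_pos : 0 < zint 1 := zint_zero ▸ strictMono_zint one_pos

theorem tendsto_zmap : Tendsto zmap atTop atTop := by
  have h1 : Tendsto (fun p : ℝ => 1 + p ^ 2) atTop atTop :=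
    tendsto_atTop_add_const_left _ _ (tendsto_pow_atTop two_ne_zero)
  have h2 := ((tendsto_rpow_atTop (by norm_num : (0 : ℝ) < 1 / 4)).comp h1).const_mul_atTop
    (mul_pos (by norm_num : (0 : ℝ) < 3 / 4) zint_one_pos)
  exact tendsto_atTop_mono' _ (eventually_atTop.2 ⟨1, fun p hp => zmap_ge hp⟩) h2

theorem surjective_zmap : Function.Surjective zmap := by
  refine continuous_zmap.surjective tendsto_zmap ?_
  have h := tendsto_zmap.comp tendsto_neg_atBot_atTop
  have e : zmap = fun p => -(zmap ∘ Neg.neg) p := funext fun p => by simp [zmap_neg]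
  rw [e]
  exact tendsto_neg_atTop_atBot.comp h

/-- The profile. -/
noncomputable def prof : ℝ → ℝ :=
  (strictMono_zmap.orderIsoOfSurjective zmap surjective_zmap).symm

theorem zmap_prof (z : ℝ) : zmap (prof z) = z :=
  (strictMono_zmap.orderIsoOfSurjective zmap surjective_zmap).apply_symm_apply z

theorem prof_zmap (p : ℝ) : prof (zmap p) = p :=
  strictMono_zmap.injective (zmap_prof _)

theorem prof_zero : prof 0 = 0 := by simpa [zmap_zero] using prof_zmap 0

theorem prof_neg (z : ℝ) : prof (-z) = -prof z :=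
  strictMono_zmap.injective (by rw [zmap_prof, zmap_neg, zmap_prof])

theorem strictMono_prof : StrictMono prof :=
  (strictMono_zmap.orderIsoOfSurjective zmap surjective_zmap).symm.strictMono

theorem continuous_prof : Continuous prof :=
  (strictMono_zmap.orderIsoOfSurjective zmap surjective_zmap).symm.continuous

theorem prof_nonneg {z : ℝ} (hz : 0 ≤ z) : 0 ≤ prof z := prof_zero ▸ strictMono_prof.monotone hz

theorem mul_prof_nonneg (z : ℝ) : 0 ≤ z * prof z := by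
  have := zmap_mul_nonneg (prof z)
  rwa [zmap_prof] at this

theorem den_pos (z : ℝ) : 0 < 3 + 2 * z * prof z := by linarith [mul_prof_nonneg z]

/-- The derivative of the profile. -/
noncomputable def dprof (z : ℝ) : ℝ := 4 * (1 + prof z ^ 2) / (3 + 2 * z * prof z)

theorem dprof_pos (z : ℝ) : 0 < dprof z := div_pos (by positivity) (den_pos z)

theorem dprof_mul (z : ℝ) : dprof z * (3 + 2 * z * prof z) = 4 * (1 + prof z ^ 2) :=
  div_mul_cancel₀ _ (den_pos z).ne'

theorem hasDerivAt_prof (z : ℝ) : HasDerivAt prof (dprof z) z := by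
  have h := hasDerivAt_zmap (prof z)
  rw [zmap_prof] at h
  refine (h.of_local_left_inverse continuous_prof.continuousAt ?_
    (Eventually.of_forall zmap_prof)).congr_deriv ?_
  · exact (div_pos (den_pos z) (by positivity)).ne'
  · rw [dprof, inv_div]

/-- The second derivative of the profile. -/
noncomputable def ddprof (z : ℝ) : ℝ :=
  (8 * prof z * dprof z * (3 + 2 * z * prof z) -
    4 * (1 + prof z ^ 2) * (2 * prof z + 2 * z * dprof z)) / (3 + 2 * z * prof z) ^ 2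

theorem hasDerivAt_dprof (z : ℝ) : HasDerivAt dprof (ddprof z) z := by
  have hp := hasDerivAt_prof z
  have hn : HasDerivAt (fun z => 4 * (1 + prof z ^ 2)) (8 * prof z * dprof z) z :=
    (((hp.pow 2).const_add 1).const_mul (4 : ℝ)).congr_deriv (by simp; ring)
  have hd : HasDerivAt (fun z => 3 + 2 * z * prof z) (2 * prof z + 2 * z * dprof z) z :=
    ((((hasDerivAt_id' z).const_mul (2 : ℝ)).mul hp).const_add 3).congr_deriv (by ring)
  exact hn.div hd (den_pos z).ne'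

/-- The potential of the gauge. -/
noncomputable def phi (z : ℝ) : ℝ := (z * (1 + prof z ^ 2) + 3 * prof z - cg * z ^ 5) / 5

/-- Its derivative. -/
noncomputable def dphi (z : ℝ) : ℝ := 1 + prof z ^ 2 - cg * z ^ 4

/-- Its second derivative. -/
noncomputable def ddphi (z : ℝ) : ℝ := 2 * prof z * dprof z - 4 * cg * z ^ 3

/-- Its third derivative. -/
noncomputable def dddphi (z : ℝ) : ℝ :=
  2 * dprof z ^ 2 + 2 * prof z * ddprof z - 12 * cg * z ^ 2

theorem hasDerivAt_phi (z : ℝ) : HasDerivAt phi (dphi z) z := by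
  have hp := hasDerivAt_prof z
  have h := ((((hasDerivAt_id' z).mul ((hp.pow 2).const_add 1)).add (hp.const_mul 3)).sub
    ((hasDerivAt_pow 5 z).const_mul cg)).div_const 5
  refine h.congr_deriv ?_
  have e := dprof_mul z
  simp only [dphi, Pi.pow_apply]
  push_cast
  linear_combination (1 / 5 : ℝ) * e

theorem hasDerivAt_dphi (z : ℝ) : HasDerivAt dphi (ddphi z) z := by
  refine ((((hasDerivAt_prof z).pow 2).const_add 1).sub
    ((hasDerivAt_pow 4 z).const_mul cg)).congr_deriv ?_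
  simp only [ddphi]; push_cast; ring

theorem hasDerivAt_ddphi (z : ℝ) : HasDerivAt ddphi (dddphi z) z := by
  refine ((((hasDerivAt_prof z).const_mul (2 : ℝ)).mul (hasDerivAt_dprof z)).sub
    ((hasDerivAt_pow 3 z).const_mul (4 * cg))).congr_deriv ?_
  simp only [dddphi]; push_cast; ring

theorem continuous_dphi : Continuous dphi :=
  continuous_iff_continuousAt.2 fun z => (hasDerivAt_dphi z).continuousAt

theorem phi_zero : phi 0 = 0 := by simp [phi, prof_zero]

theorem dphi_zero : dphi 0 = 1 := by simp [dphi, prof_zero]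

theorem phi_neg (z : ℝ) : phi (-z) = -phi z := by simp only [phi, prof_neg]; ring

theorem dphi_neg (z : ℝ) : dphi (-z) = dphi z := by simp only [dphi, prof_neg]; ring

theorem prof_one_eq (z : ℝ) : cg * z ^ 4 + dphi z - prof z ^ 2 = 1 := by rw [dphi]; ring

theorem prof_mom (z : ℝ) : prof z = 5 / 3 * phi z - z * dphi z / 3 := by
  rw [phi, dphi]; ring

theorem prof_sub_phi (z : ℝ) : prof z - phi z = (2 * prof z - z * dphi z) / 5 := by
  rw [phi, dphi]; ring

theorem dprof_sub_dphi (z : ℝ) : dprof z - dphi z = (dphi z - z * ddphi z) / 3 := by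
  have e := dprof_mul z
  simp only [dphi, ddphi]
  linear_combination (1 / 3 : ℝ) * e

theorem hasDerivAt_prof_sub_phi (z : ℝ) :
    HasDerivAt (fun z => prof z - phi z) ((dphi z - z * ddphi z) / 3) z :=
  ((hasDerivAt_prof z).sub (hasDerivAt_phi z)).congr_deriv (dprof_sub_dphi z)

theorem abs_zint_le (p : ℝ) : |zint p| ≤ profInt := by
  have h : ∀ q, 0 ≤ q → zint q ≤ profInt := fun q hq => by
    rw [zint, intervalIntegral.integral_of_le hq]
    exact setIntegral_mono_set profInt_integrable (.of_forall fun t => by positivity)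
      Ioc_subset_Ioi_self.eventuallyLE
  rcases le_total 0 p with hp | hp
  · rw [abs_of_nonneg (zint_zero ▸ strictMono_zint.monotone hp)]; exact h p hp
  · rw [abs_of_nonpos (zint_zero ▸ strictMono_zint.monotone hp), ← zint_neg]
    exact h _ (neg_nonneg.2 hp)

theorem rpow_quarter_pow {x : ℝ} (hx : 0 ≤ x) : (x ^ (1 / 4 : ℝ)) ^ 4 = x := by
  rw [← Real.rpow_natCast, ← Real.rpow_mul hx]; norm_num

theorem cg_mul_pow_le (z : ℝ) : cg * z ^ 4 ≤ 1 + prof z ^ 2 := by
  have hr : (0 : ℝ) ≤ 1 + prof z ^ 2 := by positivity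
  have h : |z| ≤ jcon * (1 + prof z ^ 2) ^ (1 / 4 : ℝ) := by
    have := abs_zint_le (prof z)
    conv_lhs => rw [← zmap_prof z]
    rw [zmap, abs_mul, abs_of_nonneg (by positivity), jcon]
    nlinarith [Real.rpow_nonneg hr (1 / 4 : ℝ)]
  have h4 := pow_le_pow_left₀ (abs_nonneg z) h 4
  rw [mul_pow, rpow_quarter_pow hr, (by decide : Even 4).pow_abs] at h4
  rw [cg, div_mul_eq_mul_div, one_mul, div_le_iff₀ (by have := jcon_pos; positivity)]
  linarith

theorem dphi_nonneg (z : ℝ) : 0 ≤ dphi z := by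
  have := cg_mul_pow_le z
  rw [dphi]; linarith

theorem dphi_le (z : ℝ) : dphi z ≤ 1 + prof z ^ 2 := by
  have : 0 ≤ cg * z ^ 4 := mul_nonneg cg_pos.le (Even.pow_nonneg (by decide) z)
  rw [dphi]; linarith

theorem dphi_growth : ∃ K, ∀ z, |dphi z| ≤ K * (1 + z ^ 4) := by
  obtain ⟨m, hm⟩ : ∃ m, m = 3 / 4 * zint 1 := ⟨_, rfl⟩
  have hm0 : 0 < m := by rw [hm]; exact mul_pos (by norm_num) zint_one_pos
  refine ⟨2 + 1 / m ^ 4, fun z => ?_⟩
  rw [abs_of_nonneg (dphi_nonneg z)]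
  refine (dphi_le z).trans ?_
  have hz4 : 0 ≤ z ^ 4 := Even.pow_nonneg (by decide) z
  have hi : 0 ≤ 1 / m ^ 4 := by positivity
  rcases le_or_gt |prof z| 1 with h | h
  · have h2 : prof z ^ 2 ≤ 1 := (sq_le_one_iff_abs_le_one _).2 h
    nlinarith [mul_nonneg hi hz4]
  · have hb : m * (1 + prof z ^ 2) ^ (1 / 4 : ℝ) ≤ |z| := by
      rcases le_total 0 (prof z) with hp | hp
      · rw [abs_of_nonneg hp] at h
        refine le_trans ?_ (le_abs_self z)
        conv_rhs => rw [← zmap_prof z]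
        exact hm ▸ zmap_ge h.le
      · rw [abs_of_nonpos hp] at h
        refine le_trans ?_ (neg_le_abs z)
        have := zmap_ge h.le
        rw [neg_sq, zmap_neg, zmap_prof] at this
        exact hm ▸ this
    have h4 := pow_le_pow_left₀ (by positivity) hb 4
    rw [mul_pow, rpow_quarter_pow (by positivity), (by decide : Even 4).pow_abs] at h4
    have : 1 + prof z ^ 2 ≤ 1 / m ^ 4 * z ^ 4 := by
      rw [div_mul_eq_mul_div, one_mul, le_div_iff₀ (by positivity)]; linarith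
    nlinarith [mul_nonneg hi hz4]

/-! ### Comparison -/

/-- Zero exactly where `Q` passes through the profile. -/
noncomputable def gap (Q : ℝ → ℝ) (z : ℝ) : ℝ :=
  zint (Q z) - 4 / 3 * z * (1 + Q z ^ 2) ^ (-(1 / 4) : ℝ)

/-- The residual of a comparison function with value `Q` and derivative `Q'` at `z`. -/
def res (z Q Q' : ℝ) : ℝ := Q' * (3 + 2 * z * Q) - 4 * (1 + Q ^ 2)

theorem gap_nonneg_iff (Q : ℝ → ℝ) (z : ℝ) : 0 ≤ gap Q z ↔ prof z ≤ Q z := by
  rw [← strictMono_zmap.le_iff_le (a := prof z), zmap_prof, gap, sub_nonneg, zmap]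
  have hb : (0 : ℝ) < 1 + Q z ^ 2 := by positivity
  rw [Real.rpow_neg hb.le, ← div_eq_mul_inv, div_le_iff₀ (Real.rpow_pos_of_pos hb _)]
  constructor <;> intro h <;> nlinarith

theorem gap_nonpos_iff (Q : ℝ → ℝ) (z : ℝ) : gap Q z ≤ 0 ↔ Q z ≤ prof z := by
  rw [← strictMono_zmap.le_iff_le (b := prof z), zmap_prof, gap, sub_nonpos, zmap]
  have hb : (0 : ℝ) < 1 + Q z ^ 2 := by positivity
  rw [Real.rpow_neg hb.le, ← div_eq_mul_inv, le_div_iff₀ (Real.rpow_pos_of_pos hb _)]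
  constructor <;> intro h <;> nlinarith

theorem hasDerivAt_gap {Q : ℝ → ℝ} {q z : ℝ} (hQ : HasDerivAt Q q z) :
    HasDerivAt (gap Q) (res z (Q z) q * (1 + Q z ^ 2) ^ (-(5 / 4) : ℝ) / 3) z := by
  have hb : (0 : ℝ) < 1 + Q z ^ 2 := by positivity
  have h := ((hasDerivAt_zint (Q z)).comp z hQ).sub
    (((hasDerivAt_id' z).const_mul (4 / 3 : ℝ)).mul
      (((hQ.pow 2).const_add 1).rpow_const (p := (-(1 / 4) : ℝ)) (Or.inl hb.ne')))
  refine h.congr_deriv ?_
  have e1 : (1 + Q z ^ 2) ^ (-(1 / 4) - 1 : ℝ) = (1 + Q z ^ 2) ^ (-(5 / 4) : ℝ) := by norm_num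
  have e2 : (1 + Q z ^ 2) ^ (-(1 / 4) : ℝ) =
      (1 + Q z ^ 2) ^ (-(5 / 4) : ℝ) * (1 + Q z ^ 2) := by
    rw [show (-(1 / 4) : ℝ) = -(5 / 4) + 1 by norm_num, Real.rpow_add hb, Real.rpow_one]
  simp only [Pi.pow_apply]
  rw [e1, e2, res]
  push_cast
  ring

theorem monotoneOn_gap {Q Q' : ℝ → ℝ} {D : Set ℝ} (hD : Convex ℝ D)
    (hQ : ∀ z ∈ D, HasDerivAt Q (Q' z) z) (hres : ∀ z ∈ D, 0 ≤ res z (Q z) (Q' z)) :
    MonotoneOn (gap Q) D :=
  monotoneOn_of_hasDerivWithinAt_nonneg hD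
    (fun z hz => (hasDerivAt_gap (hQ z hz)).continuousAt.continuousWithinAt)
    (fun z hz => (hasDerivAt_gap (hQ z (interior_subset hz))).hasDerivWithinAt)
    fun z hz => by have := hres z (interior_subset hz); positivity

theorem antitoneOn_gap {Q Q' : ℝ → ℝ} {D : Set ℝ} (hD : Convex ℝ D)
    (hQ : ∀ z ∈ D, HasDerivAt Q (Q' z) z) (hres : ∀ z ∈ D, res z (Q z) (Q' z) ≤ 0) :
    AntitoneOn (gap Q) D :=
  antitoneOn_of_hasDerivWithinAt_nonpos hD
    (fun z hz => (hasDerivAt_gap (hQ z hz)).continuousAt.continuousWithinAt)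
    (fun z hz => (hasDerivAt_gap (hQ z (interior_subset hz))).hasDerivWithinAt)
    fun z hz => by
      have h := mul_nonpos_of_nonpos_of_nonneg (hres z (interior_subset hz))
        (Real.rpow_nonneg (by positivity : (0 : ℝ) ≤ 1 + Q z ^ 2) (-(5 / 4)))
      linarith

/-- A supersolution starting above the profile stays above it. -/
theorem prof_le_of_res {Q Q' : ℝ → ℝ} {a b : ℝ} (hab : a ≤ b)
    (hQ : ∀ z ∈ Icc a b, HasDerivAt Q (Q' z) z) (hres : ∀ z ∈ Icc a b, 0 ≤ res z (Q z) (Q' z))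
    (h0 : prof a ≤ Q a) : ∀ z ∈ Icc a b, prof z ≤ Q z := fun z hz =>
  (gap_nonneg_iff Q z).1 (((gap_nonneg_iff Q a).2 h0).trans
    (monotoneOn_gap (convex_Icc a b) hQ hres (left_mem_Icc.2 hab) hz hz.1))

/-- A subsolution starting below the profile stays below it. -/
theorem le_prof_of_res {Q Q' : ℝ → ℝ} {a b : ℝ} (hab : a ≤ b)
    (hQ : ∀ z ∈ Icc a b, HasDerivAt Q (Q' z) z) (hres : ∀ z ∈ Icc a b, res z (Q z) (Q' z) ≤ 0)
    (h0 : Q a ≤ prof a) : ∀ z ∈ Icc a b, Q z ≤ prof z := fun z hz =>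
  (gap_nonpos_iff Q z).1 ((antitoneOn_gap (convex_Icc a b) hQ hres (left_mem_Icc.2 hab) hz
    hz.1).trans ((gap_nonpos_iff Q a).2 h0))

theorem profInt_eq_rpow : profInt = 4 / 3 * cg ^ (-(1 / 4) : ℝ) := by
  have hj := jcon_pos
  rw [cg, one_div (jcon ^ 4), Real.inv_rpow (by positivity), ← Real.rpow_natCast jcon 4,
    ← Real.rpow_mul hj.le, ← Real.rpow_neg hj.le]
  norm_num [jcon]
  ring

theorem tendsto_gap_of_lim {Q : ℝ → ℝ} {b : ℝ} (hb : 0 < b)
    (hQ : Tendsto (fun z => Q z / z ^ 2) atTop (𝓝 b)) :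
    Tendsto (gap Q) atTop (𝓝 (profInt - 4 / 3 * (b ^ 2) ^ (-(1 / 4) : ℝ))) := by
  have hQt : Tendsto Q atTop atTop := by
    refine Tendsto.congr' ?_ (hQ.pos_mul_atTop hb (tendsto_pow_atTop two_ne_zero))
    filter_upwards [eventually_gt_atTop (0 : ℝ)] with z hz using by field_simp
  have h1 : Tendsto (fun z => zint (Q z)) atTop (𝓝 profInt) :=
    intervalIntegral_tendsto_integral_Ioi 0 profInt_integrable hQt
  have h3 : Tendsto (fun z : ℝ => (1 / z ^ 4 + (Q z / z ^ 2) ^ 2)) atTop (𝓝 (b ^ 2)) := by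
    have := (tendsto_const_nhds.div_atTop (tendsto_pow_atTop (α := ℝ) (by norm_num : 4 ≠ 0))
      (a := (1 : ℝ))).add (hQ.pow 2)
    rwa [zero_add] at this
  have h4 := ((h3.rpow_const (p := (-(1 / 4) : ℝ)) (Or.inl (pow_ne_zero _ hb.ne')))).const_mul
    (4 / 3 : ℝ)
  refine h1.sub (h4.congr' ?_)
  filter_upwards [eventually_gt_atTop (0 : ℝ)] with z hz
  have e1 : 1 / z ^ 4 + (Q z / z ^ 2) ^ 2 = (1 + Q z ^ 2) * (z ^ 4)⁻¹ := by field_simp
  have e2 : ((z ^ 4)⁻¹) ^ (-(1 / 4) : ℝ) = z := by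
    rw [Real.inv_rpow (by positivity), ← Real.rpow_natCast z 4, ← Real.rpow_mul hz.le,
      ← Real.rpow_neg hz.le]
    norm_num
  rw [e1, Real.mul_rpow (by positivity) (by positivity), e2]
  ring

theorem tendsto_gap {Q : ℝ → ℝ} (hQ : Tendsto (fun z => Q z / z ^ 2) atTop (𝓝 (Real.sqrt cg))) :
    Tendsto (gap Q) atTop (𝓝 0) := by
  have h := tendsto_gap_of_lim (Real.sqrt_pos.2 cg_pos) hQ
  rwa [Real.sq_sqrt cg_pos.le, ← profInt_eq_rpow, sub_self] at h

/-- A supersolution on a half line with growth at most that of the profile is below it. -/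
theorem le_prof_of_res_lim {Q Q' : ℝ → ℝ} {a b : ℝ}
    (hQ : ∀ z ∈ Ici a, HasDerivAt Q (Q' z) z) (hres : ∀ z ∈ Ici a, 0 ≤ res z (Q z) (Q' z))
    (hb0 : 0 < b) (hb : b ^ 2 ≤ cg) (hlim : Tendsto (fun z => Q z / z ^ 2) atTop (𝓝 b)) :
    ∀ z ∈ Ici a, Q z ≤ prof z := fun z hz => by
  have h : gap Q z ≤ profInt - 4 / 3 * (b ^ 2) ^ (-(1 / 4) : ℝ) :=
    ge_of_tendsto (tendsto_gap_of_lim hb0 hlim) (eventually_atTop.2 ⟨z, fun _ hw =>
      monotoneOn_gap (convex_Ici a) hQ hres hz (le_trans (mem_Ici.1 hz) hw) hw⟩)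
  have h2 := Real.rpow_le_rpow_of_nonpos (pow_pos hb0 2) hb (by norm_num : (-(1 / 4) : ℝ) ≤ 0)
  exact (gap_nonpos_iff Q z).1 (by rw [profInt_eq_rpow] at h; linarith)

/-- A subsolution on a half line with growth at least that of the profile is above it. -/
theorem prof_le_of_res_lim {Q Q' : ℝ → ℝ} {a b : ℝ}
    (hQ : ∀ z ∈ Ici a, HasDerivAt Q (Q' z) z) (hres : ∀ z ∈ Ici a, res z (Q z) (Q' z) ≤ 0)
    (hb0 : 0 < b) (hb : cg ≤ b ^ 2) (hlim : Tendsto (fun z => Q z / z ^ 2) atTop (𝓝 b)) :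
    ∀ z ∈ Ici a, prof z ≤ Q z := fun z hz => by
  have h : profInt - 4 / 3 * (b ^ 2) ^ (-(1 / 4) : ℝ) ≤ gap Q z :=
    le_of_tendsto (tendsto_gap_of_lim hb0 hlim) (eventually_atTop.2 ⟨z, fun _ hw =>
      antitoneOn_gap (convex_Ici a) hQ hres hz (le_trans (mem_Ici.1 hz) hw) hw⟩)
  have h2 := Real.rpow_le_rpow_of_nonpos cg_pos hb (by norm_num : (-(1 / 4) : ℝ) ≤ 0)
  exact (gap_nonneg_iff Q z).1 (by rw [profInt_eq_rpow] at h; linarith)

/-- A supersolution on a half line with the right growth is below the profile. -/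
theorem le_prof_of_res_atTop {Q Q' : ℝ → ℝ} {a : ℝ}
    (hQ : ∀ z ∈ Ici a, HasDerivAt Q (Q' z) z) (hres : ∀ z ∈ Ici a, 0 ≤ res z (Q z) (Q' z))
    (hlim : Tendsto (fun z => Q z / z ^ 2) atTop (𝓝 (Real.sqrt cg))) :
    ∀ z ∈ Ici a, Q z ≤ prof z := fun z hz =>
  (gap_nonpos_iff Q z).1 (ge_of_tendsto (tendsto_gap hlim) (eventually_atTop.2 ⟨z, fun _ hw =>
    monotoneOn_gap (convex_Ici a) hQ hres hz (le_trans (mem_Ici.1 hz) hw) hw⟩))

/-- A subsolution on a half line with the right growth is above the profile. -/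
theorem prof_le_of_res_atTop {Q Q' : ℝ → ℝ} {a : ℝ}
    (hQ : ∀ z ∈ Ici a, HasDerivAt Q (Q' z) z) (hres : ∀ z ∈ Ici a, res z (Q z) (Q' z) ≤ 0)
    (hlim : Tendsto (fun z => Q z / z ^ 2) atTop (𝓝 (Real.sqrt cg))) :
    ∀ z ∈ Ici a, prof z ≤ Q z := fun z hz =>
  (gap_nonneg_iff Q z).1 (le_of_tendsto (tendsto_gap hlim) (eventually_atTop.2 ⟨z, fun _ hw =>
    antitoneOn_gap (convex_Ici a) hQ hres hz (le_trans (mem_Ici.1 hz) hw) hw⟩))

/-- A supersolution through the origin is above the profile. -/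
theorem prof_le_of_res_zero {Q Q' : ℝ → ℝ} {b : ℝ}
    (hQ : ∀ z ∈ Icc 0 b, HasDerivAt Q (Q' z) z) (hres : ∀ z ∈ Icc 0 b, 0 ≤ res z (Q z) (Q' z))
    (h0 : 0 ≤ Q 0) : ∀ z ∈ Icc 0 b, prof z ≤ Q z := fun z hz =>
  prof_le_of_res (hz.1.trans hz.2) hQ hres (by rwa [prof_zero]) z hz

/-- A subsolution through the origin is below the profile. -/
theorem le_prof_of_res_zero {Q Q' : ℝ → ℝ} {b : ℝ}
    (hQ : ∀ z ∈ Icc 0 b, HasDerivAt Q (Q' z) z) (hres : ∀ z ∈ Icc 0 b, res z (Q z) (Q' z) ≤ 0)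
    (h0 : Q 0 ≤ 0) : ∀ z ∈ Icc 0 b, Q z ≤ prof z := fun z hz =>
  le_prof_of_res (hz.1.trans hz.2) hQ hres (by rwa [prof_zero]) z hz

end Vale.Agent.P371.Five
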