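import Vale.Agent.P371.Five.EnclData
import Vale.Agent.P371.Five.Profile

/-!
Enclosure of the profile on `[0, 2]` between two polynomials exact to third order at `0`.
-/

namespace Vale.Agent.P371.Five.Encl

open PolyCert Set

/-- The formal derivative, with `k` the degree of the first coefficient. -/
def derivAux : ℕ → P1 → P1
  | _, [] => []
  | k, a :: p => (k : ℚ) * a :: derivAux (k + 1) p

/-- The formal derivative. -/
def deriv1 : P1 → P1
  | [] => []
  | _ :: p => derivAux 1 p

theorem ev_derivAux : ∀ (p : P1) (k : ℕ) (z : ℝ),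
    ev (derivAux (k + 1) p) z = (k + 1 : ℝ) * ev p z + z * ev (deriv1 p) z
  | [], k, z => by simp [derivAux, deriv1]
  | a :: p, k, z => by
    have h0 := ev_derivAux p (k + 1) z
    have h1 := ev_derivAux p 0 z
    simp only [derivAux, deriv1, ev_cons, zero_add] at *
    push_cast at *
    rw [h0, h1]
    ring

theorem hasDerivAt_ev : ∀ (p : P1) (z : ℝ), HasDerivAt (ev p) (ev (deriv1 p) z) z
  | [], z => by simpa [ev, deriv1] using hasDerivAt_const z (0 : ℝ)
  | a :: p, z => by
    have h := ((hasDerivAt_id z).mul (hasDerivAt_ev p z)).const_add (a : ℝ)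
    refine h.congr_deriv ?_
    have := ev_derivAux p 0 z
    simp only [Nat.cast_zero, zero_add, one_mul] at this
    simp only [deriv1, id_eq, this, one_mul]

theorem continuous_ev (p : P1) : Continuous (ev p) :=
  continuous_iff_continuousAt.2 fun z => (hasDerivAt_ev p z).continuousAt

/-- The residual of the differential equation at a polynomial. -/
def resP (q d : P1) : P1 :=
  add (mul d (add [3] (mul [0, 2] q))) (smul (-4) (add [1] (mul q q)))

theorem ev_resP (q d : P1) (z : ℝ) :
    ev (resP q d) z = res z (ev q z) (ev d z) := by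
  simp only [res, resP, ev_add, ev_mul, ev_smul, ev_cons, ev_nil]
  push_cast
  ring

/-- The certificate of the two barriers. -/
def barrierOK : Bool :=
  decide ((resP lowP lowPD).take 4 = [0, 0, 0, 0]) &&
  decide ((resP uppP uppPD).take 4 = [0, 0, 0, 0]) &&
  decide (deriv1 lowP = lowPD) && decide (deriv1 uppP = uppPD) &&
  pos (smul (-1) ((resP lowP lowPD).drop 4)) 12 1 1 && pos ((resP uppP uppPD).drop 4) 12 1 1 &&
  pos (lowP.drop 1) 12 1 1 &&
  decide (lowP.take 1 = [0]) && decide (uppP.take 1 = [0])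

theorem barrierOK_eq : barrierOK = true := by decide +kernel

theorem ev_take_drop : ∀ (n : ℕ) (p : P1) (z : ℝ), p.take n = List.replicate n 0 →
    ev p z = z ^ n * ev (p.drop n) z
  | 0, p, z, _ => by simp
  | n + 1, [], z, _ => by simp
  | n + 1, a :: p, z, h => by
    simp only [List.take_succ_cons, List.replicate_succ, List.cons.injEq] at h
    rw [ev_cons, List.drop_succ_cons, ev_take_drop n p z h.2, h.1, Rat.cast_zero, pow_succ]
    ring

theorem mem_pos {p : P1} {z : ℝ} (h : pos p 12 1 1 = true) (hz : z ∈ Icc (0 : ℝ) 2) : 0 < ev p z :=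
  pos_spec p 12 1 1 h z (by rw [abs_le]; push_cast; exact ⟨by linarith [hz.1], by linarith [hz.2]⟩)

/-- **The enclosure on `[0, 2]`.** -/
theorem mem_barriers {z : ℝ} (hz : z ∈ Icc (0 : ℝ) 2) :
    0 ≤ ev lowP z ∧ ev lowP z ≤ prof z ∧ prof z ≤ ev uppP z := by
  have h := barrierOK_eq
  simp only [barrierOK, Bool.and_eq_true, decide_eq_true_eq] at h
  obtain ⟨⟨⟨⟨⟨⟨⟨⟨t1, t2⟩, d1⟩, d2⟩, r1⟩, r2⟩, l1⟩, l0⟩, u0⟩ := h
  refine ⟨?_, ?_, ?_⟩
  · rw [ev_take_drop 1 lowP z l0, pow_one]
    exact mul_nonneg hz.1 (mem_pos l1 hz).le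
  · refine le_prof_of_res_zero (b := 2) (fun t _ => d1 ▸ hasDerivAt_ev lowP t) (fun t ht => ?_)
      (by simp [ev_take_drop 1 lowP 0 l0]) z hz
    have := mem_pos r1 ht
    rw [ev_smul] at this
    push_cast at this
    rw [← ev_resP, ev_take_drop 4 (resP lowP lowPD) t t1]
    exact mul_nonpos_of_nonneg_of_nonpos (pow_nonneg ht.1 4) (by linarith)
  · refine prof_le_of_res_zero (b := 2) (fun t _ => d2 ▸ hasDerivAt_ev uppP t) (fun t ht => ?_)
      (by simp [ev_take_drop 1 uppP 0 u0]) z hz
    rw [← ev_resP, ev_take_drop 4 (resP uppP uppPD) t t2]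
    exact mul_nonneg (pow_nonneg ht.1 4) (mem_pos r2 ht).le

end Vale.Agent.P371.Five.Encl
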