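import Vale.Agent.P371.Five.PolyCert

/-!
Polynomial barriers for the profile at exponent `5/4` on `[0, 2]`.
-/

namespace Vale.Agent.P371.Five.Encl

open PolyCert

/-- The lower barrier, exact to third order at `0`. -/
def lowP : P1 := [
    0,
    4 / 3,
    0,
    32 / 81,
    0,
    -25562243093 / 360287970189639680,
    0,
    -1071183789202933 / 72057594037927936,
    0,
    26493913778609 / 4503599627370496,
    0,
    -586898685367109 / 792633534417207296,
    0,
    -38212645236491 / 72057594037927936,
    0,
    442225320339479 / 1080863910568919040,
    0,
    -188454503468327 / 1224979098644774912,
    0,
    49948375814931 / 1369094286720630784,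
    0,
    -8313139749301 / 1513209474796486656,
    0,
    99569385873 / 207165582859042816,
    0,
    -33537699313 / 1801439850948198400]

/-- Its derivative. -/
def lowPD : P1 := [
    4 / 3,
    0,
    32 / 27,
    0,
    -25562243093 / 72057594037927936,
    0,
    -7498286524420531 / 72057594037927936,
    0,
    238445224007481 / 4503599627370496,
    0,
    -586898685367109 / 72057594037927936,
    0,
    -496764388074383 / 72057594037927936,
    0,
    442225320339479 / 72057594037927936,
    0,
    -188454503468327 / 72057594037927936,
    0,
    49948375814931 / 72057594037927936,
    0,
    -8313139749301 / 72057594037927936,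
    0,
    99569385873 / 9007199254740992,
    0,
    -33537699313 / 72057594037927936]

/-- The upper barrier, exact to third order at `0`. -/
def uppP : P1 := [
    0,
    4 / 3,
    0,
    32 / 81,
    0,
    50098179451 / 360287970189639680,
    0,
    -7498246169455743 / 504403158265495552,
    0,
    3815107051704577 / 648518346341351424,
    0,
    -73362246184317 / 99079191802150912,
    0,
    -496760434433225 / 936748722493063168,
    0,
    442222351637707 / 1080863910568919040,
    0,
    -23556660136215 / 153122387330596864,
    0,
    49948055352289 / 1369094286720630784,
    0,
    -8313086648693 / 1513209474796486656,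
    0,
    398275005305 / 828662331436171264,
    0,
    -33537485903 / 1801439850948198400]

/-- Its derivative. -/
def uppPD : P1 := [
    4 / 3,
    0,
    32 / 27,
    0,
    50098179451 / 72057594037927936,
    0,
    -7498246169455743 / 72057594037927936,
    0,
    3815107051704577 / 72057594037927936,
    0,
    -73362246184317 / 9007199254740992,
    0,
    -496760434433225 / 72057594037927936,
    0,
    442222351637707 / 72057594037927936,
    0,
    -23556660136215 / 9007199254740992,
    0,
    49948055352289 / 72057594037927936,
    0,
    -8313086648693 / 72057594037927936,
    0,
    398275005305 / 36028797018963968,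
    0,
    -33537485903 / 72057594037927936]

end Vale.Agent.P371.Five.Encl
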