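import Vale.Agent.P371.Five.Profile
import Vale.Agent.P371.Five.Bounds
import Vale.Agent.P371.Five.CgBounds

/-!
`P - loP` and `hiP - P` are monotone on the half line: the barriers that give this.
-/

namespace Vale.Agent.P371.Five

open Set Filter Topology

/-- The right-hand side of the profile equation. -/
noncomputable def profRhs (z p : ℝ) : ℝ := 4 * (1 + p ^ 2) / (3 + 2 * z * p)

theorem profRhs_mono {z a b : ℝ} (hz : 0 ≤ z) (ha : z / 3 ≤ a) (hab : a ≤ b) :
    profRhs z a ≤ profRhs z b := by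
  have h0 : 0 ≤ a := le_trans (by positivity) ha
  have hA : 0 < 3 + 2 * z * a := by positivity
  have hB : 0 < 3 + 2 * z * b := by nlinarith [mul_nonneg hz (h0.trans hab)]
  have h : 0 ≤ (b - a) * (3 * (a + b) + 2 * z * (a * b) - 2 * z) :=
    mul_nonneg (sub_nonneg.2 hab)
      (by nlinarith [mul_nonneg hz (mul_nonneg h0 (h0.trans hab))])
  unfold profRhs
  rw [div_le_div_iff₀ hA hB]
  nlinarith

private noncomputable def resN (N Nd M Md z : ℝ) : ℝ :=
  (Nd * M - N * Md) * (3 * M + 2 * z * N) - 4 * M * (M ^ 2 + N ^ 2)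

private noncomputable def ratD (b g e z : ℝ) : ℝ :=
  4 / 3 * (1 + 2 * b * z + (3 * g + b * e) * z ^ 2 + 2 * g * e * z ^ 3)

private noncomputable def gapN (N M b g e z : ℝ) : ℝ :=
  4 * (M ^ 2 + N ^ 2) * (1 + e * z) ^ 2 - ratD b g e z * (M * (3 * M + 2 * z * N))

theorem profRhs_prof (z : ℝ) : dprof z = profRhs z (prof z) := rfl

/-- Lower barrier for the profile on `[0, 3/2]`. -/
noncomputable def low1 (z : ℝ) : ℝ := 4 / 3 * z + 32 / 81 * z ^ 3 - 12 / 1000 * z ^ 6

/-- Numerator of the lower barrier on `[3/2, ∞)`. -/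
noncomputable def low2Num (z : ℝ) : ℝ := 1238 / 1000 * z ^ 4 + z - 55 / 100

/-- Numerator of the upper barrier on `[1, ∞)`. -/
noncomputable def upp2Num (z : ℝ) : ℝ := 1239 / 1000 * z ^ 4 + z - 2 / 5

private noncomputable def hiN (z : ℝ) : ℝ :=
  4 / 3 * z * (1 + 58 / 100 * z + 584 / 1000 * z ^ 2)

private theorem sub1 {z : ℝ} (h₀ : 0 ≤ z) (h₁ : z ≤ (3 / 2)) :
    0 ≤ resN (low1 z) (4 / 3 + 32 / 27 * z ^ 2 - 72 / 1000 * z ^ 5) 1 0 z * -1 := by
  have key : (resN (low1 z) (4 / 3 + 32 / 27 * z ^ 2 - 72 / 1000 * z ^ 5) 1 0 z * -1) * ((3 / 2)) ^ 12 =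
      (fun u v : ℝ => (6561 / 4000) * u ^ 5 * v ^ 7 +
      (285343 / 36000) * u ^ 6 * v ^ 6 +
      (88513 / 6000) * u ^ 7 * v ^ 5 +
      (3683 / 300) * u ^ 8 * v ^ 4 +
      (32563 / 7200) * u ^ 9 * v ^ 3 +
      (35783 / 12000) * u ^ 10 * v ^ 2 +
      (22903 / 6000) * u ^ 11 * v +
      (402617279 / 288000000) * u ^ 12)
        (z - 0) ((3 / 2) - z) := by
    simp only [resN, low1]; ring
  have hu := sub_nonneg.2 h₀
  have hv := sub_nonneg.2 h₁
  refine (mul_nonneg_iff_of_pos_right (by positivity : (0 : ℝ) < ((3 / 2)) ^ 12)).1 ?_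
  rw [key]
  try dsimp only
  positivity

private theorem gap1a {z : ℝ} (h₀ : 0 ≤ z) (h₁ : z ≤ (3 / 4)) :
    0 ≤ gapN (low1 z) 1 (55 / 100) (786 / 1000) (848 / 1000) z := by
  have key : (gapN (low1 z) 1 (55 / 100) (786 / 1000) (848 / 1000) z) * ((3 / 4)) ^ 14 =
      (fun u v : ℝ => (447 / 250) * u * v ^ 13 +
      (5126771 / 250000) * u ^ 2 * v ^ 12 +
      (26952369 / 250000) * u ^ 3 * v ^ 11 +
      (171622613 / 500000) * u ^ 4 * v ^ 10 +
      (368182897 / 500000) * u ^ 5 * v ^ 9 +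
      (10080817201 / 9000000) * u ^ 6 * v ^ 8 +
      (142525606207 / 115200000) * u ^ 7 * v ^ 7 +
      (4602304341203 / 4608000000) * u ^ 8 * v ^ 6 +
      (2693923601097103 / 4608000000000) * u ^ 9 * v ^ 5 +
      (69828795167069 / 288000000000) * u ^ 10 * v ^ 4 +
      (157353493284437 / 2304000000000) * u ^ 11 * v ^ 3 +
      (3594589402473917 / 294912000000000) * u ^ 12 * v ^ 2 +
      (364861856882329 / 294912000000000) * u ^ 13 * v +
      (8800318280295601 / 147456000000000000) * u ^ 14)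
        (z - 0) ((3 / 4) - z) := by
    simp only [gapN, low1, ratD]; ring
  have hu := sub_nonneg.2 h₀
  have hv := sub_nonneg.2 h₁
  refine (mul_nonneg_iff_of_pos_right (by positivity : (0 : ℝ) < ((3 / 4)) ^ 14)).1 ?_
  rw [key]
  try dsimp only
  positivity

private theorem gap1b {z : ℝ} (h₀ : (3 / 4) ≤ z) (h₁ : z ≤ (3 / 2)) :
    0 ≤ gapN (low1 z) 1 (55 / 100) (786 / 1000) (848 / 1000) z := by
  have key : (gapN (low1 z) 1 (55 / 100) (786 / 1000) (848 / 1000) z) * ((3 / 4)) ^ 14 =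
      (fun u v : ℝ => (8800318280295601 / 147456000000000000) * v ^ 14 +
      (7997247925889041 / 18432000000000000) * u * v ^ 13 +
      (32175801974285033 / 18432000000000000) * u ^ 2 * v ^ 12 +
      (18463816854796897 / 1536000000000000) * u ^ 3 * v ^ 11 +
      (84919159801660039 / 1024000000000000) * u ^ 4 * v ^ 10 +
      (69422610611704123 / 192000000000000) * u ^ 5 * v ^ 9 +
      (587741571940510357 / 576000000000000) * u ^ 6 * v ^ 8 +
      (284171176781339579 / 144000000000000) * u ^ 7 * v ^ 7 +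
      (1558745673429838303 / 576000000000000) * u ^ 8 * v ^ 6 +
      (63992467219708871 / 24000000000000) * u ^ 9 * v ^ 5 +
      (15029073571512457 / 8000000000000) * u ^ 10 * v ^ 4 +
      (5541695716938397 / 6000000000000) * u ^ 11 * v ^ 3 +
      (10813463726671441 / 36000000000000) * u ^ 12 * v ^ 2 +
      (32527527473177 / 562500000000) * u ^ 13 * v +
      (5573670257747 / 1125000000000) * u ^ 14)
        (z - (3 / 4)) ((3 / 2) - z) := by
    simp only [gapN, low1, ratD]; ring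
  have hu := sub_nonneg.2 h₀
  have hv := sub_nonneg.2 h₁
  refine (mul_nonneg_iff_of_pos_right (by positivity : (0 : ℝ) < ((3 / 4)) ^ 14)).1 ?_
  rw [key]
  try dsimp only
  positivity

private theorem sup2 {z : ℝ} (h₀ : (3 / 2) ≤ z) :
    0 ≤ resN (low2Num z) (4 * (1238 / 1000) * z ^ 3 + 1) (z ^ 2) (2 * z) z := by
  obtain ⟨t, ht, rfl⟩ : ∃ t, 0 ≤ t ∧ z = (3 / 2) + t := ⟨z - (3 / 2), sub_nonneg.2 h₀, by ring⟩
  have key : resN (low2Num ((3 / 2) + t)) (4 * (1238 / 1000) * ((3 / 2) + t) ^ 3 + 1) (((3 / 2) + t) ^ 2) (2 * ((3 / 2) + t)) ((3 / 2) + t) =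
      (208161 / 80000) +
      (228561 / 20000) * t +
      (141907 / 4000) * t ^ 2 +
      (27343 / 500) * t ^ 3 +
      (39843 / 1000) * t ^ 4 +
      (16281 / 1250) * t ^ 5 +
      (1809 / 1250) * t ^ 6 := by
    simp only [resN, low2Num]; ring
  rw [key]
  try dsimp only
  positivity

private theorem gap2 {z : ℝ} (h₀ : (3 / 2) ≤ z) :
    0 ≤ gapN (low2Num z) (z ^ 2) (55 / 100) (786 / 1000) (848 / 1000) z := by
  obtain ⟨t, ht, rfl⟩ : ∃ t, 0 ≤ t ∧ z = (3 / 2) + t := ⟨z - (3 / 2), sub_nonneg.2 h₀, by ring⟩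
  have key : gapN (low2Num ((3 / 2) + t)) (((3 / 2) + t) ^ 2) (55 / 100) (786 / 1000) (848 / 1000) ((3 / 2) + t) =
      (7366926168751 / 250000000000) +
      (5506824609479 / 25000000000) * t +
      (8603680781151 / 12500000000) * t ^ 2 +
      (5677946087759 / 4687500000) * t ^ 3 +
      (6201076975973 / 4687500000) * t ^ 4 +
      (3618561320057 / 3906250000) * t ^ 5 +
      (486933226157 / 1171875000) * t ^ 6 +
      (33677315039 / 292968750) * t ^ 7 +
      (10407682157 / 585937500) * t ^ 8 +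
      (348065557 / 292968750) * t ^ 9 +
      (1869999 / 244140625) * t ^ 10 := by
    simp only [gapN, low2Num, ratD]; ring
  rw [key]
  try dsimp only
  positivity

private theorem supH {z : ℝ} (h₀ : 0 ≤ z) (h₁ : z ≤ 1) :
    0 ≤ resN (hiN z) (4 / 3 * (1 + 2 * (58 / 100) * z + 3 * (584 / 1000) * z ^ 2)) (1 + 58 / 100 * z) (58 / 100) z := by
  have key : (resN (hiN z) (4 / 3 * (1 + 2 * (58 / 100) * z + 3 * (584 / 1000) * z ^ 2)) (1 + 58 / 100 * z) (58 / 100) z) * (1) ^ 6 =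
      (fun u v : ℝ => (3884 / 1125) * u ^ 2 * v ^ 4 +
      (80986 / 5625) * u ^ 3 * v ^ 3 +
      (1598536 / 78125) * u ^ 4 * v ^ 2 +
      (6779318 / 703125) * u ^ 5 * v +
      (89948 / 140625) * u ^ 6)
        (z - 0) (1 - z) := by
    simp only [resN, hiN]; ring
  have hu := sub_nonneg.2 h₀
  have hv := sub_nonneg.2 h₁
  refine (mul_nonneg_iff_of_pos_right (by positivity : (0 : ℝ) < (1) ^ 6)).1 ?_
  rw [key]
  try dsimp only
  positivity

private theorem subU {z : ℝ} (h₀ : 1 ≤ z) :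
    0 ≤ resN (upp2Num z) (4 * (1239 / 1000) * z ^ 3 + 1) (z ^ 2) (2 * z) z * -1 := by
  obtain ⟨t, ht, rfl⟩ : ∃ t, 0 ≤ t ∧ z = 1 + t := ⟨z - 1, sub_nonneg.2 h₀, by ring⟩
  have key : resN (upp2Num (1 + t)) (4 * (1239 / 1000) * (1 + t) ^ 3 + 1) ((1 + t) ^ 2) (2 * (1 + t)) (1 + t) * -1 =
      (1447 / 625) +
      (9232 / 625) * t +
      (3976 / 125) * t ^ 2 +
      (3588 / 125) * t ^ 3 +
      (1191 / 125) * t ^ 4 +
      (132 / 625) * t ^ 5 +
      (22 / 625) * t ^ 6 := by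
    simp only [resN, upp2Num]; ring
  rw [key]
  try dsimp only
  positivity

private theorem gapUa {z : ℝ} (h₀ : 1 ≤ z) (h₁ : z ≤ (5 / 2)) :
    0 ≤ gapN (upp2Num z) (z ^ 2) (58 / 100) (584 / 1000) (58 / 100) z * -1 := by
  have key : (gapN (upp2Num z) (z ^ 2) (58 / 100) (584 / 1000) (58 / 100) z * -1) * ((3 / 2)) ^ 10 =
      (fun u v : ℝ => (64730639 / 625000000) * v ^ 10 +
      (37572053 / 5000000) * u * v ^ 9 +
      (10821082227 / 100000000) * u ^ 2 * v ^ 8 +
      (17776392597 / 25000000) * u ^ 3 * v ^ 7 +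
      (522310974759 / 200000000) * u ^ 4 * v ^ 6 +
      (230818962387 / 40000000) * u ^ 5 * v ^ 5 +
      (248217245079 / 32000000) * u ^ 6 * v ^ 4 +
      (97369146177 / 16000000) * u ^ 7 * v ^ 3 +
      (641031200259 / 256000000) * u ^ 8 * v ^ 2 +
      (24317152309 / 51200000) * u ^ 9 * v +
      (3228755839 / 40960000) * u ^ 10)
        (z - 1) ((5 / 2) - z) := by
    simp only [gapN, upp2Num, ratD]; ring
  have hu := sub_nonneg.2 h₀
  have hv := sub_nonneg.2 h₁
  refine (mul_nonneg_iff_of_pos_right (by positivity : (0 : ℝ) < ((3 / 2)) ^ 10)).1 ?_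
  rw [key]
  try dsimp only
  positivity

private theorem gapUb {z : ℝ} (h₀ : (5 / 2) ≤ z) :
    0 ≤ gapN (upp2Num z) (z ^ 2) (58 / 100) (584 / 1000) (58 / 100) z * -1 := by
  obtain ⟨t, ht, rfl⟩ : ∃ t, 0 ≤ t ∧ z = (5 / 2) + t := ⟨z - (5 / 2), sub_nonneg.2 h₀, by ring⟩
  have key : gapN (upp2Num ((5 / 2) + t)) (((5 / 2) + t) ^ 2) (58 / 100) (584 / 1000) (58 / 100) ((5 / 2) + t) * -1 =
      (3228755839 / 40960000) +
      (32084591357 / 153600000) * t +
      (606462568097 / 768000000) * t ^ 2 +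
      (17942474743 / 9600000) * t ^ 3 +
      (15080519827 / 6400000) * t ^ 4 +
      (208912654031 / 120000000) * t ^ 5 +
      (479798128357 / 600000000) * t ^ 6 +
      (3477146143 / 15000000) * t ^ 7 +
      (824435143 / 20000000) * t ^ 8 +
      (102304643 / 25000000) * t ^ 9 +
      (107876839 / 625000000) * t ^ 10 := by
    simp only [gapN, upp2Num, ratD]; ring
  rw [key]
  try dsimp only
  positivity

private theorem res_div {z N Nd M Md : ℝ} (hM : M ≠ 0) :
    res z (N / M) ((Nd * M - N * Md) / M ^ 2) = resN N Nd M Md z / M ^ 3 := by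
  unfold res resN
  field_simp

private theorem gap_div {z N M b g e : ℝ} (hM : 0 < M) (hD : 0 < 3 * M + 2 * z * N)
    (hS : 0 < 1 + e * z) :
    profRhs z (N / M) - ratD b g e z / (1 + e * z) ^ 2 =
      gapN N M b g e z / ((M * (3 * M + 2 * z * N)) * (1 + e * z) ^ 2) := by
  have h1 : profRhs z (N / M) = 4 * (M ^ 2 + N ^ 2) / (M * (3 * M + 2 * z * N)) := by
    unfold profRhs
    rw [show 3 + 2 * z * (N / M) = (3 * M + 2 * z * N) / M by field_simp]
    field_simp
  rw [h1, div_sub_div _ _ (mul_pos hM hD).ne' (pow_pos hS 2).ne', gapN]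
  congr 1
  ring

private theorem hasDerivAt_ratP {b g e z : ℝ} (hS : 1 + e * z ≠ 0) :
    HasDerivAt (ratP b g e) (ratD b g e z / (1 + e * z) ^ 2) z := by
  have h1 : HasDerivAt (fun z => 4 / 3 * z * (1 + b * z + g * z ^ 2))
      (4 / 3 * (1 + 2 * b * z + 3 * g * z ^ 2)) z := by
    refine (((hasDerivAt_id' z).const_mul (4 / 3 : ℝ)).mul
      ((((hasDerivAt_id' z).const_mul b).const_add 1).add
        ((hasDerivAt_pow 2 z).const_mul g))).congr_deriv ?_
    simp only [Pi.add_apply]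
    push_cast
    ring
  have h2 : HasDerivAt (fun z => 1 + e * z) e z :=
    (((hasDerivAt_id' z).const_mul e).const_add 1).congr_deriv (by ring)
  refine (h1.div h2 hS).congr_deriv ?_
  rw [ratD]; congr 1; ring

/-- The lower barrier on `[0, 3/2]`. -/
theorem low1_le_prof : ∀ z ∈ Icc (0 : ℝ) (3 / 2), low1 z ≤ prof z := by
  refine le_prof_of_res_zero (Q' := fun z => 4 / 3 + 32 / 27 * z ^ 2 - 72 / 1000 * z ^ 5)
    (fun z _ => ?_) (fun z hz => ?_) (by simp [low1])
  · refine ((((hasDerivAt_id' z).const_mul (4 / 3 : ℝ)).add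
      ((hasDerivAt_pow 3 z).const_mul (32 / 81 : ℝ))).sub
        ((hasDerivAt_pow 6 z).const_mul (12 / 1000 : ℝ))).congr_deriv ?_
    push_cast; ring
  · have h := sub1 hz.1 hz.2
    unfold resN at h
    unfold res
    linarith

private theorem third_le_low1 {z : ℝ} (h₀ : 0 ≤ z) (h₁ : z ≤ 3 / 2) : z / 3 ≤ low1 z := by
  have h5 : z ^ 5 ≤ (3 / 2) ^ 5 := pow_le_pow_left₀ h₀ h₁ 5
  unfold low1
  nlinarith [mul_le_mul_of_nonneg_left h5 h₀, pow_nonneg h₀ 3]

private theorem hasDerivAt_num2 (c d z : ℝ) :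
    HasDerivAt (fun z => c * z ^ 4 + z - d) (4 * c * z ^ 3 + 1) z := by
  refine ((((hasDerivAt_pow 4 z).const_mul c).add (hasDerivAt_id' z)).sub_const d).congr_deriv ?_
  push_cast; ring

private theorem hasDerivAt_sq' (z : ℝ) : HasDerivAt (fun z : ℝ => z ^ 2) (2 * z) z := by
  simpa using hasDerivAt_pow 2 z

private theorem tendsto_num2 (c d : ℝ) :
    Tendsto (fun z => (c * z ^ 4 + z - d) / z ^ 2 / z ^ 2) atTop (𝓝 c) := by
  have h1 : Tendsto (fun z : ℝ => 1 / z ^ 3) atTop (𝓝 0) :=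
    tendsto_const_nhds.div_atTop (tendsto_pow_atTop (by norm_num))
  have h2 : Tendsto (fun z : ℝ => d / z ^ 4) atTop (𝓝 0) :=
    tendsto_const_nhds.div_atTop (tendsto_pow_atTop (by norm_num))
  have h := ((tendsto_const_nhds (x := c)).add h1).sub h2
  rw [add_zero, sub_zero] at h
  refine h.congr' ?_
  filter_upwards [eventually_gt_atTop (0 : ℝ)] with z hz
  field_simp

/-- The lower barrier on `[3/2, ∞)`. -/
theorem low2_le_prof (hcg : (1238 / 1000 : ℝ) ^ 2 ≤ cg) :
    ∀ z ∈ Ici (3 / 2 : ℝ), low2Num z / z ^ 2 ≤ prof z := by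
  refine le_prof_of_res_lim (b := 1238 / 1000) (Q' := fun z =>
      ((4 * (1238 / 1000) * z ^ 3 + 1) * z ^ 2 - low2Num z * (2 * z)) / (z ^ 2) ^ 2)
    (fun z hz => ?_) (fun z hz => ?_) (by norm_num) hcg (tendsto_num2 _ _)
  · have hz0 : z ≠ 0 := by have := mem_Ici.1 hz; linarith
    exact (hasDerivAt_num2 _ _ z).div (hasDerivAt_sq' z) (pow_ne_zero _ hz0)
  · have hz0 : 0 < z := by have := mem_Ici.1 hz; linarith
    rw [res_div (pow_ne_zero _ hz0.ne')]
    exact div_nonneg (sup2 hz) (by positivity)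

private theorem third_le_low2 {z : ℝ} (hz : 3 / 2 ≤ z) : z / 3 ≤ low2Num z / z ^ 2 := by
  have hz0 : 0 < z := by linarith
  rw [le_div_iff₀ (by positivity), low2Num]
  nlinarith [mul_le_mul_of_nonneg_left hz (pow_nonneg hz0.le 3)]

theorem third_le_prof (hcg : (1238 / 1000 : ℝ) ^ 2 ≤ cg) {z : ℝ} (hz : 0 ≤ z) :
    z / 3 ≤ prof z := by
  rcases le_total z (3 / 2) with h | h
  · exact (third_le_low1 hz h).trans (low1_le_prof z ⟨hz, h⟩)
  · exact (third_le_low2 h).trans (low2_le_prof hcg z h)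

/-- The upper barrier on `[0, 1]`. -/
theorem prof_le_hiP : ∀ z ∈ Icc (0 : ℝ) 1, prof z ≤ hiP z := by
  refine prof_le_of_res_zero (Q' := fun z => ((4 / 3 * (1 + 2 * (58 / 100) * z +
      3 * (584 / 1000) * z ^ 2)) * (1 + 58 / 100 * z) - hiN z * (58 / 100)) /
      (1 + 58 / 100 * z) ^ 2) (fun z hz => ?_) (fun z hz => ?_) (by simp [hiP, ratP])
  · have hS : (0 : ℝ) < 1 + 58 / 100 * z := by have := hz.1; positivity
    have h := hasDerivAt_ratP (b := (58 / 100 : ℝ)) (g := 584 / 1000) hS.ne'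
    refine h.congr_deriv ?_
    rw [ratD, hiN]; congr 1; ring
  · have hS : (0 : ℝ) < 1 + 58 / 100 * z := by have := hz.1; positivity
    rw [show hiP z = hiN z / (1 + 58 / 100 * z) from rfl, res_div hS.ne']
    exact div_nonneg (supH hz.1 hz.2) (by positivity)

/-- The upper barrier on `[1, ∞)`. -/
theorem prof_le_upp2 (hcg : cg ≤ (1239 / 1000 : ℝ) ^ 2) :
    ∀ z ∈ Ici (1 : ℝ), prof z ≤ upp2Num z / z ^ 2 := by
  refine prof_le_of_res_lim (b := 1239 / 1000) (Q' := fun z =>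
      ((4 * (1239 / 1000) * z ^ 3 + 1) * z ^ 2 - upp2Num z * (2 * z)) / (z ^ 2) ^ 2)
    (fun z hz => ?_) (fun z hz => ?_) (by norm_num) hcg (tendsto_num2 _ _)
  · have hz0 : z ≠ 0 := by have := mem_Ici.1 hz; linarith
    exact (hasDerivAt_num2 _ _ z).div (hasDerivAt_sq' z) (pow_ne_zero _ hz0)
  · have hz0 : 0 < z := by have := mem_Ici.1 hz; linarith
    rw [res_div (pow_ne_zero _ hz0.ne')]
    exact div_nonpos_of_nonpos_of_nonneg (by linarith [subU hz]) (by positivity)

/-- The profile grows at least as fast as `loP`. -/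
theorem dprof_ge (hcg : (1238 / 1000 : ℝ) ^ 2 ≤ cg) {z : ℝ} (hz : 0 ≤ z) :
    ratD (55 / 100) (786 / 1000) (848 / 1000) z / (1 + 848 / 1000 * z) ^ 2 ≤ dprof z := by
  have hS : (0 : ℝ) < 1 + 848 / 1000 * z := by positivity
  rw [profRhs_prof]
  rcases le_total z (3 / 2) with h | h
  · refine le_trans ?_ (profRhs_mono hz (third_le_low1 hz h) (low1_le_prof z ⟨hz, h⟩))
    have h0 : 0 ≤ low1 z := le_trans (by positivity) (third_le_low1 hz h)
    have e := gap_div (N := low1 z) (b := (55 / 100 : ℝ)) (g := 786 / 1000) one_pos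
      (by positivity : (0 : ℝ) < 3 * 1 + 2 * z * low1 z) hS
    rw [div_one] at e
    rw [← sub_nonneg, e]
    refine div_nonneg ?_ (by positivity)
    rcases le_total z (3 / 4) with h' | h'
    exacts [gap1a hz h', gap1b h' h]
  · have hz0 : 0 < z := by linarith
    refine le_trans ?_ (profRhs_mono hz (third_le_low2 h) (low2_le_prof hcg z h))
    have h0 : 0 ≤ low2Num z :=
      by simpa [hz0.ne'] using mul_nonneg (le_trans (by positivity) (third_le_low2 h)) (sq_nonneg z)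
    rw [← sub_nonneg, gap_div (pow_pos hz0 2) (by positivity) hS]
    exact div_nonneg (gap2 h) (by positivity)

/-- The profile grows at most as fast as `hiP`. -/
theorem dprof_le (hlo : (1238 / 1000 : ℝ) ^ 2 ≤ cg) (hhi : cg ≤ (1239 / 1000 : ℝ) ^ 2) {z : ℝ}
    (hz : 0 ≤ z) :
    dprof z ≤ ratD (58 / 100) (584 / 1000) (58 / 100) z / (1 + 58 / 100 * z) ^ 2 := by
  have hS : (0 : ℝ) < 1 + 58 / 100 * z := by positivity
  rw [profRhs_prof]
  have h3 := third_le_prof hlo hz
  have hp : 0 ≤ prof z := prof_nonneg hz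
  rcases le_total z 1 with h | h
  · have hu := prof_le_hiP z ⟨hz, h⟩
    refine le_trans (profRhs_mono hz h3 hu) ?_
    have h0 : 0 ≤ hiP z := hp.trans hu
    have hs := supH hz h
    have e := res_div (N := hiN z) (z := z) (Md := (58 / 100 : ℝ))
      (Nd := 4 / 3 * (1 + 2 * (58 / 100) * z + 3 * (584 / 1000) * z ^ 2)) hS.ne'
    rw [show hiN z / (1 + 58 / 100 * z) = hiP z from rfl] at e
    have hr : 0 ≤ res z (hiP z) _ := e ▸ div_nonneg hs (by positivity)
    unfold res at hr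
    unfold profRhs
    rw [div_le_iff₀ (by positivity)]
    refine le_trans (le_of_eq_of_le rfl (sub_nonneg.1 hr)) (le_of_eq ?_)
    rw [ratD, hiN]; congr 2; ring
  · have hz0 : 0 < z := by linarith
    have hu := prof_le_upp2 hhi z h
    refine le_trans (profRhs_mono hz h3 hu) ?_
    have h0 : 0 ≤ upp2Num z :=
      by simpa [hz0.ne'] using mul_nonneg (hp.trans hu) (sq_nonneg z)
    rw [← sub_nonpos, gap_div (pow_pos hz0 2) (by positivity) hS]
    refine div_nonpos_of_nonpos_of_nonneg ?_ (by positivity)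
    rcases le_total z (5 / 2) with h' | h'
    · linarith [gapUa h h']
    · linarith [gapUb h']

/-- `P - loP` is monotone on the half line. -/
theorem monotoneOn_prof_sub_loP (hlo : (1238 / 1000 : ℝ) ^ 2 ≤ cg) :
    MonotoneOn (fun z => prof z - loP z) (Ici 0) := by
  have hd : ∀ z ∈ Ici (0 : ℝ), HasDerivAt (fun z => prof z - loP z)
      (dprof z - ratD (55 / 100) (786 / 1000) (848 / 1000) z / (1 + 848 / 1000 * z) ^ 2) z :=
    fun z hz => (hasDerivAt_prof z).sub (hasDerivAt_ratP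
      (by have := mem_Ici.1 hz; positivity))
  exact monotoneOn_of_hasDerivWithinAt_nonneg (convex_Ici 0)
    (fun z hz => (hd z hz).continuousAt.continuousWithinAt)
    (fun z hz => (hd z (interior_subset hz)).hasDerivWithinAt)
    fun z hz => sub_nonneg.2 (dprof_ge hlo (mem_Ici.1 (interior_subset hz)))

/-- `hiP - P` is monotone on the half line. -/
theorem monotoneOn_hiP_sub_prof (hlo : (1238 / 1000 : ℝ) ^ 2 ≤ cg)
    (hhi : cg ≤ (1239 / 1000 : ℝ) ^ 2) : MonotoneOn (fun z => hiP z - prof z) (Ici 0) := by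
  have hd : ∀ z ∈ Ici (0 : ℝ), HasDerivAt (fun z => hiP z - prof z)
      (ratD (58 / 100) (584 / 1000) (58 / 100) z / (1 + 58 / 100 * z) ^ 2 - dprof z) z :=
    fun z hz => (hasDerivAt_ratP (by have := mem_Ici.1 hz; positivity)).sub (hasDerivAt_prof z)
  exact monotoneOn_of_hasDerivWithinAt_nonneg (convex_Ici 0)
    (fun z hz => (hd z hz).continuousAt.continuousWithinAt)
    (fun z hz => (hd z (interior_subset hz)).hasDerivWithinAt)
    fun z hz => sub_nonneg.2 (dprof_le hlo hhi (mem_Ici.1 (interior_subset hz)))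

theorem cg_window : (1238 / 1000 : ℝ) ^ 2 ≤ cg ∧ cg ≤ (1239 / 1000 : ℝ) ^ 2 := by
  obtain ⟨h1, h2⟩ := Encl.cg_bounds
  constructor <;> norm_num at * <;> linarith

/-- The field `low` of `Facts`. -/
theorem facts_low : MonotoneOn (fun z => prof z - loP z) (Ici 0) :=
  monotoneOn_prof_sub_loP cg_window.1

/-- The field `high` of `Facts`. -/
theorem facts_high : MonotoneOn (fun z => hiP z - prof z) (Ici 0) :=
  monotoneOn_hiP_sub_prof cg_window.1 cg_window.2

end Vale.Agent.P371.Five
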