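import Vale.Agent.P371.Five.FactDCert
import Vale.Agent.P371.Five.FactP
import Vale.Agent.P371.Five.CgBounds

/-!
The facts about `P - φ` on the half line: `P - φ - loD` and `z / 3 - (P - φ)` are monotone and
`ptD ≤ P - φ`.
-/

namespace Vale.Agent.P371.Five

open Set Filter Topology DCheck

namespace DFact

/-- The derivative of `loD`. -/
noncomputable def loD' (z : ℝ) : ℝ :=
  (1 - 656 / 1000 * z ^ 2) / (3 * (1 + 656 / 1000 * z ^ 2) ^ 2) -
    38 / 1000 * z ^ 3 / (1 + 625 / 1000 * z ^ 2) ^ 3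

theorem hasDerivAt_loD (z : ℝ) : HasDerivAt loD (loD' z) z := by
  have ha : HasDerivAt (fun z : ℝ => 3 * (1 + 656 / 1000 * z ^ 2)) (3 * (656 / 1000 * (2 * z))) z :=
    by simpa using (((hasDerivAt_pow 2 z).const_mul (656 / 1000 : ℝ)).const_add 1).const_mul 3
  have hc : HasDerivAt (fun z : ℝ => (1 + 625 / 1000 * z ^ 2) ^ 2)
      (2 * (1 + 625 / 1000 * z ^ 2) * (625 / 1000 * (2 * z))) z :=
    ((((hasDerivAt_pow 2 z).const_mul (625 / 1000 : ℝ)).const_add 1).pow 2).congr_deriv (by simp)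
  refine (((hasDerivAt_id' z).div ha (by positivity)).sub
    (((hasDerivAt_pow 4 z).const_mul (95 / 10000 : ℝ)).div hc (by positivity))).congr_deriv ?_
  have h1 : (1 : ℝ) + 656 / 1000 * z ^ 2 ≠ 0 := by positivity
  have h2 : (1 : ℝ) + 625 / 1000 * z ^ 2 ≠ 0 := by positivity
  simp only [loD']
  push_cast
  field_simp
  ring

/-- Nonpositive exactly when `T ≤ P' - φ'` at the value `p` of the profile. -/
noncomputable def F (z T p : ℝ) : ℝ :=
  (1 + p ^ 2 - cg * z ^ 4 + T) * (3 + 2 * z * p) - 4 * (1 + p ^ 2)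

theorem F_eq (z T : ℝ) :
    (dprof z - dphi z - T) * (3 + 2 * z * prof z) = -F z T (prof z) := by
  rw [F, dphi]
  linear_combination dprof_mul z

theorem F_mono {z T L p q H : ℝ} (hz : 0 ≤ z) (hL : 0 ≤ L) (hLp : L ≤ p) (hpq : p ≤ q)
    (hqH : q ≤ H) (h1 : 0 ≤ 1 + L ^ 2 - cg * z ^ 4 + T)
    (h2 : 0 ≤ H * (2 * z * L - 1) + z * (1 + L ^ 2 - cg * z ^ 4 + T)) :
    F z T p ≤ F z T q := by
  have e : F z T q - F z T p =
      (q - p) * ((p + q) * (2 * z * q - 1) + 2 * z * (1 + p ^ 2 - cg * z ^ 4 + T)) := by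
    simp only [F]; ring
  have hp : L ^ 2 ≤ p ^ 2 := pow_le_pow_left₀ hL hLp 2
  have hzp : z * (1 + L ^ 2 - cg * z ^ 4 + T) ≤ z * (1 + p ^ 2 - cg * z ^ 4 + T) :=
    mul_le_mul_of_nonneg_left (by linarith) hz
  have hzL : z * L ≤ z * q := mul_le_mul_of_nonneg_left (hLp.trans hpq) hz
  refine sub_nonneg.1 (e ▸ mul_nonneg (sub_nonneg.2 hpq) ?_)
  rcases le_total 0 (2 * z * q - 1) with h | h
  · nlinarith [mul_nonneg (add_nonneg (hL.trans hLp) (hL.trans (hLp.trans hpq))) h,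
      mul_nonneg hz h1]
  · have hH : 0 ≤ H := hL.trans (hLp.trans (hpq.trans hqH))
    nlinarith [mul_nonneg (show 0 ≤ 2 * H - (p + q) by linarith) (neg_nonneg.2 h),
      mul_nonneg hH (show 0 ≤ 2 * z * q - 2 * z * L by linarith)]

/-- The square root of `cg`. -/
noncomputable def B : ℝ := Real.sqrt cg

theorem B_sq : B ^ 2 = cg := Real.sq_sqrt cg_pos.le

theorem B_lo : (12383 / 10000 : ℝ) ≤ B := Real.le_sqrt_of_sq_le Encl.cg_bounds.1.le

theorem B_hi : B < 12386 / 10000 :=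
  (Real.sqrt_lt' (by norm_num)).2 Encl.cg_bounds.2

theorem B_pos : 0 < B := lt_of_lt_of_le (by norm_num) B_lo

/-- The derivative of an expression in its first variable. -/
def dv : E → E
  | .k _ => E.k 0
  | .v => E.k 1
  | .b => E.k 0
  | .add s t => E.add (dv s) (dv t)
  | .mul s t => E.add (E.mul (dv s) t) (E.mul s (dv t))

theorem hasDerivAt_ev (y : ℝ) :
    ∀ (e : E) (x : ℝ), HasDerivAt (fun x => e.ev x y) ((dv e).ev x y) x
  | .k q, x => by simpa [E.ev, dv] using hasDerivAt_const x (q : ℝ)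
  | .v, x => by simpa [E.ev, dv] using hasDerivAt_id' x
  | .b, x => by simpa [E.ev, dv] using hasDerivAt_const x y
  | .add s t, x => (hasDerivAt_ev y s x).add (hasDerivAt_ev y t x)
  | .mul s t, x => (hasDerivAt_ev y s x).mul (hasDerivAt_ev y t x)

/-- The barrier with expansion `S` in `1 / z`. -/
noncomputable def bar (S : E) (z : ℝ) : ℝ := (numN S).ev (1 / z) B / (2 * B) * z ^ 2

/-- Its derivative. -/
noncomputable def bar' (S S' : E) (z : ℝ) : ℝ :=
  (2 * (numN S).ev (1 / z) B * z - S'.ev (1 / z) B) / (2 * B)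

@[simp] theorem dv_add (x y : ℝ) (s t : E) :
    (dv (s + t)).ev x y = (dv s).ev x y + (dv t).ev x y := rfl

@[simp] theorem dv_mul (x y : ℝ) (s t : E) :
    (dv (s * t)).ev x y = (dv s).ev x y * t.ev x y + s.ev x y * (dv t).ev x y := rfl

@[simp] theorem dv_sub (x y : ℝ) (s t : E) :
    (dv (s - t)).ev x y = (dv s).ev x y - (dv t).ev x y := by
  change (dv s).ev x y + (((0 : ℚ) : ℝ) * t.ev x y + ((-1 : ℚ) : ℝ) * (dv t).ev x y) = _
  push_cast; ring

@[simp] theorem dv_k (x y : ℝ) (q : ℚ) : (dv (E.k q)).ev x y = 0 := by simp [dv, E.ev]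

@[simp] theorem dv_v (x y : ℝ) : (dv E.v).ev x y = 1 := by simp [dv, E.ev]

@[simp] theorem dv_b (x y : ℝ) : (dv E.b).ev x y = 0 := by simp [dv, E.ev]

theorem upN'_eq (x y : ℝ) : (dv (numN upS)).ev x y = upN'.ev x y := by
  simp [numN, upS, upN', tailT, E.ev]
  ring

theorem loN'_eq (x y : ℝ) : (dv (numN loS)).ev x y = loN'.ev x y := by
  simp [numN, loS, loN', E.ev]
  ring

theorem hasDerivAt_bar {S S' : E} (h : ∀ x y : ℝ, (dv (numN S)).ev x y = S'.ev x y) {z : ℝ}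
    (hz : 0 < z) : HasDerivAt (bar S) (bar' S S' z) z := by
  have h1 : HasDerivAt (fun z : ℝ => 1 / z) (-(z ^ 2)⁻¹) z := by
    simpa [one_div] using hasDerivAt_inv hz.ne'
  have h2 := (((hasDerivAt_ev B (numN S) (1 / z)).comp z h1).div_const (2 * B)).mul
    (hasDerivAt_pow 2 z)
  refine h2.congr_deriv ?_
  have := B_pos
  rw [h, bar']
  simp only [Function.comp_apply]
  push_cast
  field_simp
  ring

theorem tendsto_bar {S : E} : Tendsto (fun z => bar S z / z ^ 2) atTop (𝓝 (Real.sqrt cg)) := by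
  have h1 : Tendsto (fun z : ℝ => 1 / z) atTop (𝓝 0) :=
    tendsto_const_nhds.div_atTop tendsto_id
  have h2 := ((hasDerivAt_ev B (numN S) 0).continuousAt.tendsto.comp h1).div_const (2 * B)
  have e : (numN S).ev 0 B / (2 * B) = Real.sqrt cg := by
    have := B_pos
    simp only [numN, E.ev_add, E.ev_mul, E.ev]
    push_cast
    change _ = B
    field_simp
    ring
  rw [e] at h2
  refine h2.congr' ?_
  filter_upwards [eventually_gt_atTop (0 : ℝ)] with z hz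
  simp only [bar, Function.comp_apply]
  field_simp

theorem mem01 {z : ℝ} (hz : 1 ≤ z) : 0 ≤ 1 / z ∧ 1 / z ≤ 1 :=
  ⟨by positivity, by rw [div_le_one (by linarith)]; exact hz⟩

theorem cert {e : E} (h : outer e = true) {z : ℝ} (hz : 1 ≤ z) : 0 ≤ e.ev (1 / z) B :=
  outer_sound h B_lo B_hi (mem01 hz).1 (mem01 hz).2

theorem resE_eq (S S' : E) {z : ℝ} (hz : 0 < z) :
    (resE S S').ev (1 / z) B * z ^ 4 = 4 * B ^ 2 * res z (bar S z) (bar' S S' z) := by
  have := B_pos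
  simp only [resE, res, bar, bar', E.ev_add, E.ev_sub, E.ev_mul, E.ev]
  push_cast
  field_simp
  ring

theorem numN_eq (S : E) (x : ℝ) :
    (numN S).ev x B = 2 * B ^ 2 + x ^ 3 * S.ev x B := by
  simp only [numN, E.ev_add, E.ev_mul, E.ev]; push_cast; ring

theorem phi_eq (S : E) {z : ℝ} (hz : 0 < z) :
    (scaledPhi S).ev (1 / z) B * z = 4 * B ^ 2 * (1 + bar S z ^ 2 - cg * z ^ 4) := by
  have := B_pos
  simp only [bar, numN_eq, scaledPhi, E.ev_add, E.ev_mul, E.ev, ← B_sq]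
  push_cast
  field_simp
  ring

theorem prof_le_bar {z : ℝ} (hz : 1 ≤ z) : prof z ≤ bar upS z := by
  refine prof_le_of_res_atTop (fun w hw => hasDerivAt_bar upN'_eq
    (lt_of_lt_of_le one_pos hw)) (fun w hw => ?_) tendsto_bar z hz
  have hw0 : 0 < w := lt_of_lt_of_le one_pos hw
  have h := cert cUpRes_ok hw
  simp only [cUpRes, E.ev_sub, E.ev] at h
  push_cast at h
  nlinarith [resE_eq upS upN' hw0, mul_nonneg h (pow_nonneg hw0.le 4), pow_pos B_pos 2]

theorem bar_le_prof {z : ℝ} (hz : 1 ≤ z) : bar loS z ≤ prof z := by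
  refine le_prof_of_res_atTop (fun w hw => hasDerivAt_bar loN'_eq
    (lt_of_lt_of_le one_pos hw)) (fun w hw => ?_) tendsto_bar z hz
  have hw0 : 0 < w := lt_of_lt_of_le one_pos hw
  have h := cert cLoRes_ok hw
  simp only [cLoRes] at h
  nlinarith [resE_eq loS loN' hw0, mul_nonneg h (pow_nonneg hw0.le 4), pow_pos B_pos 2]

theorem lo_big {z : ℝ} (hz : 1 ≤ z) : 1 ≤ z * bar loS z := by
  have hz0 : 0 < z := by linarith
  have := B_pos
  have h := cert cLoBig_ok hz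
  simp only [cLoBig, E.ev_sub, E.ev_mul, E.ev] at h
  push_cast at h
  have e : z * bar loS z - 1 =
      z ^ 3 / (2 * B) * ((numN loS).ev (1 / z) B - 2 * B * (1 / z * (1 / z) * (1 / z))) := by
    simp only [bar]; field_simp
  nlinarith [mul_nonneg (div_nonneg (pow_nonneg hz0.le 3) (by positivity : (0 : ℝ) ≤ 2 * B)) h]

theorem lo_phi {z : ℝ} (hz : 1 ≤ z) : 1 / 2 ≤ 1 + bar loS z ^ 2 - cg * z ^ 4 := by
  have hz0 : 0 < z := by linarith
  have h := cert cLoPhi_ok hz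
  simp only [cLoPhi, E.ev_sub, E.ev_mul, E.ev] at h
  push_cast at h
  have e : 1 / z * z = 1 := by field_simp
  have h' := mul_nonneg h hz0.le
  rw [sub_mul, phi_eq loS hz0, mul_assoc _ (1 / z) z, e] at h'
  nlinarith [pow_pos B_pos 2]

theorem bracket {z T : ℝ} (hz : 1 ≤ z) (hT : -(1 / 2) ≤ T) (H : ℝ) (hH : 0 ≤ H) :
    0 ≤ 1 + bar loS z ^ 2 - cg * z ^ 4 + T ∧
      0 ≤ H * (2 * z * bar loS z - 1) + z * (1 + bar loS z ^ 2 - cg * z ^ 4 + T) := by
  have h1 : 0 ≤ 1 + bar loS z ^ 2 - cg * z ^ 4 + T := by linarith [lo_phi hz]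
  exact ⟨h1, add_nonneg (mul_nonneg hH (by nlinarith [lo_big hz])) (mul_nonneg (by linarith) h1)⟩

theorem gE_eq (S : E) (n d : E) {z T : ℝ} (hz : 0 < z)
    (hT : n.ev (1 / z) B = T * d.ev (1 / z) B) :
    (gE S n d).ev (1 / z) B * z ^ 4 = -(8 * B ^ 3) * (d.ev (1 / z) B * F z T (bar S z)) := by
  have := B_pos
  simp only [gE, F, E.ev_add, E.ev_sub, E.ev_mul, E.ev, hT, scaledPhi, numN_eq, bar, ← B_sq]
  push_cast
  field_simp
  ring

theorem loD'_lo (z : ℝ) : -(1 / 2) ≤ loD' z := by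
  have ha : (0 : ℝ) < 1 + 656 / 1000 * z ^ 2 := by positivity
  have hc : (0 : ℝ) < 1 + 625 / 1000 * z ^ 2 := by positivity
  have h1 : -(1 / 4) ≤ (1 - 656 / 1000 * z ^ 2) / (3 * (1 + 656 / 1000 * z ^ 2) ^ 2) := by
    rw [le_div_iff₀ (by positivity)]; nlinarith [sq_nonneg z, sq_nonneg (z ^ 2)]
  have h2 : 38 / 1000 * z ^ 3 / (1 + 625 / 1000 * z ^ 2) ^ 3 ≤ 1 / 4 := by
    rw [div_le_iff₀ (by positivity)]
    nlinarith [sq_nonneg z, sq_nonneg (z - 1), mul_nonneg (sq_nonneg z) (sq_nonneg (z - 1)),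
      pow_nonneg (sq_nonneg z) 3, sq_nonneg (z ^ 2)]
  unfold loD'
  linarith

theorem tNum_eq {z : ℝ} (hz : 0 < z) :
    (tNum E.v).ev (1 / z) B = loD' z * (tDen E.v).ev (1 / z) B := by
  have h1 : (1 : ℝ) + 656 / 1000 * z ^ 2 ≠ 0 := by positivity
  have h2 : (1 : ℝ) + 625 / 1000 * z ^ 2 ≠ 0 := by positivity
  simp only [tNum, tDen, E.ev_add, E.ev_sub, E.ev_mul, E.ev, loD']
  push_cast
  field_simp
  ring

theorem inc_outer {z : ℝ} (hz : 1 ≤ z) : loD' z ≤ dprof z - dphi z := by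
  have hz0 : 0 < z := by linarith
  have hd : 0 < (tDen E.v).ev (1 / z) B := by
    simp only [tDen, E.ev_add, E.ev_mul, E.ev]; push_cast; positivity
  have h := mul_nonneg (cert cInc_ok hz) (pow_nonneg hz0.le 4)
  rw [cInc, gE_eq upS _ _ hz0 (tNum_eq hz0)] at h
  have hF : F z (loD' z) (bar upS z) ≤ 0 := by
    by_contra hc
    nlinarith [mul_pos (mul_pos (pow_pos B_pos 3) hd) (not_le.1 hc)]
  have hL : 0 ≤ bar loS z := by nlinarith [lo_big hz]
  have hP := prof_le_bar hz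
  obtain ⟨h1, h2⟩ := bracket hz (loD'_lo z) (bar upS z) (hL.trans ((bar_le_prof hz).trans hP))
  have hm := F_mono hz0.le hL (bar_le_prof hz) hP le_rfl h1 h2
  nlinarith [F_eq z (loD' z), den_pos z]

theorem max_outer {z : ℝ} (hz : 1 ≤ z) : dprof z - dphi z ≤ 1 / 3 := by
  have hz0 : 0 < z := by linarith
  have h := mul_nonneg (cert cMax_ok hz) (pow_nonneg hz0.le 4)
  rw [cMax, E.ev_sub, sub_mul,
    gE_eq loS (E.k 1) (E.k 3) hz0 (T := 1 / 3) (by simp [E.ev])] at h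
  simp only [E.ev] at h
  push_cast at h
  have hF : 0 ≤ F z (1 / 3) (bar loS z) := by
    by_contra hc
    nlinarith [mul_neg_of_pos_of_neg (pow_pos B_pos 3) (not_le.1 hc)]
  have hL : 0 ≤ bar loS z := by nlinarith [lo_big hz]
  obtain ⟨h1, h2⟩ := bracket hz (by norm_num : -(1 / 2 : ℝ) ≤ 1 / 3) (prof z)
    (hL.trans (bar_le_prof hz))
  have hm := F_mono hz0.le hL le_rfl (bar_le_prof hz) le_rfl h1 h2
  nlinarith [F_eq z (1 / 3), den_pos z]

theorem pt_outer {z : ℝ} (hz : 1 ≤ z) : ptD z ≤ prof z - phi z := by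
  have hz0 : 0 < z := by linarith
  have := B_pos
  have h := mul_nonneg (cert cPt_ok hz) (pow_nonneg hz0.le 4)
  have e : (cPt).ev (1 / z) B * z ^ 4 =
      4 * B ^ 2 * ((2 * bar upS z - z * (1 + bar upS z ^ 2 - cg * z ^ 4)) *
        (3 + 21 / 10 * z ^ 2) - 5 * z) := by
    have e2 := phi_eq upS hz0
    simp only [cPt, E.ev_add, E.ev_sub, E.ev_mul, E.ev]
    push_cast
    have e3 : 4 * B * (numN upS).ev (1 / z) B * z ^ 2 = 4 * B ^ 2 * (2 * bar upS z) := by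
      simp only [bar]; field_simp
    have k1 : (3 * (1 / z * (1 / z)) + 21 / 10) * z ^ 4 = z ^ 2 * (3 + 21 / 10 * z ^ 2) := by
      field_simp
    have k2 : 1 / z * (1 / z) * (1 / z) * z ^ 4 = z := by field_simp
    linear_combination (4 * B * (numN upS).ev (1 / z) B - (scaledPhi upS).ev (1 / z) B) * k1 -
      20 * B ^ 2 * k2 + (3 + 21 / 10 * z ^ 2) * e3 - z * (3 + 21 / 10 * z ^ 2) * e2
  rw [e] at h
  have h5 : 5 * z ≤ (2 * bar upS z - z * (1 + bar upS z ^ 2 - cg * z ^ 4)) *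
      (3 + 21 / 10 * z ^ 2) := by nlinarith [pow_pos B_pos 2]
  have hP := prof_le_bar hz
  have hzP : 1 ≤ z * prof z :=
    (lo_big hz).trans (mul_le_mul_of_nonneg_left (bar_le_prof hz) hz0.le)
  have hmul : 0 ≤ (bar upS z - prof z) * (z * (bar upS z + prof z) - 2) :=
    mul_nonneg (sub_nonneg.2 hP) (by nlinarith)
  rw [prof_sub_phi, ptD, div_le_div_iff₀ (by positivity) (by norm_num), dphi]
  nlinarith [mul_nonneg hmul (by positivity : (0 : ℝ) ≤ 3 + 21 / 10 * z ^ 2)]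

theorem cert0 {e : E} (h : inner e = true) {z : ℝ} (hz : z ∈ Icc (0 : ℝ) 1) : 0 ≤ e.ev z 0 :=
  inner_sound h hz.1 hz.2

theorem prof_le_inH {z : ℝ} (hz : z ∈ Icc (0 : ℝ) 1) : prof z ≤ inH.ev z 0 := by
  have e : ∀ x, (dv inH).ev x 0 = inH'.ev x 0 := fun x => by
    simp [inH, inH', E.ev]
    ring
  refine prof_le_of_res_zero (fun w _ => e w ▸ hasDerivAt_ev 0 inH w) (fun w hw => ?_)
    (by simp [inH, E.ev]) z hz
  have h := cert0 cInRes_ok hw
  simp only [cInRes, E.ev_add, E.ev_sub, E.ev_mul, E.ev] at h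
  push_cast at h
  rw [res]
  nlinarith

theorem inL_eq (z : ℝ) : inL.ev z 0 = low1 z := by
  simp only [inL, low1, E.ev_sub, E.ev_add, E.ev_mul, E.ev]; push_cast; ring

theorem inL_le_prof {z : ℝ} (hz : z ∈ Icc (0 : ℝ) 1) : inL.ev z 0 ≤ prof z :=
  inL_eq z ▸ low1_le_prof z ⟨hz.1, by linarith [hz.2]⟩

theorem inL_nonneg {z : ℝ} (hz : z ∈ Icc (0 : ℝ) 1) : 0 ≤ inL.ev z 0 := by
  have h : z ^ 5 ≤ 1 := pow_le_one₀ hz.1 hz.2
  rw [inL_eq, low1]
  nlinarith [mul_nonneg hz.1 (sub_nonneg.2 h), pow_nonneg hz.1 3, hz.1]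

theorem inPhi_eq (H : E) (q : ℚ) (z : ℝ) :
    (inPhi H q).ev z 0 = 1 + H.ev z 0 ^ 2 - q * z ^ 4 := by
  simp only [inPhi, E.ev_sub, E.ev_add, E.ev_mul, E.ev]; push_cast; ring

theorem inG_eq (H : E) (q : ℚ) (n d : E) {z T : ℝ} (hT : n.ev z 0 = T * d.ev z 0) :
    (inG H q n d).ev z 0 = -(d.ev z 0) *
      ((1 + H.ev z 0 ^ 2 - q * z ^ 4 + T) * (3 + 2 * z * H.ev z 0) - 4 * (1 + H.ev z 0 ^ 2)) := by
  simp only [inG, E.ev_sub, E.ev_add, E.ev_mul, E.ev, inPhi_eq, hT]; push_cast; ring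

theorem phi_in {z : ℝ} (hz : z ∈ Icc (0 : ℝ) 1) :
    (1 / 2 : ℝ) ≤ (inPhi inL ((12386 / 10000) ^ 2)).ev z 0 ∧
      (inPhi inL ((12386 / 10000) ^ 2)).ev z 0 ≤ 1 + inL.ev z 0 ^ 2 - cg * z ^ 4 := by
  refine ⟨?_, ?_⟩
  · have h := cert0 cInPhi_ok hz
    simp only [cInPhi, E.ev_sub, E.ev] at h
    push_cast at h
    linarith
  · rw [inPhi_eq]
    push_cast
    nlinarith [mul_le_mul_of_nonneg_right Encl.cg_bounds.2.le (pow_nonneg hz.1 4)]

theorem inNum_eq (z : ℝ) : inNum.ev z 0 = loD' z * inDen.ev z 0 := by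
  have h1 : (1 : ℝ) + 656 / 1000 * z ^ 2 ≠ 0 := by positivity
  have h2 : (1 : ℝ) + 625 / 1000 * z ^ 2 ≠ 0 := by positivity
  simp only [inNum, inDen, E.ev_add, E.ev_sub, E.ev_mul, E.ev, loD']
  push_cast
  field_simp
  ring

theorem inc_inner {z : ℝ} (hz : z ∈ Icc (0 : ℝ) 1) : loD' z ≤ dprof z - dphi z := by
  have hd : 0 < inDen.ev z 0 := by
    simp only [inDen, E.ev_add, E.ev_mul, E.ev]; push_cast; rw [← sq z]; positivity
  obtain ⟨hp1, hp2⟩ := phi_in hz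
  have hP := prof_le_inH hz
  have hH : 0 ≤ inH.ev z 0 := (prof_nonneg hz.1).trans hP
  have h := cert0 cInInc_ok hz
  rw [cInInc, inG_eq _ _ _ _ (inNum_eq z)] at h
  push_cast at h
  have hq : cg * z ^ 4 ≥ (12383 / 10000 : ℝ) ^ 2 * z ^ 4 :=
    mul_le_mul_of_nonneg_right Encl.cg_bounds.1.le (pow_nonneg hz.1 4)
  have hD : 0 < 3 + 2 * z * inH.ev z 0 := by nlinarith [mul_nonneg hz.1 hH]
  have hF : F z (loD' z) (inH.ev z 0) ≤ 0 := by
    by_contra hc
    rw [F, not_le] at hc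
    nlinarith [mul_pos hd hc, mul_nonneg (mul_nonneg hd.le hD.le) (sub_nonneg.2 hq)]
  have hb := cert0 cInBrInc_ok hz
  simp only [cInBrInc, E.ev_add, E.ev_sub, E.ev_mul, E.ev, inNum_eq] at hb
  push_cast at hb
  have h1 : 0 ≤ 1 + inL.ev z 0 ^ 2 - cg * z ^ 4 + loD' z := by linarith [loD'_lo z]
  have h2 : 0 ≤ inH.ev z 0 * (2 * z * inL.ev z 0 - 1) +
      z * (1 + inL.ev z 0 ^ 2 - cg * z ^ 4 + loD' z) := by
    refine nonneg_of_mul_nonneg_right ?_ hd
    nlinarith [mul_nonneg (mul_nonneg hd.le hz.1) (sub_nonneg.2 hp2)]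
  have hm := F_mono hz.1 (inL_nonneg hz) (inL_le_prof hz) hP le_rfl h1 h2
  nlinarith [F_eq z (loD' z), den_pos z]

theorem max_inner {z : ℝ} (hz : z ∈ Icc (0 : ℝ) 1) : dprof z - dphi z ≤ 1 / 3 := by
  obtain ⟨hp1, hp2⟩ := phi_in hz
  have hP := prof_le_inH hz
  have hL := inL_nonneg hz
  have h := cert0 cInMax_ok hz
  rw [cInMax, E.ev_sub, inG_eq _ _ _ _ (T := 1 / 3) (by simp [E.ev])] at h
  simp only [E.ev] at h
  push_cast at h
  have hq : cg * z ^ 4 ≤ (12386 / 10000 : ℝ) ^ 2 * z ^ 4 :=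
    mul_le_mul_of_nonneg_right Encl.cg_bounds.2.le (pow_nonneg hz.1 4)
  have hD : 0 < 3 + 2 * z * inL.ev z 0 := by nlinarith [mul_nonneg hz.1 hL]
  have hF : 0 ≤ F z (1 / 3) (inL.ev z 0) := by
    rw [F]
    nlinarith [mul_nonneg hD.le (sub_nonneg.2 hq)]
  have hb := cert0 cInBrMax_ok hz
  simp only [cInBrMax, E.ev_add, E.ev_sub, E.ev_mul, E.ev] at hb
  push_cast at hb
  have h1 : 0 ≤ 1 + inL.ev z 0 ^ 2 - cg * z ^ 4 + 1 / 3 := by linarith
  have h2 : 0 ≤ inH.ev z 0 * (2 * z * inL.ev z 0 - 1) +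
      z * (1 + inL.ev z 0 ^ 2 - cg * z ^ 4 + 1 / 3) := by
    nlinarith [mul_nonneg hz.1 (sub_nonneg.2 hp2)]
  have hm := F_mono hz.1 hL le_rfl (inL_le_prof hz) hP h1 h2
  nlinarith [F_eq z (1 / 3), den_pos z]

theorem hasDerivAt_dgap (z : ℝ) :
    HasDerivAt (fun z => prof z - phi z - loD z) (dprof z - dphi z - loD' z) z :=
  ((hasDerivAt_prof z).sub (hasDerivAt_phi z)).sub (hasDerivAt_loD z)

end DFact

open DFact

/-- `P - φ - loD` is monotone on the half line. -/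
theorem monotoneOn_dinc : MonotoneOn (fun z => prof z - phi z - loD z) (Ici 0) :=
  monotoneOn_of_hasDerivWithinAt_nonneg (convex_Ici 0)
    (fun z _ => (hasDerivAt_dgap z).continuousAt.continuousWithinAt)
    (fun z _ => (hasDerivAt_dgap z).hasDerivWithinAt) fun z hz => by
    have hz0 : 0 ≤ z := mem_Ici.1 (interior_subset hz)
    rcases le_total z 1 with h | h
    · linarith [inc_inner ⟨hz0, h⟩]
    · linarith [inc_outer h]

/-- `z / 3 - (P - φ)` is monotone on the half line. -/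
theorem monotoneOn_dmax : MonotoneOn (fun z => z / 3 - (prof z - phi z)) (Ici 0) := by
  have hd : ∀ z, HasDerivAt (fun z => z / 3 - (prof z - phi z))
      (1 / 3 - (dprof z - dphi z)) z := fun z =>
    ((hasDerivAt_id' z).div_const 3).sub ((hasDerivAt_prof z).sub (hasDerivAt_phi z))
  refine monotoneOn_of_hasDerivWithinAt_nonneg (convex_Ici 0)
    (fun z _ => (hd z).continuousAt.continuousWithinAt) (fun z _ => (hd z).hasDerivWithinAt)
    fun z hz => ?_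
  have hz0 : 0 ≤ z := mem_Ici.1 (interior_subset hz)
  rcases le_total z 1 with h | h
  · linarith [max_inner ⟨hz0, h⟩]
  · linarith [max_outer h]

/-- `ptD` is below `P - φ` on the half line. -/
theorem ptD_le (z : ℝ) (hz : 0 ≤ z) : ptD z ≤ prof z - phi z := by
  rcases le_total 1 z with h | h
  · exact pt_outer h
  have h0 := monotoneOn_dinc (self_mem_Ici) (mem_Ici.2 hz) hz
  simp only [prof_zero, phi_zero, loD] at h0
  have hc := cert0 cInPt_ok ⟨hz, h⟩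
  simp only [cInPt, E.ev_add, E.ev_sub, E.ev_mul, E.ev] at hc
  push_cast at hc
  have ha : (0 : ℝ) < 1 + 656 / 1000 * z ^ 2 := by positivity
  have hb : (0 : ℝ) < 1 + 625 / 1000 * z ^ 2 := by positivity
  have hp : (0 : ℝ) < 3 + 21 / 10 * z ^ 2 := by positivity
  have key : 0 ≤ loD z - ptD z := by
    have e : loD z - ptD z = z * ((3 + 21 / 10 * z ^ 2) * ((1 + 625 / 1000 * z ^ 2) ^ 2) -
        285 / 10000 * z ^ 3 * (1 + 656 / 1000 * z ^ 2) * (3 + 21 / 10 * z ^ 2) -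
        3 * (1 + 656 / 1000 * z ^ 2) * (1 + 625 / 1000 * z ^ 2) ^ 2) /
        (3 * (1 + 656 / 1000 * z ^ 2) * (1 + 625 / 1000 * z ^ 2) ^ 2 * (3 + 21 / 10 * z ^ 2)) := by
      simp only [loD, ptD]; field_simp; ring
    rw [e]
    refine div_nonneg (mul_nonneg hz ?_) (by positivity)
    ring_nf at hc ⊢
    linarith
  rw [loD] at key
  norm_num at h0 key ⊢
  linarith

end Vale.Agent.P371.Five
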