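import Vale.Agent.P371.Five.FactDCheck

/-!
The certified sign conditions behind the facts about `P - φ`.
-/

namespace Vale.Agent.P371.Five.DCheck

/-- The corrections of the outer upper barrier, in powers of `1 / z`. -/
def tailT (v : E) : E :=
  E.k (-60532 / 100000) + v * (E.k (4736 / 10000) + v * (E.k (-1984 / 10000) + v *
    (E.k (15685 / 10000) + v * (E.k (-26591 / 10000) + v * (E.k (16822 / 10000) +
      v * E.k (-3774 / 10000))))))

/-- `2 B R` for the upper barrier `P ≤ (B + v³ R) / v²`. -/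
def upS : E := E.k 2 * E.b - E.v + E.k 2 * E.b * (E.v * E.v * E.v) * tailT E.v

/-- `2 B R` for the lower barrier. -/
def loS : E := E.k 2 * E.b - E.k (6 / 5) * E.v - E.k (1 / 5) * E.b * (E.v * E.v * E.v)

/-- `2 B N`, with `N = B + v³ R`. -/
def numN (S : E) : E := E.k 2 * E.b * E.b + E.v * E.v * E.v * S

/-- `4 B² v φ'`. -/
def scaledPhi (S : E) : E :=
  E.k 4 * E.b * E.b * S + E.v * E.v * E.v * S * S + E.k 4 * E.b * E.b * E.v

/-- `2 B` times the derivative of `N` in `v`. -/
def upN' : E :=
  let T := tailT E.v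
  let T' := E.k (4736 / 10000) + E.v * (E.k (-3968 / 10000) + E.v * (E.k (47055 / 10000) +
    E.v * (E.k (-106364 / 10000) + E.v * (E.k (84110 / 10000) + E.v * E.k (-22644 / 10000)))))
  let w := E.v * E.v
  E.k 6 * E.b * w - E.k 4 * w * E.v +
    E.k 2 * E.b * (E.k 6 * w * w * E.v * T + w * w * w * T')

/-- The same for the lower barrier. -/
def loN' : E :=
  let w := E.v * E.v
  E.k 6 * E.b * w - E.k (24 / 5) * w * E.v - E.k (6 / 5) * E.b * w * w * E.v

/-- `4 B² v⁴` times the residual. -/
def resE (S S' : E) : E :=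
  (E.k 2 * numN S - E.v * S') * (E.k 6 * E.b * (E.v * E.v * E.v) + E.k 2 * numN S) -
    E.k 16 * E.b * E.b * (E.v * E.v * E.v * E.v) - E.k 4 * (numN S * numN S)

/-- Numerator of `loD'`, in `v = 1 / z`. -/
def tNum (v : E) : E :=
  let a := v * v + E.k (656 / 1000)
  let c := v * v + E.k (625 / 1000)
  v * v * (v * v - E.k (656 / 1000)) * (c * c * c) - E.k (114 / 1000) * (v * v * v) * (a * a)

/-- Its denominator. -/
def tDen (v : E) : E :=
  let a := v * v + E.k (656 / 1000)
  let c := v * v + E.k (625 / 1000)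
  E.k 3 * (a * a) * (c * c * c)

/-- `8 B³ v⁴` times `4 E - (φ' + n / d) (3 + 2 z P)`, times `d`. -/
def gE (S n d : E) : E :=
  d * (E.k 8 * E.b * (E.k 4 * E.b * E.b * (E.v * E.v * E.v * E.v) + numN S * numN S)) -
    (scaledPhi S * d + E.k 4 * E.b * E.b * E.v * n) *
      (E.k 6 * E.b * (E.v * E.v * E.v) + E.k 2 * numN S)

/-- The upper barrier is a subsolution. -/
def cUpRes : E := E.k 0 - resE upS upN'
/-- The lower barrier is a supersolution. -/
def cLoRes : E := resE loS loN'
/-- `loD' ≤ P' - φ'` at the upper barrier. -/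
def cInc : E := gE upS (tNum E.v) (tDen E.v)
/-- `P' - φ' ≤ 1 / 3` at the lower barrier. -/
def cMax : E := E.k 0 - gE loS (E.k 1) (E.k 3)
/-- `ptD ≤ P - φ` at the upper barrier. -/
def cPt : E :=
  (E.k 4 * E.b * numN upS - scaledPhi upS) * (E.k 3 * (E.v * E.v) + E.k (21 / 10)) -
    E.k 20 * E.b * E.b * (E.v * E.v * E.v)
/-- `1 ≤ z L` for the lower barrier. -/
def cLoBig : E := numN loS - E.k 2 * E.b * (E.v * E.v * E.v)
/-- `1/2 ≤ φ'` at the lower barrier. -/
def cLoPhi : E := scaledPhi loS - E.k 2 * E.b * E.b * E.v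

/-- The four boxes covering `0 ≤ v ≤ 1`. -/
def outer (e : E) : Bool :=
  check e (12383 / 10000) (12386 / 10000) 0 (1 / 4) &&
    check e (12383 / 10000) (12386 / 10000) (1 / 4) (1 / 2) &&
    check e (12383 / 10000) (12386 / 10000) (1 / 2) (3 / 4) &&
    check e (12383 / 10000) (12386 / 10000) (3 / 4) (101 / 100)

/-- The upper barrier near the origin and its derivative. -/
def inH : E :=
  let w := E.v * E.v
  E.v * (E.k (4 / 3) + w * (E.k (3955 / 10000) + w * w * (E.k (-136 / 10000) + w * E.k (4 / 1000))))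

/-- Its derivative. -/
def inH' : E :=
  let w := E.v * E.v
  E.k (4 / 3) + w * (E.k (3 * 3955 / 10000) + w * w * (E.k (-7 * 136 / 10000) +
    w * E.k (9 * 4 / 1000)))

/-- The lower barrier near the origin. -/
def inL : E :=
  E.k (4 / 3) * E.v + E.k (32 / 81) * (E.v * E.v * E.v) -
    E.k (12 / 1000) * (E.v * E.v * E.v * E.v * E.v * E.v)

/-- Numerator of `loD'`, in `z`. -/
def inNum : E :=
  let a := E.k 1 + E.k (656 / 1000) * (E.v * E.v)
  let c := E.k 1 + E.k (625 / 1000) * (E.v * E.v)
  (E.k 1 - E.k (656 / 1000) * (E.v * E.v)) * (c * c * c) -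
    E.k (114 / 1000) * (E.v * E.v * E.v) * (a * a)

/-- Its denominator. -/
def inDen : E :=
  let a := E.k 1 + E.k (656 / 1000) * (E.v * E.v)
  let c := E.k 1 + E.k (625 / 1000) * (E.v * E.v)
  E.k 3 * (a * a) * (c * c * c)

/-- `φ'` near the origin with `cg` replaced by `q`. -/
def inPhi (H : E) (q : ℚ) : E := E.k 1 + H * H - E.k q * (E.v * E.v * E.v * E.v)

/-- `4 E - (φ' + n / d) (3 + 2 z P)`, times `d`. -/
def inG (H : E) (q : ℚ) (n d : E) : E :=
  d * (E.k 4 * (E.k 1 + H * H)) - (inPhi H q * d + n) * (E.k 3 + E.k 2 * E.v * H)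

/-- The upper barrier is a supersolution near the origin. -/
def cInRes : E := inH' * (E.k 3 + E.k 2 * E.v * inH) - E.k 4 * (E.k 1 + inH * inH)
/-- `loD' ≤ P' - φ'` near the origin. -/
def cInInc : E := inG inH ((12383 / 10000) ^ 2) inNum inDen
/-- `P' - φ' ≤ 1 / 3` near the origin. -/
def cInMax : E := E.k 0 - inG inL ((12386 / 10000) ^ 2) (E.k 1) (E.k 3)
/-- `φ' ≥ 1/2` at the lower barrier. -/
def cInPhi : E := inPhi inL ((12386 / 10000) ^ 2) - E.k (1 / 2)
/-- The bracket of the monotonicity near the origin, with `loD'`. -/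
def cInBrInc : E :=
  inDen * (inH * (E.k 2 * E.v * inL - E.k 1) + E.v * inPhi inL ((12386 / 10000) ^ 2)) + E.v * inNum
/-- The same with `1/3`. -/
def cInBrMax : E :=
  E.k 3 * (inH * (E.k 2 * E.v * inL - E.k 1) + E.v * inPhi inL ((12386 / 10000) ^ 2)) + E.v
/-- `ptD ≤ loD` near the origin. -/
def cInPt : E :=
  let a := E.k 1 + E.k (656 / 1000) * (E.v * E.v)
  let c := E.k 1 + E.k (625 / 1000) * (E.v * E.v)
  let p := E.k 3 + E.k (21 / 10) * (E.v * E.v)
  p * (c * c) - E.k (285 / 10000) * (E.v * E.v * E.v) * a * p - E.k 3 * a * (c * c)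

/-- The two boxes covering `0 ≤ z ≤ 1`. -/
def inner (e : E) : Bool :=
  check e 0 1 0 (1 / 2) && check e 0 1 (1 / 2) (1001 / 1000)


theorem cUpRes_ok : outer cUpRes = true := by decide +kernel
theorem cLoRes_ok : outer cLoRes = true := by decide +kernel
theorem cInc_ok : outer cInc = true := by decide +kernel
theorem cMax_ok : outer cMax = true := by decide +kernel
theorem cPt_ok : outer cPt = true := by decide +kernel
theorem cLoBig_ok : outer cLoBig = true := by decide +kernel
theorem cLoPhi_ok : outer cLoPhi = true := by decide +kernel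
theorem cInRes_ok : inner cInRes = true := by decide +kernel
theorem cInInc_ok : inner cInInc = true := by decide +kernel
theorem cInMax_ok : inner cInMax = true := by decide +kernel
theorem cInPhi_ok : inner cInPhi = true := by decide +kernel
theorem cInBrInc_ok : inner cInBrInc = true := by decide +kernel
theorem cInBrMax_ok : inner cInBrMax = true := by decide +kernel
theorem cInPt_ok : inner cInPt = true := by decide +kernel

theorem outer_sound {e : E} (h : outer e = true) {x y : ℝ} (hy₀ : (12383 / 10000 : ℝ) ≤ y)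
    (hy₁ : y < 12386 / 10000) (hx₀ : 0 ≤ x) (hx₁ : x ≤ 1) : 0 ≤ e.ev x y := by
  simp only [outer, Bool.and_eq_true] at h
  obtain ⟨⟨⟨h1, h2⟩, h3⟩, h4⟩ := h
  rcases lt_or_ge x (1 / 4) with a | a
  · exact check_sound h1 (by norm_num; linarith) (by norm_num; linarith) (by norm_num; linarith)
      (by norm_num; linarith)
  rcases lt_or_ge x (1 / 2) with b | b
  · exact check_sound h2 (by norm_num; linarith) (by norm_num; linarith) (by norm_num; linarith)
      (by norm_num; linarith)
  rcases lt_or_ge x (3 / 4) with c | c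
  · exact check_sound h3 (by norm_num; linarith) (by norm_num; linarith) (by norm_num; linarith)
      (by norm_num; linarith)
  · exact check_sound h4 (by norm_num; linarith) (by norm_num; linarith) (by norm_num; linarith)
      (by norm_num; linarith)

theorem inner_sound {e : E} (h : inner e = true) {x : ℝ} (hx₀ : 0 ≤ x) (hx₁ : x ≤ 1) :
    0 ≤ e.ev x 0 := by
  simp only [inner, Bool.and_eq_true] at h
  rcases lt_or_ge x (1 / 2) with a | a
  · exact check_sound h.1 (by norm_num) (by norm_num) (by norm_num; linarith)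
      (by norm_num; linarith)
  · exact check_sound h.2 (by norm_num) (by norm_num) (by norm_num; linarith)
      (by norm_num; linarith)

end Vale.Agent.P371.Five.DCheck
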