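import Vale.Agent.P371.Five.PolyKron

/-!
A small reflective checker: a polynomial in two variables is nonnegative on a box if, after moving
the box to the positive quadrant and clearing denominators, all its integer coefficients are
nonnegative (read off by `PolyKron`).
-/

namespace Vale.Agent.P371.Five.DCheck

/-- Polynomial expressions in `v` and `b`. -/
inductive E where
  | k (q : ℚ)
  | v
  | b
  | add (s t : E)
  | mul (s t : E)

instance : Add E := ⟨E.add⟩
instance : Mul E := ⟨E.mul⟩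
instance : Neg E := ⟨fun t => E.mul (E.k (-1)) t⟩
instance : Sub E := ⟨fun s t => E.add s (E.mul (E.k (-1)) t)⟩

/-- The value of an expression. -/
def E.ev (x y : ℝ) : E → ℝ
  | .k q => q
  | .v => x
  | .b => y
  | .add s t => s.ev x y + t.ev x y
  | .mul s t => s.ev x y * t.ev x y

@[simp] theorem E.ev_add (x y : ℝ) (s t : E) : (s + t).ev x y = s.ev x y + t.ev x y := rfl
@[simp] theorem E.ev_mul (x y : ℝ) (s t : E) : (s * t).ev x y = s.ev x y * t.ev x y := rfl
@[simp] theorem E.ev_sub (x y : ℝ) (s t : E) : (s - t).ev x y = s.ev x y - t.ev x y := by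
  change s.ev x y + ((-1 : ℚ) : ℝ) * t.ev x y = _
  push_cast; ring

/-- `p * Z ^ n`. -/
def mulPow (Z : Expr) : ℕ → Expr → Expr
  | 0, p => p
  | n + 1, p => mulPow Z n (Expr.mul p Z)

theorem eval_mulPow (t u : ℝ) (Z : Expr) : ∀ (n : ℕ) (p : Expr),
    (mulPow Z n p).eval t u = p.eval t u * Z.eval t u ^ n
  | 0, p => by simp [mulPow]
  | n + 1, p => by simp [mulPow, eval_mulPow t u Z n, Expr.eval, pow_succ]; ring

/-- A cleared expression: `num = den * (x scale) ^ i * (y scale) ^ j * value`. -/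
structure Cl where
  num : Expr
  den : ℕ
  i : ℕ
  j : ℕ

/-- The expression moved to the quadrant, with substitutions `nx / wx` and `ny / wy`. -/
def E.comp (nx wx ny wy : Expr) : E → Cl
  | .k q => ⟨.const q.num, q.den, 0, 0⟩
  | .v => ⟨nx, 1, 1, 0⟩
  | .b => ⟨ny, 1, 0, 1⟩
  | .mul s t =>
    let S := s.comp nx wx ny wy
    let T := t.comp nx wx ny wy
    ⟨.mul S.num T.num, S.den * T.den, S.i + T.i, S.j + T.j⟩
  | .add s t =>
    let S := s.comp nx wx ny wy
    let T := t.comp nx wx ny wy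
    let i := max S.i T.i
    let j := max S.j T.j
    let d := Nat.lcm S.den T.den
    ⟨.add (mulPow wx (i - S.i) (mulPow wy (j - S.j) (.mul (.const (d / S.den : ℕ)) S.num)))
      (mulPow wx (i - T.i) (mulPow wy (j - T.j) (.mul (.const (d / T.den : ℕ)) T.num))),
      d, i, j⟩

theorem E.comp_spec (nx wx ny wy : Expr) (x y t u : ℝ) (hx : nx.eval t u = wx.eval t u * x)
    (hy : ny.eval t u = wy.eval t u * y) : ∀ e : E,
    0 < (e.comp nx wx ny wy).den ∧ (e.comp nx wx ny wy).num.eval t u =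
      (e.comp nx wx ny wy).den * wx.eval t u ^ (e.comp nx wx ny wy).i *
        wy.eval t u ^ (e.comp nx wx ny wy).j * e.ev x y
  | .k q => by
    refine ⟨q.den_pos, ?_⟩
    have hq : (q : ℝ) * q.den = q.num := by exact_mod_cast q.mul_den_eq_num
    simp [E.comp, E.ev, ← hq]; ring
  | .v => ⟨Nat.one_pos, by simp [E.comp, E.ev, hx]⟩
  | .b => ⟨Nat.one_pos, by simp [E.comp, E.ev, hy]⟩
  | .mul s r => by
    obtain ⟨hs, es⟩ := E.comp_spec nx wx ny wy x y t u hx hy s
    obtain ⟨hr, er⟩ := E.comp_spec nx wx ny wy x y t u hx hy r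
    refine ⟨Nat.mul_pos hs hr, ?_⟩
    simp only [E.comp, E.ev, Expr.eval, es, er, Nat.cast_mul, pow_add]
    ring
  | .add s r => by
    obtain ⟨hs, es⟩ := E.comp_spec nx wx ny wy x y t u hx hy s
    obtain ⟨hr, er⟩ := E.comp_spec nx wx ny wy x y t u hx hy r
    refine ⟨Nat.lcm_pos hs hr, ?_⟩
    simp only [E.comp, E.ev, Expr.eval, eval_mulPow, es, er, Int.cast_natCast]
    generalize hS : s.comp nx wx ny wy = S
    generalize hT : r.comp nx wx ny wy = T
    have k1 : ((Nat.lcm S.den T.den / S.den : ℕ) : ℝ) * S.den = (Nat.lcm S.den T.den : ℕ) := by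
      exact_mod_cast Nat.div_mul_cancel (Nat.dvd_lcm_left _ _)
    have k2 : ((Nat.lcm S.den T.den / T.den : ℕ) : ℝ) * T.den = (Nat.lcm S.den T.den : ℕ) := by
      exact_mod_cast Nat.div_mul_cancel (Nat.dvd_lcm_right _ _)
    generalize ((Nat.lcm S.den T.den / S.den : ℕ) : ℝ) = m1 at *
    generalize ((Nat.lcm S.den T.den / T.den : ℕ) : ℝ) = m2 at *
    generalize ((Nat.lcm S.den T.den : ℕ) : ℝ) = L at *
    obtain ⟨a, ha⟩ := Nat.exists_eq_add_of_le (le_max_left S.i T.i)
    obtain ⟨b, hb⟩ := Nat.exists_eq_add_of_le (le_max_left S.j T.j)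
    obtain ⟨c, hc⟩ := Nat.exists_eq_add_of_le (le_max_right S.i T.i)
    obtain ⟨d, hd⟩ := Nat.exists_eq_add_of_le (le_max_right S.j T.j)
    rw [show max S.i T.i - S.i = a by omega, show max S.i T.i - T.i = c by omega,
      show max S.j T.j - S.j = b by omega, show max S.j T.j - T.j = d by omega]
    have p1 : wx.eval t u ^ max S.i T.i = wx.eval t u ^ S.i * wx.eval t u ^ a := by
      rw [ha, pow_add]
    have p2 : wy.eval t u ^ max S.j T.j = wy.eval t u ^ S.j * wy.eval t u ^ b := by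
      rw [hb, pow_add]
    have p3 : wx.eval t u ^ T.i * wx.eval t u ^ c = wx.eval t u ^ max S.i T.i := by
      rw [hc, pow_add]
    have p4 : wy.eval t u ^ T.j * wy.eval t u ^ d = wy.eval t u ^ max S.j T.j := by
      rw [hd, pow_add]
    linear_combination (L * s.ev x y) *
        (-(wy.eval t u ^ max S.j T.j) * p1 - wx.eval t u ^ S.i * wx.eval t u ^ a * p2) +
      (L * r.ev x y) *
        (wy.eval t u ^ T.j * wy.eval t u ^ d * p3 + wx.eval t u ^ max S.i T.i * p4) +
      (wx.eval t u ^ S.i * wx.eval t u ^ a * wy.eval t u ^ S.j * wy.eval t u ^ b * s.ev x y) * k1 +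
      (wx.eval t u ^ T.i * wx.eval t u ^ c * wy.eval t u ^ T.j * wy.eval t u ^ d * r.ev x y) * k2

/-- Numerator of `(a + c u) / (1 + u)` in the variable `var`, times the common denominator. -/
def boxN (var : Expr) (a c : ℚ) : Expr :=
  let d := Nat.lcm a.den c.den
  .add (.const (a.num * (d / a.den : ℕ))) (.mul (.const (c.num * (d / c.den : ℕ))) var)

/-- Its denominator. -/
def boxW (var : Expr) (a c : ℚ) : Expr :=
  .mul (.const (Nat.lcm a.den c.den : ℕ)) (.add (.const 1) var)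

theorem box_eval (var : Expr) (a c : ℚ) (x t u : ℝ)
    (h : x * (1 + var.eval t u) = a + c * var.eval t u) :
    (boxN var a c).eval t u = (boxW var a c).eval t u * x := by
  have ha : (a : ℝ) * a.den = a.num := by exact_mod_cast a.mul_den_eq_num
  have hc : (c : ℝ) * c.den = c.num := by exact_mod_cast c.mul_den_eq_num
  have k1 : ((Nat.lcm a.den c.den / a.den : ℕ) : ℝ) * a.den = (Nat.lcm a.den c.den : ℕ) := by
    exact_mod_cast Nat.div_mul_cancel (Nat.dvd_lcm_left _ _)
  have k2 : ((Nat.lcm a.den c.den / c.den : ℕ) : ℝ) * c.den = (Nat.lcm a.den c.den : ℕ) := by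
    exact_mod_cast Nat.div_mul_cancel (Nat.dvd_lcm_right _ _)
  simp only [boxN, boxW, Expr.eval, Int.cast_mul, Int.cast_natCast, Int.cast_one]
  rw [← ha, ← hc]
  linear_combination (a : ℝ) * k1 + (c : ℝ) * var.eval t u * k2 -
    ((Nat.lcm a.den c.den : ℕ) : ℝ) * h

theorem boxW_pos (var : Expr) (a c : ℚ) {t u : ℝ} (h : 0 ≤ var.eval t u) :
    0 < (boxW var a c).eval t u := by
  have hd : (0 : ℝ) < (Nat.lcm a.den c.den : ℕ) := by
    exact_mod_cast Nat.lcm_pos a.den_pos c.den_pos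
  simp only [boxW, Expr.eval, Int.cast_natCast, Int.cast_one]
  positivity

/-- All coefficients are nonnegative after moving `[b₀, b₁) × [a, c)` to the quadrant. -/
def check (e : E) (b₀ b₁ a c : ℚ) : Bool :=
  (e.comp (boxN .T a c) (boxW .T a c) (boxN .A b₀ b₁) (boxW .A b₀ b₁)).num.kron

theorem exists_param {a c x : ℝ} (h₀ : a ≤ x) (h₁ : x < c) :
    ∃ u, 0 ≤ u ∧ x * (1 + u) = a + c * u :=
  ⟨(x - a) / (c - x), div_nonneg (sub_nonneg.2 h₀) (sub_nonneg.2 h₁.le), by
    have : c - x ≠ 0 := (sub_pos.2 h₁).ne'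
    field_simp; ring⟩

theorem check_sound {e : E} {b₀ b₁ a c : ℚ} (h : check e b₀ b₁ a c = true) {x y : ℝ}
    (hy₀ : (b₀ : ℝ) ≤ y) (hy₁ : y < b₁) (hx₀ : (a : ℝ) ≤ x) (hx₁ : x < c) : 0 ≤ e.ev x y := by
  obtain ⟨t, ht, hty⟩ := exists_param hy₀ hy₁
  obtain ⟨u, hu, hux⟩ := exists_param hx₀ hx₁
  obtain ⟨hd, he⟩ := E.comp_spec _ _ _ _ x y t u (box_eval .T a c x t u hux)
    (box_eval .A b₀ b₁ y t u hty) e
  have h0 := Expr.eval_nonneg _ (Expr.kron_sound _ h) ht hu
  rw [he] at h0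
  have h1 : (0 : ℝ) < (e.comp (boxN .T a c) (boxW .T a c) (boxN .A b₀ b₁) (boxW .A b₀ b₁)).den :=
    by exact_mod_cast hd
  have h2 := boxW_pos .T a c (t := t) (u := u) hu
  have h3 := boxW_pos .A b₀ b₁ (t := t) (u := u) ht
  exact nonneg_of_mul_nonneg_right h0 (by positivity)

end Vale.Agent.P371.Five.DCheck
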