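import Mathlib

/-!
A kernel-checked sign test for polynomials `∑ aᵢ(k) wⁱ` with integer coefficients, `0 ≤ w` and `k`
in an interval, used for the one-variable certificates of the trapezoid fact.
-/

namespace Vale.Agent.P371.Five.TrapPoly

section Generic

variable {α : Type} {R : Type*} [CommRing R] {ev : α → R} {f g : α → α → α} {o : α} {x : R}

/-- Sum of coefficient lists. -/
def padd (f : α → α → α) : List α → List α → List α
  | [], q => q
  | a :: p, [] => a :: p
  | a :: p, b :: q => f a b :: padd f p q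

/-- Product of coefficient lists. -/
def pmul (f g : α → α → α) (o : α) : List α → List α → List α
  | [], _ => []
  | a :: p, q => padd f (q.map (g a)) (o :: pmul f g o p q)

/-- Value of a coefficient list. -/
def pev (ev : α → R) (x : R) : List α → R
  | [] => 0
  | a :: p => ev a + x * pev ev x p

theorem pev_padd (hf : ∀ a b, ev (f a b) = ev a + ev b) (p q : List α) :
    pev ev x (padd f p q) = pev ev x p + pev ev x q := by
  induction p generalizing q with
  | nil => simp [padd, pev]
  | cons a p ih => cases q with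
    | nil => simp [padd, pev]
    | cons b q => simp only [padd, pev, hf, ih]; ring

theorem pev_map (hg : ∀ a b, ev (g a b) = ev a * ev b) (a : α) (q : List α) :
    pev ev x (q.map (g a)) = ev a * pev ev x q := by
  induction q with
  | nil => simp [pev]
  | cons b q ih => simp only [List.map_cons, pev, hg, ih]; ring

theorem pev_pmul (hf : ∀ a b, ev (f a b) = ev a + ev b) (hg : ∀ a b, ev (g a b) = ev a * ev b)
    (ho : ev o = 0) (p q : List α) :
    pev ev x (pmul f g o p q) = pev ev x p * pev ev x q := by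
  induction p with
  | nil => simp [pmul, pev]
  | cons a p ih => simp only [pmul, pev, pev_padd hf, pev_map hg, ho, ih]; ring

end Generic

/-- Polynomials in `w` whose coefficients are polynomials in `k`. -/
structure Bi where
  /-- The nested coefficient list. -/
  coeff : List (List ℤ)

/-- Sum of polynomials in `k`. -/
def add1 : List ℤ → List ℤ → List ℤ := padd (· + ·)

/-- Product of polynomials in `k`. -/
def mul1 : List ℤ → List ℤ → List ℤ := pmul (· + ·) (· * ·) 0

/-- Sum. -/
def Bi.add (p q : Bi) : Bi := ⟨padd add1 p.coeff q.coeff⟩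

/-- Product. -/
def Bi.mul (p q : Bi) : Bi := ⟨pmul add1 mul1 [] p.coeff q.coeff⟩

/-- Integer multiple. -/
def Bi.smul (n : ℤ) (p : Bi) : Bi := Bi.mul ⟨[[n]]⟩ p

/-- Power. -/
def Bi.pow (p : Bi) : ℕ → Bi
  | 0 => ⟨[[1]]⟩
  | n + 1 => Bi.mul (p.pow n) p

/-- The variable `k`. -/
def vk : Bi := ⟨[[0, 1]]⟩

/-- The affine form `a + b w`. -/
def lin (a b : ℤ) : Bi := ⟨[[a], [b]]⟩

/-- Value of a polynomial in `k`. -/
def ev1 (k : ℝ) : List ℤ → ℝ := pev (fun a => (a : ℝ)) k

/-- Value. -/
def Bi.ev (w k : ℝ) (p : Bi) : ℝ := pev (ev1 k) w p.coeff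

variable {w k : ℝ}

theorem ev1_add (p q : List ℤ) : ev1 k (add1 p q) = ev1 k p + ev1 k q :=
  pev_padd (fun _ _ => by push_cast; ring) p q

theorem ev1_mul (p q : List ℤ) : ev1 k (mul1 p q) = ev1 k p * ev1 k q :=
  pev_pmul (fun _ _ => by push_cast; ring) (fun _ _ => by push_cast; ring) (by simp) p q

@[simp] theorem ev_add (p q : Bi) : (p.add q).ev w k = p.ev w k + q.ev w k :=
  pev_padd ev1_add p.coeff q.coeff

@[simp] theorem ev_mul (p q : Bi) : (p.mul q).ev w k = p.ev w k * q.ev w k :=
  pev_pmul ev1_add ev1_mul rfl p.coeff q.coeff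

@[simp] theorem ev_smul (n : ℤ) (p : Bi) : (p.smul n).ev w k = n * p.ev w k := by
  rw [Bi.smul, ev_mul]; simp [Bi.ev, ev1, pev]

@[simp] theorem ev_pow (p : Bi) : ∀ n, (p.pow n).ev w k = p.ev w k ^ n
  | 0 => by simp [Bi.pow, Bi.ev, ev1, pev]
  | n + 1 => by rw [Bi.pow, ev_mul, ev_pow p n, pow_succ]

@[simp] theorem ev_vk : vk.ev w k = k := by simp [vk, Bi.ev, ev1, pev]

@[simp] theorem ev_lin (a b : ℤ) : (lin a b).ev w k = a + w * b := by
  simp [lin, Bi.ev, ev1, pev]

@[simp] theorem ev_const (a : ℤ) : Bi.ev w k ⟨[[a]]⟩ = a := by simp [Bi.ev, ev1, pev]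

/-- A lower bound for `q ^ length * (value at k)` when `lo ≤ q k ≤ hi`. -/
def low (lo q hi : ℤ) : List ℤ → ℤ
  | [] => 0
  | a :: p =>
    if 0 ≤ low lo q hi p then a * q ^ (p.length + 1) + lo * low lo q hi p
    else a * q ^ (p.length + 1) + hi * low lo q hi p

theorem low_le {lo q hi : ℤ} (h0 : 0 ≤ lo) (h1 : (lo : ℝ) ≤ q * k)
    (h2 : (q : ℝ) * k ≤ hi) (p : List ℤ) : (low lo q hi p : ℝ) ≤ (q : ℝ) ^ p.length * ev1 k p := by
  induction p with
  | nil => simp [low, ev1, pev]
  | cons a p ih =>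
    have hp : (0 : ℝ) ≤ lo := Int.cast_nonneg h0
    have hm : (q : ℝ) * k * low lo q hi p ≤ q * k * ((q : ℝ) ^ p.length * ev1 k p) :=
      mul_le_mul_of_nonneg_left ih (hp.trans h1)
    have he : (q : ℝ) ^ (a :: p).length * ev1 k (a :: p) =
        a * (q : ℝ) ^ (p.length + 1) + q * k * ((q : ℝ) ^ p.length * ev1 k p) := by
      simp only [List.length_cons, ev1, pev, pow_succ]; ring
    rw [he]
    by_cases h : 0 ≤ low lo q hi p
    · have : (lo : ℝ) * low lo q hi p ≤ q * k * low lo q hi p :=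
        mul_le_mul_of_nonneg_right h1 (Int.cast_nonneg h)
      simp only [low, if_pos h]; push_cast; linarith
    · have : (hi : ℝ) * low lo q hi p ≤ q * k * low lo q hi p :=
        mul_le_mul_of_nonpos_right h2 (by exact_mod_cast (not_le.1 h).le)
      simp only [low, if_neg h]; push_cast; linarith

/-- All coefficients in `w` are nonnegative for `k` in the interval. -/
def Bi.check (lo q hi : ℤ) (p : Bi) : Bool := p.coeff.all fun a => decide (0 ≤ low lo q hi a)

theorem check_nonneg {lo q hi : ℤ} {p : Bi} (h : p.check lo q hi = true) (h0 : 0 ≤ lo)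
    (hq : 0 < q) (h1 : (lo : ℝ) ≤ q * k) (h2 : (q : ℝ) * k ≤ hi) (hw : 0 ≤ w) :
    0 ≤ p.ev w k := by
  obtain ⟨c⟩ := p
  simp only [Bi.check, List.all_eq_true, decide_eq_true_eq] at h
  simp only [Bi.ev]
  induction c with
  | nil => simp [pev]
  | cons a c ih =>
    have hr : (0 : ℝ) ≤ low lo q hi a := Int.cast_nonneg (h a (by simp))
    have hqr : (0 : ℝ) < q := Int.cast_pos.2 hq
    have ha : 0 ≤ ev1 k a :=
      nonneg_of_mul_nonneg_right (hr.trans (low_le h0 h1 h2 a)) (pow_pos hqr _)
    simp only [pev]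
    exact add_nonneg ha (mul_nonneg hw (ih fun b hb => h b (by simp [hb])))

end Vale.Agent.P371.Five.TrapPoly
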