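import Vale.Agent.P371.Five.Profile
import Vale.Agent.P371.Five.Reduce
import Vale.Agent.P371.Five.TrapPoly
import Vale.Agent.P371.Five.CgBounds

/-!
The trapezoid fact: the third derivative of the gauge is at most that of `cmpF`, so
`dphi - cmpF'` is concave.

After clearing denominators the claim is `0 ≤ trapGap cg z (prof z)`. Its left side only improves
when the profile is replaced by an upper barrier, which turns the claim into sign conditions for
polynomials: a barrier from the origin on `[0, 7/5)` and one from infinity on `[7/5, ∞)`.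
-/

namespace Vale.Agent.P371.Five

open Set Filter Topology TrapPoly

/-- An upper bound for `(1 + 16 z² / 25) ^ (5/2)`. -/
noncomputable def trapDen (z : ℝ) : ℝ := (1 + 16 / 25 * z ^ 2) ^ 2 * (1 + 8 / 25 * z ^ 2)

/-- The part of the third derivative that does not involve `cg`. -/
noncomputable def trapTop (z p : ℝ) : ℝ :=
  (8 * (1 + p ^ 2) ^ 2 + 4 * p ^ 2 * (1 + p ^ 2) * (3 + 2 * z * p)) / (3 + 2 * z * p) ^ 3

/-- The cleared form of the trapezoid inequality. -/
noncomputable def trapGap (c z p : ℝ) : ℝ :=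
  (3 + 2 * z * p) ^ 3 * (c * z ^ 2 * trapDen z + 8 / 27) -
    trapDen z * (8 * (1 + p ^ 2) ^ 2 + 4 * p ^ 2 * (1 + p ^ 2) * (3 + 2 * z * p))

theorem trapDen_pos (z : ℝ) : 0 < trapDen z := by unfold trapDen; positivity

theorem dddphi_eq (z : ℝ) : dddphi z = 12 * (trapTop z (prof z) - cg * z ^ 2) := by
  have h := (den_pos z).ne'
  simp only [dddphi, ddprof, dprof, trapTop]
  obtain ⟨d, hd⟩ : ∃ d, d = 3 + 2 * z * prof z := ⟨_, rfl⟩
  rw [← hd] at h ⊢
  field_simp
  linear_combination 32 * (1 + prof z ^ 2) ^ 2 * hd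

/-! ### The barrier from the origin -/

/-- The barrier from the origin, divided by `z`, as a function of `u = z²`. -/
noncomputable def trapQ (u : ℝ) : ℝ :=
  (1334 + 397 * u - 4 * u ^ 2 - 9 * u ^ 3 + 2 * u ^ 4) / 1000

/-- The barrier from the origin. -/
noncomputable def trapU (z : ℝ) : ℝ := z * trapQ (z ^ 2)

/-- Its derivative. -/
noncomputable def trapU' (z : ℝ) : ℝ :=
  (1334 + 1191 * z ^ 2 - 20 * z ^ 4 - 63 * z ^ 6 + 18 * z ^ 8) / 1000

theorem hasDerivAt_trapU (z : ℝ) : HasDerivAt trapU (trapU' z) z := by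
  have h := (((((hasDerivAt_id' z).const_mul (1334 : ℝ)).add
    ((hasDerivAt_pow 3 z).const_mul (397 : ℝ))).sub ((hasDerivAt_pow 5 z).const_mul (4 : ℝ))).sub
    ((hasDerivAt_pow 7 z).const_mul (9 : ℝ))).add ((hasDerivAt_pow 9 z).const_mul (2 : ℝ))
      |>.div_const 1000
  refine (h.congr_of_eventuallyEq (Eventually.of_forall fun y => ?_)).congr_deriv ?_
  · simp only [trapU, trapQ, Pi.add_apply, Pi.sub_apply]; ring
  · simp only [trapU']; push_cast; ring

/-- The scaled `u`. -/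
def nT : Bi := lin 0 49

/-- The scale. -/
def nW : Bi := lin 25 25

/-- The homogenised `trapQ`. -/
def nQ : Bi :=
  ((((nW.pow 4).smul 1334).add ((nT.mul (nW.pow 3)).smul 397)).add
    (((nT.pow 2).mul (nW.pow 2)).smul (-4))).add
      ((((nT.pow 3).mul nW).smul (-9)).add ((nT.pow 4).smul 2))

/-- The homogenised `trapU'`. -/
def nP : Bi :=
  ((((nW.pow 4).smul 1334).add ((nT.mul (nW.pow 3)).smul 1191)).add
    (((nT.pow 2).mul (nW.pow 2)).smul (-20))).add
      ((((nT.pow 3).mul nW).smul (-63)).add ((nT.pow 4).smul 18))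

/-- The homogenised `3 + 2 z P`. -/
def nA : Bi := ((nW.pow 5).smul 3000).add ((nT.mul nQ).smul 2)

/-- The homogenised `1 + P²`. -/
def nE : Bi := ((nW.pow 9).smul 1000000).add (nT.mul (nQ.pow 2))

/-- The homogenised `trapDen`. -/
def nR : Bi := (((nW.smul 25).add (nT.smul 16)).pow 2).mul ((nW.smul 25).add (nT.smul 8))

/-- The scaled residual of `trapU`. -/
def nRes : Bi := (nP.mul nA).add (nE.smul (-4))

/-- The scaled `trapGap` at `trapU`. -/
def nGap : Bi :=
  (((nA.pow 3).mul (((nT.mul nR).smul 4131).add ((nW.pow 4).smul 12500000))).mul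
    ((nW.pow 7).smul 1000000)).add
      ((((nW.pow 5).mul (nR.mul (nE.pow 2))).smul (-21600000)).add
        ((((nR.mul (nT.mul (nQ.pow 2))).mul nE).mul nA).smul (-10800)))

theorem nRes_check : nRes.check 0 1 0 = true := by decide +kernel

theorem nGap_check : nGap.check 0 1 0 = true := by decide +kernel

theorem trapU_signs {z : ℝ} (h0 : 0 ≤ z) (h : z < 7 / 5) :
    0 ≤ res z (trapU z) (trapU' z) ∧ 0 ≤ trapGap (153 / 100) z (trapU z) := by
  obtain ⟨u, hu⟩ : ∃ u, u = z ^ 2 := ⟨_, rfl⟩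
  have hu1 : 0 < 49 - 25 * u := by nlinarith
  obtain ⟨τ, hτ⟩ : ∃ τ, τ = 25 * u / (49 - 25 * u) := ⟨_, rfl⟩
  have hu0 : 0 ≤ u := hu ▸ sq_nonneg z
  have hτ0 : 0 ≤ τ := by rw [hτ]; positivity
  obtain ⟨W, hW⟩ : ∃ W, W = 25 + τ * 25 := ⟨_, rfl⟩
  have hW0 : 0 < W := by rw [hW]; positivity
  have hT : τ * 49 = u * W := by
    rw [hW, hτ]; field_simp; ring
  have eW : nW.ev τ 0 = W := by simp [nW, hW]
  have eT : nT.ev τ 0 = u * W := by simp [nT, hT]
  have eQ : nQ.ev τ 0 = 1000 * W ^ 4 * trapQ u := by simp [nQ, eW, eT, trapQ]; ring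
  have eP : nP.ev τ 0 = 1000 * W ^ 4 * trapU' z := by
    simp [nP, eW, eT, trapU', hu]; ring
  have eA : nA.ev τ 0 = 1000 * W ^ 5 * (3 + 2 * z * trapU z) := by
    simp [nA, eW, eT, eQ, trapU, ← hu]; rw [hu]; ring
  have eE : nE.ev τ 0 = 1000000 * W ^ 9 * (1 + trapU z ^ 2) := by
    simp [nE, eW, eT, eQ, trapU, mul_pow, ← hu]; ring
  have eR : nR.ev τ 0 = 15625 * W ^ 3 * trapDen z := by
    simp [nR, eW, eT, trapDen, ← hu]; ring
  have c1 := check_nonneg (k := 0) nRes_check le_rfl one_pos (by simp) (by simp) hτ0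
  have c2 := check_nonneg (k := 0) nGap_check le_rfl one_pos (by simp) (by simp) hτ0
  have r1 : nRes.ev τ 0 = 1000000 * W ^ 9 * res z (trapU z) (trapU' z) := by
    simp [nRes, eP, eA, eE, res]; ring
  have r2 : nGap.ev τ 0 =
      2700 * 15625 * 10 ^ 15 * W ^ 26 * trapGap (153 / 100) z (trapU z) := by
    simp [nGap, eW, eT, eQ, eA, eE, eR, trapGap]
    rw [show trapU z ^ 2 = u * trapQ u ^ 2 by rw [trapU, hu]; ring, ← hu]
    ring
  rw [r1] at c1
  rw [r2] at c2
  exact ⟨nonneg_of_mul_nonneg_right c1 (by positivity),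
    nonneg_of_mul_nonneg_right c2 (by positivity)⟩

/-! ### The barrier from infinity -/

/-- The barrier from infinity, with `k² = cg`. -/
noncomputable def trapV (k z : ℝ) : ℝ :=
  k * z ^ 2 + 1 / z - 1 / (2 * k * z ^ 2) - 3 / (5 * z ^ 4) + 11 / (20 * z ^ 5)

/-- Its derivative. -/
noncomputable def trapV' (k z : ℝ) : ℝ :=
  2 * k * z - 1 / z ^ 2 + 1 / (k * z ^ 3) + 12 / (5 * z ^ 5) - 11 / (4 * z ^ 6)

theorem hasDerivAt_trapV {k z : ℝ} (hk : k ≠ 0) (hz : z ≠ 0) :
    HasDerivAt (trapV k) (trapV' k z) z := by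
  have h1 := (hasDerivAt_pow 2 z).const_mul k
  have h2 := (hasDerivAt_const z (1 : ℝ)).div (hasDerivAt_id' z) hz
  have h3 := (hasDerivAt_const z (1 : ℝ)).div ((hasDerivAt_pow 2 z).const_mul (2 * k))
    (by positivity)
  have h4 := (hasDerivAt_const z (3 : ℝ)).div ((hasDerivAt_pow 4 z).const_mul (5 : ℝ))
    (by positivity)
  have h5 := (hasDerivAt_const z (11 : ℝ)).div ((hasDerivAt_pow 5 z).const_mul (20 : ℝ))
    (by positivity)
  refine ((((h1.add h2).sub h3).sub h4).add h5).congr_deriv ?_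
  simp only [trapV']
  push_cast
  field_simp
  ring

theorem tendsto_trapV (k : ℝ) : Tendsto (fun z => trapV k z / z ^ 2) atTop (𝓝 k) := by
  have hd : ∀ (a : ℝ) (n : ℕ), n ≠ 0 → Tendsto (fun z : ℝ => a / z ^ n) atTop (𝓝 0) :=
    fun a n hn => tendsto_const_nhds.div_atTop (tendsto_pow_atTop hn)
  have h := ((((tendsto_const_nhds (x := k)).add (hd 1 3 (by norm_num))).sub
    (hd (1 / (2 * k)) 4 (by norm_num))).sub (hd (3 / 5) 6 (by norm_num))).add
      (hd (11 / 20) 7 (by norm_num))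
  simp only [add_zero, sub_zero] at h
  refine h.congr' ?_
  filter_upwards [eventually_gt_atTop (0 : ℝ)] with z hz
  simp only [trapV]
  field_simp

/-- `5 z` as `7 + w`. -/
def tS : Bi := lin 7 1

/-- The scaled denominator of `trapV`. -/
def tD : Bi := (vk.mul (tS.pow 5)).smul 4

/-- The scaled numerator of `trapV`. -/
def tN : Bi :=
  ((((vk.pow 2).mul (tS.pow 7)).smul 4).add ((vk.mul (tS.pow 4)).smul 500)).add
    (((tS.pow 3).smul (-1250)).add (((vk.mul tS).smul (-37500)).add (vk.smul 171875)))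

/-- The scaled numerator of `trapV'`. -/
def tM : Bi :=
  ((((vk.pow 2).mul (tS.pow 7)).smul 8).add ((vk.mul (tS.pow 4)).smul (-500))).add
    (((tS.pow 3).smul 2500).add (((vk.mul tS).smul 150000).add (vk.smul (-859375))))

/-- The scaled `3 + 2 z P`. -/
def tA : Bi := (tD.smul 375).add ((tS.mul tN).smul 2)

/-- The scaled `1 + P²`. -/
def tE : Bi := ((tD.pow 2).smul 625).add (tN.pow 2)

/-- The scaled `trapDen`. -/
def tR : Bi :=
  (((Bi.mk [[625]]).add ((tS.pow 2).smul 16)).pow 2).mul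
    ((Bi.mk [[625]]).add ((tS.pow 2).smul 8))

/-- The scaled residual of `trapV`, negated. -/
def tRes : Bi := ((tS.mul tE).smul 4).add ((tM.mul tA).smul (-1))

/-- The scaled `trapGap` at `trapV`. -/
def tGap : Bi :=
  (((tA.pow 3).mul (tD.pow 2)).mul
    ((((vk.pow 2).mul ((tS.pow 2).mul tR)).smul 27).add (Bi.mk [[48828125000]]))).add
      ((((tR.mul tD).mul (tE.pow 2)).smul (-27000)).add
        ((((tR.mul (tN.pow 2)).mul tE).mul tA).smul (-108)))

theorem tRes_check : tRes.check 1237 1000 1239 = true := by decide +kernel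

theorem tGap_check : tGap.check 1237 1000 1239 = true := by decide +kernel

theorem tail_algebra (z k D N A E : ℝ) (hD : D ≠ 0) (hA : A = 3 * D + 2 * z * N)
    (hE : E = D ^ 2 + N ^ 2) :
    A ^ 3 * D ^ 2 * (k ^ 2 * z ^ 2 * trapDen z + 8 / 27) - trapDen z * D * 8 * E ^ 2 -
      4 * trapDen z * N ^ 2 * E * A = D ^ 5 * trapGap (k ^ 2) z (N / D) := by
  subst hA hE
  simp only [trapGap]
  field_simp
  ring

theorem trapV_signs {k z : ℝ} (hk1 : 1237 / 1000 ≤ k) (hk2 : k ≤ 1239 / 1000) (hz : 7 / 5 ≤ z) :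
    res z (trapV k z) (trapV' k z) ≤ 0 ∧ 0 ≤ trapGap (k ^ 2) z (trapV k z) := by
  have hz0 : 0 < z := by linarith
  have hk0 : 0 < k := by linarith
  obtain ⟨w, hw⟩ : ∃ w, w = 5 * z - 7 := ⟨_, rfl⟩
  obtain ⟨D, hD⟩ : ∃ D, D = 4 * k * z ^ 5 := ⟨_, rfl⟩
  obtain ⟨N, hN⟩ : ∃ N, N = trapV k z * D := ⟨_, rfl⟩
  obtain ⟨M, hM⟩ : ∃ M, M = trapV' k z * (z * D) := ⟨_, rfl⟩
  have hD0 : 0 < D := by rw [hD]; positivity
  have eS : tS.ev w k = 5 * z := by simp [tS, hw]
  have eD : tD.ev w k = 5 ^ 5 * D := by simp [tD, eS, hD]; ring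
  have eN : tN.ev w k = 5 ^ 7 * N := by
    simp [tN, eS]; rw [hN, hD, trapV]; field_simp; ring
  have eM : tM.ev w k = 5 ^ 7 * M := by
    simp [tM, eS]; rw [hM, hD, trapV']; field_simp; ring
  have eA : tA.ev w k = 5 ^ 8 * (3 * D + 2 * z * N) := by simp [tA, eS, eD, eN]; ring
  have eE : tE.ev w k = 5 ^ 14 * (D ^ 2 + N ^ 2) := by simp [tE, eD, eN]; ring
  have eR : tR.ev w k = 625 ^ 3 * trapDen z := by simp [tR, eS, trapDen]; ring
  have hV : trapV k z = N / D := by rw [hN]; field_simp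
  have hV' : trapV' k z = M / (z * D) := by rw [hM]; field_simp
  have hk3 : ((1237 : ℤ) : ℝ) ≤ ((1000 : ℤ) : ℝ) * k := by push_cast; linarith
  have hk4 : ((1000 : ℤ) : ℝ) * k ≤ ((1239 : ℤ) : ℝ) := by push_cast; linarith
  have hw0 : 0 ≤ w := by linarith
  have c1 := check_nonneg tRes_check (by norm_num) (by norm_num) hk3 hk4 hw0
  have c2 := check_nonneg tGap_check (by norm_num) (by norm_num) hk3 hk4 hw0
  have r1 : tRes.ev w k = 5 ^ 15 * z * D ^ 2 * -res z (trapV k z) (trapV' k z) := by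
    rw [hV, hV', res]
    simp [tRes, eS, eE, eM, eA]
    field_simp
    ring
  have r2 : tGap.ev w k = 27 * 625 ^ 3 * 5 ^ 36 * (D ^ 5 * trapGap (k ^ 2) z (trapV k z)) := by
    rw [hV, ← tail_algebra z k D N _ _ hD0.ne' rfl rfl]
    simp [tGap, eS, eD, eN, eA, eE, eR]
    ring
  rw [r1] at c1
  rw [r2] at c2
  refine ⟨?_, ?_⟩
  · have := nonneg_of_mul_nonneg_right c1 (by positivity); linarith
  · exact nonneg_of_mul_nonneg_right (nonneg_of_mul_nonneg_right c2 (by positivity))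
      (pow_pos hD0 5)

/-! ### The comparison -/

theorem le_prof_linear {z : ℝ} (hz : 0 ≤ z) : 4 / 3 * z ≤ prof z :=
  le_prof_of_res_zero (Q := fun z => 4 / 3 * z) (Q' := fun _ => 4 / 3) (b := z)
    (fun y _ => by simpa using (hasDerivAt_id y).const_mul (4 / 3 : ℝ))
    (fun y _ => by simp only [res]; nlinarith [sq_nonneg y]) (by simp) z ⟨hz, le_rfl⟩

theorem monotoneOn_trapTop {z : ℝ} (hz : 0 ≤ z) : MonotoneOn (trapTop z) (Ici (z / 2)) := by
  have hden : ∀ p ∈ Ici (z / 2), 0 < 3 + 2 * z * p := fun p hp => by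
    have : 0 ≤ p := le_trans (by linarith) (mem_Ici.1 hp)
    positivity
  have hd : ∀ p ∈ Ici (z / 2), HasDerivAt (trapTop z)
      (((3 + 2 * z * p) * (24 * p * (2 * p ^ 2 + 1) + 16 * z * p ^ 4) +
        (96 * p - 48 * z) * (1 + p ^ 2) + 16 * z * p ^ 2 * (1 + p ^ 2)) /
          (3 + 2 * z * p) ^ 4) p := fun p hp => by
    have hpos := hden p hp
    have h1 : HasDerivAt (fun p : ℝ => 1 + p ^ 2) (2 * p) p := by
      simpa using (hasDerivAt_pow 2 p).const_add 1
    have h2 : HasDerivAt (fun p : ℝ => 3 + 2 * z * p) (2 * z) p := by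
      simpa using ((hasDerivAt_id p).const_mul (2 * z)).const_add 3
    have h3 := ((h1.pow 2).const_mul (8 : ℝ)).add
      (((((hasDerivAt_pow 2 p).const_mul (4 : ℝ)).mul h1)).mul h2)
    refine (h3.div (h2.pow 3) (pow_ne_zero 3 hpos.ne')).congr_deriv ?_
    simp only [Pi.add_apply, Pi.pow_apply, Pi.mul_apply]
    push_cast
    field_simp
    ring
  refine monotoneOn_of_hasDerivWithinAt_nonneg (convex_Ici _)
    (fun p hp => (hd p hp).continuousAt.continuousWithinAt)
    (fun p hp => (hd p (interior_subset hp)).hasDerivWithinAt) fun p hp => ?_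
  have hp' : z / 2 ≤ p := mem_Ici.1 (interior_subset hp)
  have hp0 : 0 ≤ p := le_trans (by linarith) hp'
  have : 0 ≤ 96 * p - 48 * z := by linarith
  positivity

theorem trapTop_le {z U c : ℝ} (hz : 0 ≤ z) (hU : prof z ≤ U) (hc : c ≤ cg)
    (hG : 0 ≤ trapGap c z U) : trapTop z (prof z) ≤ cg * z ^ 2 + 8 / 27 / trapDen z := by
  have hp := le_prof_linear hz
  refine (monotoneOn_trapTop hz (mem_Ici.2 (by linarith)) (mem_Ici.2 (by linarith)) hU).trans ?_
  have hU0 : 0 ≤ U := by linarith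
  have hd : 0 < (3 + 2 * z * U) ^ 3 := by positivity
  have hR := trapDen_pos z
  have h := mul_le_mul_of_nonneg_right hc (sq_nonneg z)
  refine le_trans ?_ (add_le_add_left h _)
  rw [trapTop, div_le_iff₀ hd, ← sub_nonneg]
  have e : (c * z ^ 2 + 8 / 27 / trapDen z) * (3 + 2 * z * U) ^ 3 -
      (8 * (1 + U ^ 2) ^ 2 + 4 * U ^ 2 * (1 + U ^ 2) * (3 + 2 * z * U)) =
        trapGap c z U / trapDen z := by
    simp only [trapGap]; field_simp
  rw [e]
  positivity

theorem dddphi_le_of_nonneg (hc1 : (1237 / 1000) ^ 2 ≤ cg) (hc2 : cg ≤ (1239 / 1000) ^ 2)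
    {z : ℝ} (hz : 0 ≤ z) : dddphi z ≤ 32 / 9 / root z ^ 5 := by
  have hR := trapDen_pos z
  have hr := root_pos z
  have hs := root_sq z
  have hle : root z ^ 5 ≤ trapDen z := by
    have h1 : root z ≤ 1 + 8 / 25 * z ^ 2 := by nlinarith [sq_nonneg (root z - 1)]
    have h4 : root z ^ 4 = (1 + 16 / 25 * z ^ 2) ^ 2 := by rw [← hs]; ring
    calc root z ^ 5 = root z ^ 4 * root z := by ring
      _ ≤ root z ^ 4 * (1 + 8 / 25 * z ^ 2) := by gcongr
      _ = trapDen z := by rw [h4, trapDen]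
  suffices trapTop z (prof z) ≤ cg * z ^ 2 + 8 / 27 / trapDen z by
    rw [dddphi_eq]
    have : 8 / 27 / trapDen z ≤ 8 / 27 / root z ^ 5 :=
      div_le_div_of_nonneg_left (by norm_num) (by positivity) hle
    have : 32 / 9 / root z ^ 5 = 12 * (8 / 27 / root z ^ 5) := by ring
    linarith
  rcases lt_or_ge z (7 / 5) with h | h
  · refine trapTop_le hz ?_ (c := 153 / 100) ?_ (trapU_signs hz h).2
    · exact prof_le_of_res_zero (b := z) (fun y _ => hasDerivAt_trapU y)
        (fun y hy => (trapU_signs hy.1 (lt_of_le_of_lt hy.2 h)).1) (by simp [trapU]) z ⟨hz, le_rfl⟩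
    · linarith
  · have hk : 0 < Real.sqrt cg := Real.sqrt_pos.2 cg_pos
    have hk1 : 1237 / 1000 ≤ Real.sqrt cg := Real.le_sqrt_of_sq_le hc1
    have hk2 : Real.sqrt cg ≤ 1239 / 1000 := Real.sqrt_le_iff.2 ⟨by norm_num, hc2⟩
    refine trapTop_le hz ?_ (Real.sq_sqrt cg_pos.le).le (trapV_signs hk1 hk2 h).2
    exact prof_le_of_res_atTop (a := 7 / 5)
      (fun y hy => hasDerivAt_trapV hk.ne' (by have := mem_Ici.1 hy; positivity))
      (fun y hy => (trapV_signs hk1 hk2 hy).1) (tendsto_trapV _) z h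

theorem hasDerivAt_root (z : ℝ) : HasDerivAt root (16 / 25 * z / root z) z := by
  have h1 : HasDerivAt (fun z : ℝ => 1 + 16 / 25 * z ^ 2) (16 / 25 * (2 * z)) z := by
    simpa using ((hasDerivAt_pow 2 z).const_mul (16 / 25 : ℝ)).const_add 1
  refine (h1.sqrt (by positivity)).congr_deriv ?_
  rw [show Real.sqrt (1 + 16 / 25 * z ^ 2) = root z from rfl]
  ring

theorem hasDerivAt_cmpF' (z : ℝ) :
    HasDerivAt cmpF' (32 / 27 * z * (3 + 32 / 25 * z ^ 2) / root z ^ 3) z := by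
  have hr := root_pos z
  have hs := root_sq z
  have h1 : HasDerivAt (fun z : ℝ => 50 / 27 * (1 + 32 / 25 * z ^ 2))
      (50 / 27 * (32 / 25 * (2 * z))) z := by
    simpa using (((hasDerivAt_pow 2 z).const_mul (32 / 25 : ℝ)).const_add 1).const_mul (50 / 27 : ℝ)
  refine (h1.div (hasDerivAt_root z) hr.ne').congr_deriv ?_
  field_simp
  linear_combination (80000 : ℝ) * z * hs

theorem hasDerivAt_ddcmpF (z : ℝ) :
    HasDerivAt (fun z => 32 / 27 * z * (3 + 32 / 25 * z ^ 2) / root z ^ 3)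
      (32 / 9 / root z ^ 5) z := by
  have hr := root_pos z
  have hs := root_sq z
  have h1 : HasDerivAt (fun z : ℝ => 3 + 32 / 25 * z ^ 2) (32 / 25 * (2 * z)) z := by
    simpa using ((hasDerivAt_pow 2 z).const_mul (32 / 25 : ℝ)).const_add 3
  refine ((((hasDerivAt_id' z).const_mul (32 / 27 : ℝ)).mul h1).div
    ((hasDerivAt_root z).pow 3) (pow_ne_zero 3 hr.ne')).congr_deriv ?_
  simp only [Pi.pow_apply, Pi.mul_apply]
  push_cast
  field_simp
  grind

/-- The third derivative of the gauge is at most that of `cmpF`. -/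
theorem dddphi_le (hc1 : (1237 / 1000) ^ 2 ≤ cg) (hc2 : cg ≤ (1239 / 1000) ^ 2) (z : ℝ) :
    dddphi z ≤ 32 / 9 / root z ^ 5 := by
  rcases le_total 0 z with h | h
  · exact dddphi_le_of_nonneg hc1 hc2 h
  · have h' := dddphi_le_of_nonneg hc1 hc2 (neg_nonneg.2 h)
    rw [dddphi_eq] at h' ⊢
    simpa [trapTop, root, prof_neg] using h'

/-- The trapezoid fact. -/
theorem trap_of_bounds (hc1 : (1237 / 1000) ^ 2 ≤ cg) (hc2 : cg ≤ (1239 / 1000) ^ 2) :
    ConcaveOn ℝ univ fun z => dphi z - cmpF' z := by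
  refine concaveOn_of_hasDerivWithinAt2_nonpos convex_univ
    (f' := fun z => ddphi z - 32 / 27 * z * (3 + 32 / 25 * z ^ 2) / root z ^ 3)
    (f'' := fun z => dddphi z - 32 / 9 / root z ^ 5)
    (fun z _ => ((hasDerivAt_dphi z).sub (hasDerivAt_cmpF' z)).continuousAt.continuousWithinAt)
    (fun z _ => ((hasDerivAt_dphi z).sub (hasDerivAt_cmpF' z)).hasDerivWithinAt)
    (fun z _ => ((hasDerivAt_ddphi z).sub (hasDerivAt_ddcmpF z)).hasDerivWithinAt)
    fun z _ => sub_nonpos.2 (dddphi_le hc1 hc2 z)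

/-- The trapezoid field of `Facts`. -/
theorem trap_fact : ConcaveOn ℝ univ fun z => dphi z - cmpF' z :=
  trap_of_bounds (by linarith [Encl.cg_bounds.1]) (by linarith [Encl.cg_bounds.2])

end Vale.Agent.P371.Five
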