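import Vale.Agent.P371.Five.Kinetic
import Vale.Agent.P371.QuarterLifting

/-!
Eigenvalue moments of order at least `5/4` from the sharp kinetic inequality at exponent `5/4`.
-/

namespace Vale.Agent.P371.Five

open MeasureTheory Set ComplexConjugate

/-- The constant of Young's inequality. -/
noncomputable def yc : ℝ := 4 / 7 * (3 / 7 : ℝ) ^ (3 / 4 : ℝ)

/-- The constant at exponent `5/4` of a gauge with quartic coefficient `cg`. -/
noncomputable def cst (cg : ℝ) : ℝ := 5 / 4 * (cg / 16) ^ (1 / 4 : ℝ) * yc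

theorem young {w r : ℝ} (hw : 0 ≤ w) (hr : 0 ≤ r) :
    w * r - r ^ (7 / 3 : ℝ) ≤ yc * w ^ (7 / 4 : ℝ) := by
  obtain ⟨k, hk⟩ : ∃ k, k = (7 / 3 : ℝ) := ⟨_, rfl⟩
  have hk0 : 0 < k := by rw [hk]; norm_num
  have hs : 0 < k ^ (3 / 7 : ℝ) := Real.rpow_pos_of_pos hk0 _
  have h := Real.young_inequality_of_nonneg (a := w / k ^ (3 / 7 : ℝ)) (b := r * k ^ (3 / 7 : ℝ))
    (div_nonneg hw hs.le) (mul_nonneg hr hs.le)
    (show (7 / 4 : ℝ).HolderConjugate (7 / 3) by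
      rw [Real.holderConjugate_iff]; norm_num)
  rw [Real.div_rpow hw hs.le, Real.mul_rpow hr hs.le, ← Real.rpow_mul hk0.le,
    ← Real.rpow_mul hk0.le] at h
  norm_num at h
  have e : w / k ^ (3 / 7 : ℝ) * (r * k ^ (3 / 7 : ℝ)) = w * r := by field_simp
  rw [e] at h
  have e2 : (3 / 7 : ℝ) ^ (3 / 4 : ℝ) = 1 / k ^ (3 / 4 : ℝ) := by
    rw [show (3 / 7 : ℝ) = k⁻¹ by rw [hk]; norm_num, Real.inv_rpow hk0.le, one_div]
  have e4 : r ^ (7 / 3 : ℝ) * k / (7 / 3) = r ^ (7 / 3 : ℝ) := by rw [hk]; ring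
  rw [yc, e2]
  calc w * r - r ^ (7 / 3 : ℝ) ≤ w ^ (7 / 4 : ℝ) / k ^ (3 / 4 : ℝ) / (7 / 4) := by linarith
    _ = _ := by ring

theorem yc_pos : 0 < yc := by unfold yc; positivity

theorem cst_pos (G : Gauge) : 0 < cst G.cg := by
  have := yc_pos
  have := G.cg_pos
  unfold cst
  positivity

variable {ι : Type*} [Fintype ι]

theorem moment_five (G : Gauge) {V : ℝ → ℝ} (hVm : Measurable V) (hV0 : ∀ x, 0 ≤ V x)
    (hVi : Integrable fun x => V x ^ (7 / 4 : ℝ)) {u : ι → ℝ → ℂ}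
    (hu : ∀ j, ContDiff ℝ 1 (u j)) (hsupp : ∀ j, HasCompactSupport (u j))
    (horth : ∀ j k, j ≠ k → ∫ x, conj (u j x) * u k x = 0)
    (hnorm : ∀ j, ∫ x, ‖u j x‖ ^ 2 = 1) :
    ∑ j, max 0 (energy V (u j)) ^ (5 / 4 : ℝ) ≤ cst G.cg * ∫ x, V x ^ (7 / 4 : ℝ) := by
  have hcw : 0 < G.cg := G.cg_pos
  obtain ⟨m, hm⟩ : ∃ m, m = (16 / G.cg) ^ (1 / 4 : ℝ) := ⟨_, rfl⟩
  have hm0 : 0 < m := hm ▸ Real.rpow_pos_of_pos (by positivity) _
  have hm4 : m ^ 4 = 16 / G.cg := by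
    rw [hm, ← Real.rpow_natCast, ← Real.rpow_mul (by positivity)]; norm_num
  obtain ⟨ν, hν⟩ : ∃ ν : ι → ℝ, ν = fun j => m * max 0 (energy V (u j)) ^ (1 / 4 : ℝ) := ⟨_, rfl⟩
  have hν0 : ∀ j, 0 ≤ ν j := fun j => by
    rw [hν]; exact mul_nonneg hm0.le (Real.rpow_nonneg (le_max_left _ _) _)
  have hterm : ∀ j, ν j * energy V (u j) - G.cg / 80 * ν j ^ 5 =
      4 / 5 * m * max 0 (energy V (u j)) ^ (5 / 4 : ℝ) := fun j => by
    rcases le_or_gt (energy V (u j)) 0 with h | h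
    · simp [hν, max_eq_left h,
        Real.zero_rpow (by norm_num : (5 / 4 : ℝ) ≠ 0)]
    · rw [hν]
      dsimp only
      rw [max_eq_right h.le]
      obtain ⟨y, hy⟩ : ∃ y, y = energy V (u j) ^ (1 / 4 : ℝ) := ⟨_, rfl⟩
      have hy4 : y ^ 4 = energy V (u j) := by
        rw [hy, ← Real.rpow_natCast, ← Real.rpow_mul h.le]; norm_num
      have hy5 : energy V (u j) ^ (5 / 4 : ℝ) = y ^ 5 := by
        rw [hy, ← Real.rpow_natCast, ← Real.rpow_mul h.le]; norm_num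
      rw [← hy, hy5, ← hy4]
      have hmc : G.cg * m ^ 4 = 16 := by rw [hm4]; field_simp
      linear_combination (-(m * y ^ 5) / 80) * hmc
  have hc : ∀ j, Continuous (u j) := fun j => (hu j).continuous
  have hρc : Continuous fun x => ∑ j, ν j * ‖u j x‖ ^ 2 :=
    continuous_finsetSum _ fun j _ => continuous_const.mul ((hc j).norm.pow 2)
  have hρs : HasCompactSupport fun x => ∑ j, ν j * ‖u j x‖ ^ 2 := by
    refine HasCompactSupport.intro (isCompact_iUnion fun j => hsupp j) fun x hx => ?_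
    simp only [mem_iUnion, not_exists] at hx
    exact Finset.sum_eq_zero fun j _ => by simp [image_eq_zero_of_notMem_tsupport (hx j)]
  have hn : ∀ j, HasCompactSupport fun x => ‖u j x‖ ^ 2 := fun j =>
    (hsupp j).comp_left (g := fun z : ℂ => ‖z‖ ^ 2) (by simp)
  have hp : (1 : ℝ) ≤ 7 / 4 := by norm_num
  have hi : ∀ j, Integrable fun x => V x * ‖u j x‖ ^ 2 := fun j =>
    integrable_pot_mul hp hVm hV0 hVi (g := fun x => ‖u j x‖ ^ 2) ((hc j).norm.pow 2) (hn j)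
  have hdi : ∀ j, Integrable fun x => ‖deriv (u j) x‖ ^ 2 := integrable_deriv_sq hu hsupp
  have hρ7 : Integrable fun x => (∑ j, ν j * ‖u j x‖ ^ 2) ^ (7 / 3 : ℝ) :=
    (hρc.rpow_const fun _ => Or.inr (by norm_num)).integrable_of_hasCompactSupport
      (hρs.comp_left (g := fun t : ℝ => t ^ (7 / 3 : ℝ)) (by norm_num))
  have hK := kinetic_complex G hu hsupp horth hnorm hν0
  rw [integral_finsetSum _ fun j _ => (hdi j).const_mul (ν j)] at hK
  simp only [MeasureTheory.integral_const_mul] at hK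
  have hVρ : Integrable fun x => V x * ∑ j, ν j * ‖u j x‖ ^ 2 :=
    integrable_pot_mul hp hVm hV0 hVi hρc hρs
  have hmain : ∑ j, (ν j * energy V (u j) - G.cg / 80 * ν j ^ 5) ≤ yc * ∫ x, V x ^ (7 / 4 : ℝ) := by
    have e : ∑ j, ν j * ∫ x, V x * ‖u j x‖ ^ 2 = ∫ x, V x * ∑ j, ν j * ‖u j x‖ ^ 2 := by
      simp only [← MeasureTheory.integral_const_mul]
      rw [← integral_finsetSum _ fun j _ => (hi j).const_mul _]
      refine integral_congr_ae (.of_forall fun x => ?_)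
      simp only [Finset.mul_sum]
      exact Finset.sum_congr rfl fun j _ => by ring
    simp only [energy, mul_sub, Finset.sum_sub_distrib, e, ← Finset.mul_sum]
    have h2 : (∫ x, V x * ∑ j, ν j * ‖u j x‖ ^ 2) -
        ∫ x, (∑ j, ν j * ‖u j x‖ ^ 2) ^ (7 / 3 : ℝ) ≤ yc * ∫ x, V x ^ (7 / 4 : ℝ) := by
      rw [← MeasureTheory.integral_const_mul, ← integral_sub hVρ hρ7]
      exact integral_mono (hVρ.sub hρ7) (hVi.const_mul _) fun x =>
        young (hV0 x) (Finset.sum_nonneg fun j _ => mul_nonneg (hν0 j) (sq_nonneg _))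
    linarith
  simp only [hterm, ← Finset.mul_sum] at hmain
  have hmc : 4 / 5 * m * cst G.cg = yc := by
    rw [cst, hm, show G.cg / 16 = (16 / G.cg)⁻¹ by rw [inv_div], Real.inv_rpow (by positivity)]
    have := (Real.rpow_pos_of_pos (by positivity : 0 < 16 / G.cg) (1 / 4)).ne'
    field_simp
  refine le_of_mul_le_mul_left ?_ (by positivity : 0 < 4 / 5 * m)
  rw [← mul_assoc, hmc]
  exact hmain

theorem moment_shifted (G : Gauge) {W : ℝ → ℝ} {γ : ℝ} (hγ : 5 / 4 ≤ γ) (hWm : Measurable W)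
    (hW0 : ∀ x, 0 ≤ W x) (hWi : Integrable fun x => W x ^ (γ + 1 / 2)) {u : ι → ℝ → ℂ}
    (hu : ∀ j, ContDiff ℝ 1 (u j)) (hsupp : ∀ j, HasCompactSupport (u j))
    (horth : ∀ j k, j ≠ k → ∫ x, conj (u j x) * u k x = 0)
    (hnorm : ∀ j, ∫ x, ‖u j x‖ ^ 2 = 1) {t : ℝ} (ht : 0 < t) :
    ∑ j, max 0 (energy W (u j) - t) ^ (5 / 4 : ℝ) ≤ cst G.cg * ∫ x, max 0 (W x - t) ^ (7 / 4 : ℝ) ∧
    Integrable fun x => max 0 (W x - t) ^ (7 / 4 : ℝ) := by
  have hVm : Measurable fun x => max 0 (W x - t) := measurable_const.max (hWm.sub_const t)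
  have hVi : Integrable fun x => max 0 (W x - t) ^ (7 / 4 : ℝ) := by
    refine (hWi.const_mul (t ^ (5 / 4 - γ))).mono' (hVm.pow_const _).aestronglyMeasurable
      (.of_forall fun x => ?_)
    rw [Real.norm_eq_abs, abs_of_nonneg (Real.rpow_nonneg (le_max_left _ _) _)]
    rcases le_or_gt (W x) t with hx | hx
    · rw [max_eq_left (by linarith), Real.zero_rpow (by norm_num)]
      exact mul_nonneg (Real.rpow_nonneg ht.le _) (Real.rpow_nonneg (hW0 x) _)
    · rw [max_eq_right (by linarith)]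
      have hWx : 0 < W x := ht.trans hx
      calc (W x - t) ^ (7 / 4 : ℝ) ≤ W x ^ (7 / 4 : ℝ) :=
            Real.rpow_le_rpow (by linarith) (by linarith) (by norm_num)
        _ = W x ^ (5 / 4 - γ) * W x ^ (γ + 1 / 2) := by rw [← Real.rpow_add hWx]; congr 1; ring
        _ ≤ t ^ (5 / 4 - γ) * W x ^ (γ + 1 / 2) := mul_le_mul_of_nonneg_right
            (Real.rpow_le_rpow_of_nonpos ht hx.le (by linarith)) (Real.rpow_nonneg hWx.le _)
  refine ⟨le_trans (Finset.sum_le_sum fun j _ => ?_)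
    (moment_five G hVm (fun x => le_max_left _ _) hVi hu hsupp horth hnorm), hVi⟩
  refine Real.rpow_le_rpow (le_max_left _ _) (max_le_max le_rfl ?_) (by norm_num)
  have hn : HasCompactSupport fun x => ‖u j x‖ ^ 2 :=
    (hsupp j).comp_left (g := fun z : ℂ => ‖z‖ ^ 2) (by simp)
  have hgc : Continuous fun x => ‖u j x‖ ^ 2 := (hu j).continuous.norm.pow 2
  have hni : Integrable fun x => ‖u j x‖ ^ 2 := hgc.integrable_of_hasCompactSupport hn
  have hi1 := integrable_pot_mul (by linarith : 1 ≤ γ + 1 / 2) hWm hW0 hWi hgc hn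
  have hi2 := integrable_pot_mul (by norm_num : (1 : ℝ) ≤ 7 / 4) hVm (fun x => le_max_left _ _) hVi
    hgc hn
  simp only [energy]
  have h : ∫ x, (W x * ‖u j x‖ ^ 2 - t * ‖u j x‖ ^ 2) ≤
      ∫ x, max 0 (W x - t) * ‖u j x‖ ^ 2 :=
    integral_mono (hi1.sub (hni.const_mul t)) hi2 fun x => by
      show W x * ‖u j x‖ ^ 2 - t * ‖u j x‖ ^ 2 ≤ max 0 (W x - t) * ‖u j x‖ ^ 2
      rw [← sub_mul]
      exact mul_le_mul_of_nonneg_right (le_max_right _ _) (sq_nonneg _)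
  rw [integral_sub hi1 (hni.const_mul t), MeasureTheory.integral_const_mul, hnorm j] at h
  linarith

/-- Integrating the shifted inequality against `t ^ (γ - 9/4)`. -/
theorem lifted (G : Gauge) {W : ℝ → ℝ} {γ : ℝ} (hγ : 5 / 4 < γ) (hWm : Measurable W)
    (hW0 : ∀ x, 0 ≤ W x) (hWi : Integrable fun x => W x ^ (γ + 1 / 2)) {u : ι → ℝ → ℂ}
    (hu : ∀ j, ContDiff ℝ 1 (u j)) (hsupp : ∀ j, HasCompactSupport (u j))
    (horth : ∀ j k, j ≠ k → ∫ x, conj (u j x) * u k x = 0)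
    (hnorm : ∀ j, ∫ x, ‖u j x‖ ^ 2 = 1) :
    (∑ j, max 0 (energy W (u j)) ^ γ) * ProbabilityTheory.beta (γ - 5 / 4) (9 / 4) ≤
      cst G.cg * (ProbabilityTheory.beta (γ - 5 / 4) (11 / 4) * ∫ x, W x ^ (γ + 1 / 2)) := by
  have hC0 := (cst_pos G).le
  have hS0 : ∀ x, 0 ≤ W x ^ (γ + 1 / 2) := fun x => Real.rpow_nonneg (hW0 x) _
  have hα : 0 < γ - 5 / 4 := by linarith
  have hb1 := ProbabilityTheory.beta_pos hα (by norm_num : (0 : ℝ) < 9 / 4)
  have hb2 := ProbabilityTheory.beta_pos hα (by norm_num : (0 : ℝ) < 11 / 4)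
  have h2 : ∀ w : ℝ, ∫⁻ t in Ioi (0 : ℝ),
      ENNReal.ofReal (t ^ (γ - 5 / 4 - 1) * max 0 (w - t) ^ (5 / 4 : ℝ)) =
      ENNReal.ofReal (max 0 w ^ γ * ProbabilityTheory.beta (γ - 5 / 4) (9 / 4)) := fun w => by
    rw [lintegral_rpow_mul_pos hα (by norm_num : (0 : ℝ) < 5 / 4), sub_add_cancel]
    norm_num
  have h5 : ∀ x : ℝ, ∫⁻ t in Ioi (0 : ℝ),
      ENNReal.ofReal (t ^ (γ - 5 / 4 - 1) * max 0 (W x - t) ^ (7 / 4 : ℝ)) =
      ENNReal.ofReal (W x ^ (γ + 1 / 2) * ProbabilityTheory.beta (γ - 5 / 4) (11 / 4)) := fun x => by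
    rw [lintegral_rpow_mul_pos hα (by norm_num : (0 : ℝ) < 7 / 4), max_eq_right (hW0 x),
      show γ - 5 / 4 + 7 / 4 = γ + 1 / 2 by ring]
    norm_num
  have hm : Measurable (Function.uncurry fun t x =>
      ENNReal.ofReal (t ^ (γ - 5 / 4 - 1) * max 0 (W x - t) ^ (7 / 4 : ℝ))) :=
    ((measurable_fst.pow_const (γ - 5 / 4 - 1)).mul
      ((measurable_const.max ((hWm.comp measurable_snd).sub measurable_fst)).pow_const _)).ennreal_ofReal
  have key : ENNReal.ofReal ((∑ j, max 0 (energy W (u j)) ^ γ) *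
      ProbabilityTheory.beta (γ - 5 / 4) (9 / 4)) ≤
      ENNReal.ofReal (cst G.cg * (ProbabilityTheory.beta (γ - 5 / 4) (11 / 4) *
        ∫ x, W x ^ (γ + 1 / 2))) :=
    calc ENNReal.ofReal ((∑ j, max 0 (energy W (u j)) ^ γ) *
          ProbabilityTheory.beta (γ - 5 / 4) (9 / 4))
        = ∑ j, ∫⁻ t in Ioi (0 : ℝ),
            ENNReal.ofReal (t ^ (γ - 5 / 4 - 1) * max 0 (energy W (u j) - t) ^ (5 / 4 : ℝ)) := by
          simp only [h2]
          rw [Finset.sum_mul, ENNReal.ofReal_sum_of_nonneg fun j _ =>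
            mul_nonneg (Real.rpow_nonneg (le_max_left _ _) _) hb1.le]
      _ = ∫⁻ t in Ioi (0 : ℝ), ∑ j,
            ENNReal.ofReal (t ^ (γ - 5 / 4 - 1) * max 0 (energy W (u j) - t) ^ (5 / 4 : ℝ)) :=
          (lintegral_finsetSum _ fun j _ => by fun_prop).symm
      _ ≤ ∫⁻ t in Ioi (0 : ℝ), ENNReal.ofReal (cst G.cg) *
            ∫⁻ x, ENNReal.ofReal (t ^ (γ - 5 / 4 - 1) * max 0 (W x - t) ^ (7 / 4 : ℝ)) := by
          refine setLIntegral_mono' measurableSet_Ioi fun t (ht : 0 < t) => ?_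
          obtain ⟨hle, hi⟩ := moment_shifted G hγ.le hWm hW0 hWi hu hsupp horth hnorm ht
          have hpos : 0 ≤ t ^ (γ - 5 / 4 - 1) := Real.rpow_nonneg ht.le _
          rw [← ofReal_integral_eq_lintegral_ofReal (hi.const_mul _)
              (.of_forall fun x => mul_nonneg hpos (Real.rpow_nonneg (le_max_left _ _) _)),
            ← ENNReal.ofReal_mul hC0,
            ← ENNReal.ofReal_sum_of_nonneg fun j _ => mul_nonneg hpos
              (Real.rpow_nonneg (le_max_left _ _) _),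
            ← Finset.mul_sum, MeasureTheory.integral_const_mul]
          exact ENNReal.ofReal_le_ofReal
            (le_of_le_of_eq (mul_le_mul_of_nonneg_left hle hpos) (by ring))
      _ = ENNReal.ofReal (cst G.cg) * ∫⁻ x, ∫⁻ t in Ioi (0 : ℝ),
            ENNReal.ofReal (t ^ (γ - 5 / 4 - 1) * max 0 (W x - t) ^ (7 / 4 : ℝ)) := by
          rw [lintegral_const_mul' _ _ ENNReal.ofReal_ne_top,
            lintegral_lintegral_swap hm.aemeasurable]
      _ = _ := by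
          simp only [h5]
          rw [← ofReal_integral_eq_lintegral_ofReal (hWi.mul_const _)
              (.of_forall fun x => mul_nonneg (hS0 x) hb2.le),
            ← ENNReal.ofReal_mul hC0, MeasureTheory.integral_mul_const,
            mul_comm _ (ProbabilityTheory.beta _ _)]
  exact (ENNReal.ofReal_le_ofReal_iff (mul_nonneg hC0 (mul_nonneg hb2.le
    (integral_nonneg hS0)))).1 key

/-- Moments of order `γ ≥ 5/4`: the ratio to the semiclassical constant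
`Γ(γ+1) / (2 √π Γ(γ+3/2))` is at most its value at `5/4`. -/
theorem moment (G : Gauge) (γ : ℝ) (hγ : 5 / 4 ≤ γ) {W : ℝ → ℝ} (hWm : Measurable W)
    (hW0 : ∀ x, 0 ≤ W x) (hWi : Integrable fun x => W x ^ (γ + 1 / 2)) {u : ι → ℝ → ℂ}
    (hu : ∀ j, ContDiff ℝ 1 (u j)) (hsupp : ∀ j, HasCompactSupport (u j))
    (horth : ∀ j k, j ≠ k → ∫ x, conj (u j x) * u k x = 0)
    (hnorm : ∀ j, ∫ x, ‖u j x‖ ^ 2 = 1) :
    ∑ j, max 0 (energy W (u j)) ^ γ ≤
      cst G.cg / (Real.Gamma (9 / 4) / (2 * Real.sqrt Real.pi * Real.Gamma (11 / 4))) *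
        (Real.Gamma (γ + 1) / (2 * Real.sqrt Real.pi * Real.Gamma (γ + 3 / 2))) *
          ∫ x, W x ^ (γ + 1 / 2) := by
  have h9 := Real.Gamma_pos_of_pos (by norm_num : (0 : ℝ) < 9 / 4)
  have h11 := Real.Gamma_pos_of_pos (by norm_num : (0 : ℝ) < 11 / 4)
  have hsp : 0 < Real.sqrt Real.pi := Real.sqrt_pos.2 Real.pi_pos
  rcases eq_or_lt_of_le hγ with h | h
  · subst h
    norm_num at hWi ⊢
    have h0 := moment_five G hWm hW0 hWi hu hsupp horth hnorm
    refine h0.trans (le_of_eq ?_)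
    field_simp
  · have hα : 0 < γ - 5 / 4 := by linarith
    have hb1 := ProbabilityTheory.beta_pos hα (by norm_num : (0 : ℝ) < 9 / 4)
    refine le_of_mul_le_mul_right
      ((lifted G h hWm hW0 hWi hu hsupp horth hnorm).trans (le_of_eq ?_)) hb1
    simp only [ProbabilityTheory.beta, show γ - 5 / 4 + 9 / 4 = γ + 1 by ring,
      show γ - 5 / 4 + 11 / 4 = γ + 3 / 2 by ring]
    have h1 := (Real.Gamma_pos_of_pos (by linarith : 0 < γ + 1)).ne'
    have h2 := (Real.Gamma_pos_of_pos (by linarith : 0 < γ + 3 / 2)).ne'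
    have h3 := (Real.Gamma_pos_of_pos hα).ne'
    field_simp

end Vale.Agent.P371.Five
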