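import Vale.Agent.P371.Five.Glue
import Vale.Agent.P371.Five.Lifting

/-!
The sharp constant at exponent `5/4` and its lifting, from a profile.
-/

namespace Vale.Agent.P371.Five

open MeasureTheory ComplexConjugate

variable {ι : Type*} [Fintype ι] {phi dphi P : ℝ → ℝ}

/-- The one bound state constant at `5/4` times the semiclassical ratio bounds all moments of
order at least `5/4`, given a profile. -/
theorem moment_of_profile (hP : IsProfile phi dphi P) (γ : ℝ) (hγ : 5 / 4 ≤ γ) {W : ℝ → ℝ}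
    (hWm : Measurable W) (hW0 : ∀ x, 0 ≤ W x) (hWi : Integrable fun x => W x ^ (γ + 1 / 2))
    {u : ι → ℝ → ℂ} (hu : ∀ j, ContDiff ℝ 1 (u j)) (hsupp : ∀ j, HasCompactSupport (u j))
    (horth : ∀ j k, j ≠ k → ∫ x, conj (u j x) * u k x = 0)
    (hnorm : ∀ j, ∫ x, ‖u j x‖ ^ 2 = 1) :
    ∑ j, max 0 (energy W (u j)) ^ γ ≤
      2 * (3 / 7 : ℝ) ^ (3 / 4 : ℝ) *
        (Real.Gamma (γ + 1) / (2 * Real.sqrt Real.pi * Real.Gamma (γ + 3 / 2))) *
          ∫ x, W x ^ (γ + 1 / 2) := by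
  obtain ⟨G, hG⟩ := exists_gauge hP
  refine (moment G γ hγ hWm hW0 hWi hu hsupp horth hnorm).trans (le_of_eq ?_)
  rw [cst, hG, yc, const_eq]
  have := Real.Gamma_pos_of_pos (by norm_num : (0 : ℝ) < 9 / 4)
  have := Real.Gamma_pos_of_pos (by norm_num : (0 : ℝ) < 11 / 4)
  have := Real.sqrt_pos.2 Real.pi_pos
  field_simp

end Vale.Agent.P371.Five
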