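import Vale.Agent.P371.QuarterProfile

/-!
Gauges for the calibration at exponent `5/4`: polynomial approximation, and the averaged
inequality with part of the weight at the origin.
-/

namespace Vale.Agent.P371.Five

open Finset
open Vale.Agent.P371.Quarter (pval pzd pdd pdd_mul pdd_self)

/-- The divided difference of `f`, whose derivative is `f'`. -/
noncomputable def slope' (f f' : ℝ → ℝ) (x y : ℝ) : ℝ :=
  if x = y then f' x else (f y - f x) / (y - x)

theorem slope'_comm (f f' : ℝ → ℝ) (x y : ℝ) : slope' f f' x y = slope' f f' y x := by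
  unfold slope'
  rcases eq_or_ne x y with h | h
  · rw [if_pos h, if_pos h.symm, h]
  · rw [if_neg h, if_neg h.symm, ← neg_sub (f x), ← neg_sub x, neg_div_neg_eq]

section Weights

variable {κ : Type*} [Fintype κ]

/-- The gradient of the gauge at the node `i`; `za`, `zd` stand for `z A'`, `z D'`. -/
noncomputable def grad (p z a za d zd : κ → ℝ) (i : κ) : ℝ :=
  a i + (∑ j, p j * ((2 * a j - za j) / 3)) - (∑ j, p j * d j) * z i - (∑ j, p j * z j) * d i +
    (∑ j, p j * z j) * ∑ j, p j * ((2 * d j + zd j) / 3)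

/-- The averaged calibration at finitely many nodes. -/
noncomputable def aver (cg : ℝ) (p z a za d zd : κ → ℝ) (sa sd : κ → κ → ℝ) : ℝ :=
  (∑ i, p i * (cg * z i ^ 4)) +
    (∑ i, ∑ j, p i * p j * (sa i j - (∑ l, p l * z l) * sd i j)) -
    (∑ j, p j * d j) * (∑ j, p j) ^ 2 - ∑ i, p i * grad p z a za d zd i ^ 2

end Weights

/-- The averaged calibration of the gauge `A`, `D` with derivatives `A'`, `D'`. -/
noncomputable def averG (cg : ℝ) (A A' D D' : ℝ → ℝ) {κ : Type} [Fintype κ] (p z : κ → ℝ) : ℝ :=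
  aver cg p z (fun i => A (z i)) (fun i => z i * A' (z i)) (fun i => D (z i))
    (fun i => z i * D' (z i)) (fun i j => slope' A A' (z i) (z j))
    (fun i j => slope' D D' (z i) (z j))

/-- The gauge `ρ ^ (5/3) * (E A - E z * E D)` with everything the calibration needs from it. -/
structure Gauge where
  /-- The coefficient of the quartic term. -/
  cg : ℝ
  /-- The part of the gauge linear in the weights. -/
  A : ℝ → ℝ
  /-- The derivative of `A`. -/
  A' : ℝ → ℝ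
  /-- The part of the gauge multiplied by the first moment. -/
  D : ℝ → ℝ
  /-- The derivative of `D`. -/
  D' : ℝ → ℝ
  /-- A bound. -/
  c : ℝ
  cg_pos : 0 < cg
  c_nonneg : 0 ≤ c
  hasDerivAt_A : ∀ z, HasDerivAt A (A' z) z
  hasDerivAt_D : ∀ z, HasDerivAt D (D' z) z
  continuous_A' : Continuous A'
  continuous_D' : Continuous D'
  A_zero : A 0 = 0
  D_zero : D 0 = 0
  slope_A : ∀ z, |slope' A A' 0 z| ≤ c * (1 + z ^ 4)
  slope_D : ∀ z, |slope' D D' 0 z| ≤ c
  abs_D : ∀ z, |D z| ≤ c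
  avg : ∀ {κ : Type} [Fintype κ] (p z : κ → ℝ), (∀ i, 0 ≤ p i) → ∑ i, p i = 1 →
    1 ≤ averG cg A A' D D' p z

/-- Polynomials close to a function with its derivative, vanishing at the origin. -/
theorem exists_approx {f f' : ℝ → ℝ} (hf : ∀ z, HasDerivAt f (f' z) z) (hc : Continuous f')
    (hf0 : f 0 = 0) {Z : ℝ} (hZ : 0 ≤ Z) {e : ℝ} (he : 0 < e) :
    ∃ (a : ℕ → ℝ) (N : ℕ), ∀ x ∈ Set.Icc (-Z) Z,
      |pval a N x - f x| ≤ e ∧ |pzd a N x - x * f' x| ≤ e ∧
        ∀ y ∈ Set.Icc (-Z) Z, |pdd a N x y - slope' f f' x y| ≤ e := by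
  obtain ⟨e', he'⟩ : ∃ e', e' = e / (1 + Z) := ⟨_, rfl⟩
  have he0 : 0 < e' := by rw [he']; positivity
  obtain ⟨p, hp⟩ := exists_polynomial_near_of_continuousOn (-Z) Z f' hc.continuousOn e' he0
  obtain ⟨a, ha⟩ : ∃ a : ℕ → ℝ, a = fun n => if n = 0 then 0 else p.coeff (n - 1) / n :=
    ⟨_, rfl⟩
  obtain ⟨N, hN⟩ : ∃ N, N = p.natDegree + 1 + 1 := ⟨_, rfl⟩
  have hd : ∀ x, pdd a N x x = p.eval x := fun x => by
    rw [pdd_self, hN, sum_range_succ', p.eval_eq_sum_range, ha]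
    simp only [CharP.cast_eq_zero, zero_mul, mul_zero, add_zero, Nat.add_one_ne_zero, if_false,
      Nat.add_sub_cancel]
    refine sum_congr rfl fun n _ => ?_
    have : (n : ℝ) + 1 ≠ 0 := by positivity
    push_cast
    field_simp
  have hz : ∀ x, pzd a N x = x * pdd a N x x := fun x => by
    rw [pdd_self, pzd, mul_sum]
    refine sum_congr rfl fun n _ => ?_
    cases n with
    | zero => simp
    | succ n => simp; ring
  have hder : ∀ x, HasDerivAt (fun x => pval a N x - f x) (p.eval x - f' x) x := fun x => by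
    refine (HasDerivAt.fun_sum fun n _ =>
      (hasDerivAt_pow n x).const_mul (a n)).sub (hf x) |>.congr_deriv ?_
    rw [← hd, pdd_self]
  have hlip : ∀ x ∈ Set.Icc (-Z) Z, ∀ y ∈ Set.Icc (-Z) Z,
      |(pval a N x - f x) - (pval a N y - f y)| ≤ e' * |x - y| := fun x hx y hy => by
    simpa [Real.norm_eq_abs] using (convex_Icc (-Z) Z).norm_image_sub_le_of_norm_hasDerivWithin_le
      (f := fun x => pval a N x - f x) (f' := fun x => p.eval x - f' x)
      (fun u _ => (hder u).hasDerivWithinAt)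
      (fun u hu => by rw [Real.norm_eq_abs]; exact (hp u hu).le) hy hx
  have h0 : pval a N 0 - f 0 = 0 := by
    rw [pval, hN, sum_range_succ', ha]
    simp [hf0]
  have hee : e' ≤ e := by
    rw [he', div_le_iff₀ (by linarith : (0 : ℝ) < 1 + Z)]
    nlinarith
  have heZ : e' * Z ≤ e := by
    rw [he', div_mul_eq_mul_div, div_le_iff₀ (by linarith : (0 : ℝ) < 1 + Z)]
    nlinarith
  refine ⟨a, N, fun x hx => ?_⟩
  have hxZ : |x| ≤ Z := abs_le.2 hx
  have hv : |pval a N x - f x| ≤ e' * |x| := by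
    simpa [h0] using hlip x hx 0 ⟨by linarith, hZ⟩
  have hdx : |p.eval x - f' x| ≤ e' := (hp x hx).le
  refine ⟨hv.trans ((mul_le_mul_of_nonneg_left hxZ he0.le).trans heZ), ?_, fun y hy => ?_⟩
  · rw [hz, hd, ← mul_sub, abs_mul]
    exact ((mul_le_mul hxZ hdx (abs_nonneg _) hZ).trans (le_of_eq (mul_comm _ _))).trans heZ
  · rcases eq_or_ne x y with h | h
    · subst h
      rw [slope', if_pos rfl, hd]
      exact hdx.trans hee
    · rw [slope', if_neg h]
      have h' : x - y ≠ 0 := sub_ne_zero.2 h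
      rw [show pdd a N x y - (f y - f x) / (y - x) =
          ((pval a N x - f x) - (pval a N y - f y)) / (x - y) by
        rw [← neg_sub x y, ← neg_sub (f x) (f y), neg_div_neg_eq, eq_div_iff h', sub_mul,
          div_mul_cancel₀ _ h', pdd_mul]; ring,
        abs_div, div_le_iff₀ (abs_pos.2 h')]
      exact (hlip x hx y hy).trans (mul_le_mul_of_nonneg_right hee (abs_nonneg _))

theorem exists_bound (G : Gauge) {Z : ℝ} (hZ : 0 ≤ Z) :
    ∃ U, 0 ≤ U ∧ ∀ x ∈ Set.Icc (-Z) Z,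
      |G.A x| ≤ U ∧ |x * G.A' x| ≤ U ∧ |G.D x| ≤ U ∧ |x * G.D' x| ≤ U := by
  have hA : Continuous G.A := continuous_iff_continuousAt.2 fun x => (G.hasDerivAt_A x).continuousAt
  have hD : Continuous G.D := continuous_iff_continuousAt.2 fun x => (G.hasDerivAt_D x).continuousAt
  have h1 := G.continuous_A'
  have h2 := G.continuous_D'
  obtain ⟨U, hU⟩ := (isCompact_Icc (a := -Z) (b := Z)).exists_bound_of_continuousOn
    (f := fun x => |G.A x| + |x * G.A' x| + |G.D x| + |x * G.D' x|)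
    (Continuous.continuousOn (by fun_prop))
  have hU' : ∀ x ∈ Set.Icc (-Z) Z, |G.A x| + |x * G.A' x| + |G.D x| + |x * G.D' x| ≤ U :=
    fun x hx => (Real.le_norm_self _).trans (hU x hx)
  refine ⟨U, (norm_nonneg _).trans (hU 0 ⟨by linarith, hZ⟩), fun x hx => ?_⟩
  have := hU' x hx
  have := abs_nonneg (G.A x)
  have := abs_nonneg (x * G.A' x)
  have := abs_nonneg (G.D x)
  have := abs_nonneg (x * G.D' x)
  exact ⟨by linarith, by linarith, by linarith, by linarith⟩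

variable {κ : Type} [Fintype κ]

/-- The averaged inequality with part of the weight at the origin. -/
theorem phantom_le (G : Gauge) {p : κ → ℝ} {p0 : ℝ} (hp : ∀ i, 0 ≤ p i) (hp0 : 0 ≤ p0)
    (h1 : p0 + ∑ i, p i = 1) (z : κ → ℝ) :
    1 - p0 * (8 * G.c * (1 + ∑ i, p i * z i ^ 4)) ≤ averG G.cg G.A G.A' G.D G.D' p z := by
  have h := G.avg (κ := Option κ) (fun o => o.elim p0 p) (fun o => o.elim 0 z)
    (by rintro (_ | i) <;> simp [hp0, hp]) (by simpa [Fintype.sum_option] using h1)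
  simp only [averG, aver, grad, Fintype.sum_option, Option.elim, G.A_zero, G.D_zero, mul_zero,
    zero_mul, zero_add, sub_self, zero_div, sub_zero, zero_pow (by norm_num : (4 : ℕ) ≠ 0),
    h1, one_pow, mul_one, add_zero] at h
  obtain ⟨zb, hzb⟩ : ∃ zb, zb = ∑ i, p i * z i := ⟨_, rfl⟩
  obtain ⟨db, hdb⟩ : ∃ db, db = ∑ i, p i * G.D (z i) := ⟨_, rfl⟩
  obtain ⟨S, hS⟩ : ∃ S, S = 1 + ∑ i, p i * z i ^ 4 := ⟨_, rfl⟩
  have hc := G.c_nonneg
  have hS1 : 1 ≤ S := by
    have : 0 ≤ ∑ i, p i * z i ^ 4 :=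
      sum_nonneg fun i _ => mul_nonneg (hp i) ((by decide : Even 4).pow_nonneg _)
    linarith
  have hP : 0 ≤ ∑ i, p i := sum_nonneg fun i _ => hp i
  have hP1 : ∑ i, p i ≤ 1 := by linarith
  have hzS : |zb| ≤ S := by
    rw [hzb]
    refine (abs_sum_le_sum_abs _ _).trans ?_
    calc ∑ i, |p i * z i| ≤ ∑ i, p i * (1 + z i ^ 4) := sum_le_sum fun i _ => by
          rw [abs_mul, abs_of_nonneg (hp i)]
          refine mul_le_mul_of_nonneg_left ?_ (hp i)
          nlinarith [sq_abs (z i), sq_nonneg (|z i| - 1 / 2), sq_nonneg (z i ^ 2 - 1 / 2)]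
      _ ≤ S := by simp only [mul_add, sum_add_distrib, mul_one]; linarith
  have hdc : |db| ≤ G.c := by
    rw [hdb]
    refine (abs_sum_le_sum_abs _ _).trans ?_
    calc ∑ i, |p i * G.D (z i)| ≤ ∑ i, p i * G.c := sum_le_sum fun i _ => by
          rw [abs_mul, abs_of_nonneg (hp i)]
          exact mul_le_mul_of_nonneg_left (G.abs_D _) (hp i)
      _ ≤ G.c := by rw [← sum_mul]; exact mul_le_of_le_one_left hc hP1
  obtain ⟨K, hK⟩ : ∃ K : ℝ → ℝ,
      K = fun y => slope' G.A G.A' 0 y - zb * slope' G.D G.D' 0 y := ⟨_, rfl⟩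
  have hKb : ∀ y, |K y| ≤ G.c * (1 + y ^ 4) + S * G.c := fun y => by
    rw [hK]
    refine (abs_sub _ _).trans (add_le_add (G.slope_A y) ?_)
    rw [abs_mul]
    exact mul_le_mul hzS (G.slope_D y) (abs_nonneg _) (by linarith)
  have hsum : ∑ j, p0 * p j * K (z j) ≤ p0 * (2 * G.c * S) := by
    calc ∑ j, p0 * p j * K (z j) ≤ ∑ j, p0 * (p j * (G.c * (1 + z j ^ 4) + S * G.c)) :=
          sum_le_sum fun j _ => by
            rw [mul_assoc]
            exact mul_le_mul_of_nonneg_left (mul_le_mul_of_nonneg_left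
              ((le_abs_self _).trans (hKb _)) (hp j)) hp0
      _ ≤ _ := by
        rw [← mul_sum]
        refine mul_le_mul_of_nonneg_left ?_ hp0
        simp only [mul_add, mul_one, sum_add_distrib, ← sum_mul, mul_left_comm (p _) G.c, ← mul_sum]
        have h2 : (∑ i, p i) * (S * G.c) ≤ 1 * (S * G.c) :=
          mul_le_mul_of_nonneg_right hP1 (by positivity)
        have h3 : G.c * ((∑ i, p i) + ∑ i, p i * z i ^ 4) ≤ G.c * S := by
          rw [hS]; exact mul_le_mul_of_nonneg_left (by linarith) hc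
        linarith
  have e1 : ∑ i, p i * p0 * (slope' G.A G.A' (z i) 0 - zb * slope' G.D G.D' (z i) 0) =
      ∑ j, p0 * p j * K (z j) := sum_congr rfl fun i _ => by
    rw [hK, slope'_comm G.A, slope'_comm G.D]; ring
  have e2 : ∑ i, p0 * p i * (slope' G.A G.A' 0 (z i) - zb * slope' G.D G.D' 0 (z i)) =
      ∑ j, p0 * p j * K (z j) := by rw [hK]
  have hK0 : p0 * p0 * K 0 ≤ p0 * (2 * G.c * S) := by
    have h2 : K 0 ≤ 2 * G.c * S := by
      have := (le_abs_self _).trans (hKb 0)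
      nlinarith
    have h3 : p0 * p0 ≤ p0 := mul_le_of_le_one_left hp0 (by linarith)
    calc p0 * p0 * K 0 ≤ p0 * p0 * (2 * G.c * S) :=
          mul_le_mul_of_nonneg_left h2 (mul_nonneg hp0 hp0)
      _ ≤ _ := mul_le_mul_of_nonneg_right h3 (by positivity)
  have hD : db * (∑ i, p i) ^ 2 - db ≤ p0 * (2 * G.c * S) := by
    have h2 : 0 ≤ 1 - (∑ i, p i) ^ 2 := by nlinarith
    have h3 : 1 - (∑ i, p i) ^ 2 ≤ 2 * p0 := by nlinarith
    calc db * (∑ i, p i) ^ 2 - db = -db * (1 - (∑ i, p i) ^ 2) := by ring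
      _ ≤ G.c * (1 - (∑ i, p i) ^ 2) :=
          mul_le_mul_of_nonneg_right ((neg_le_abs _).trans hdc) h2
      _ ≤ G.c * (2 * p0) := mul_le_mul_of_nonneg_left h3 hc
      _ ≤ _ := by nlinarith [mul_nonneg (mul_nonneg hp0 hc) (sub_nonneg.2 hS1)]
  simp only [← hzb] at h
  simp only [averG, aver, grad, ← hzb]
  simp only [sum_add_distrib] at h
  rw [e1, e2] at h
  simp only [hK] at hK0
  rw [← hS, ← hdb]
  simp only [← hdb] at h
  linarith [mul_nonneg hp0 (sq_nonneg ((∑ j, p j * ((2 * G.A (z j) - z j * G.A' (z j)) / 3)) +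
    zb * ∑ j, p j * ((2 * G.D (z j) + z j * G.D' (z j)) / 3)))]

/-- The averaged inequality for approximate gauges. -/
theorem approx_le (G : Gauge) {p : κ → ℝ} {p0 e Z U : ℝ} (hp : ∀ i, 0 ≤ p i) (hp0 : 0 ≤ p0)
    (h1 : p0 + ∑ i, p i = 1) (he0 : 0 ≤ e) (he1 : e ≤ 1) (hZ : 0 ≤ Z) (hU : 0 ≤ U) (z : κ → ℝ)
    (hz : ∀ i, |z i| ≤ Z) (hUb : ∀ i, |G.A (z i)| ≤ U ∧ |z i * G.A' (z i)| ≤ U ∧
      |G.D (z i)| ≤ U ∧ |z i * G.D' (z i)| ≤ U)
    (a za d zd : κ → ℝ) (sa sd : κ → κ → ℝ)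
    (ha : ∀ i, |a i - G.A (z i)| ≤ e) (hza : ∀ i, |za i - z i * G.A' (z i)| ≤ e)
    (hd : ∀ i, |d i - G.D (z i)| ≤ e) (hzd : ∀ i, |zd i - z i * G.D' (z i)| ≤ e)
    (hsa : ∀ i j, |sa i j - slope' G.A G.A' (z i) (z j)| ≤ e)
    (hsd : ∀ i j, |sd i j - slope' G.D G.D' (z i) (z j)| ≤ e) :
    1 - p0 * (8 * G.c * (1 + ∑ i, p i * z i ^ 4)) -
        e * (2 + Z + (2 + 3 * Z) ^ 2 * (2 * U + 1)) ≤
      aver G.cg p z a za d zd sa sd := by
  have hP : 0 ≤ ∑ i, p i := sum_nonneg fun i _ => hp i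
  have hP1 : ∑ i, p i ≤ 1 := by linarith
  have avgb : ∀ (f : κ → ℝ) (b : ℝ), 0 ≤ b → (∀ j, |f j| ≤ b) → |∑ j, p j * f j| ≤ b := by
    intro f b hb hf
    refine (abs_sum_le_sum_abs _ _).trans ?_
    calc ∑ j, |p j * f j| ≤ ∑ j, p j * b := sum_le_sum fun j _ => by
          rw [abs_mul, abs_of_nonneg (hp j)]
          exact mul_le_mul_of_nonneg_left (hf j) (hp j)
      _ ≤ b := by rw [← sum_mul]; exact mul_le_of_le_one_left hb hP1
  obtain ⟨zb, hzb⟩ : ∃ zb, zb = ∑ i, p i * z i := ⟨_, rfl⟩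
  have hzbZ : |zb| ≤ Z := hzb ▸ avgb z Z hZ hz
  have dsum : ∀ f g : κ → ℝ, (∑ j, p j * f j) - ∑ j, p j * g j = ∑ j, p j * (f j - g j) :=
    fun f g => by rw [← sum_sub_distrib]; exact sum_congr rfl fun j _ => by ring
  have hdb : |(∑ j, p j * d j) - ∑ j, p j * G.D (z j)| ≤ e := by
    rw [dsum]; exact avgb _ e he0 hd
  have hm1 : |(∑ j, p j * ((2 * a j - za j) / 3)) -
      ∑ j, p j * ((2 * G.A (z j) - z j * G.A' (z j)) / 3)| ≤ e := by
    rw [dsum]
    refine avgb _ e he0 fun j => abs_le.2 ?_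
    constructor <;> linarith [abs_le.1 (ha j), abs_le.1 (hza j)]
  have hm2 : |(∑ j, p j * ((2 * d j + zd j) / 3)) -
      ∑ j, p j * ((2 * G.D (z j) + z j * G.D' (z j)) / 3)| ≤ e := by
    rw [dsum]
    refine avgb _ e he0 fun j => abs_le.2 ?_
    constructor <;> linarith [abs_le.1 (hd j), abs_le.1 (hzd j)]
  obtain ⟨g0, hg0⟩ : ∃ g0, g0 = grad p z (fun i => G.A (z i)) (fun i => z i * G.A' (z i))
      (fun i => G.D (z i)) (fun i => z i * G.D' (z i)) := ⟨_, rfl⟩
  obtain ⟨g1, hg1⟩ : ∃ g1, g1 = grad p z a za d zd := ⟨_, rfl⟩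
  have hg0b : ∀ i, |g0 i| ≤ U * (2 + 3 * Z) := fun i => by
    have b1 : |∑ j, p j * ((2 * G.A (z j) - z j * G.A' (z j)) / 3)| ≤ U :=
      avgb _ U hU fun j => abs_le.2 (by
        constructor <;> linarith [abs_le.1 (hUb j).1, abs_le.1 (hUb j).2.1])
    have b2 : |∑ j, p j * ((2 * G.D (z j) + z j * G.D' (z j)) / 3)| ≤ U :=
      avgb _ U hU fun j => abs_le.2 (by
        constructor <;> linarith [abs_le.1 (hUb j).2.2.1, abs_le.1 (hUb j).2.2.2])
    have b3 : |∑ j, p j * G.D (z j)| ≤ U := avgb _ U hU fun j => (hUb j).2.2.1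
    rw [hg0]
    simp only [grad, ← hzb]
    refine (abs_add_le _ _).trans ((add_le_add ((abs_sub _ _).trans (add_le_add ((abs_sub _ _).trans
      (add_le_add ((abs_add_le _ _).trans (add_le_add (hUb i).1 b1))
        ((abs_mul _ _).le.trans (mul_le_mul b3 (hz i) (abs_nonneg _) hU))))
        ((abs_mul _ _).le.trans (mul_le_mul hzbZ (hUb i).2.2.1 (abs_nonneg _) hZ))))
        ((abs_mul _ _).le.trans (mul_le_mul hzbZ b2 (abs_nonneg _) hZ))).trans (le_of_eq ?_))
    ring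
  have hgd : ∀ i, |g1 i - g0 i| ≤ e * (2 + 3 * Z) := fun i => by
    rw [hg0, hg1]
    simp only [grad, ← hzb]
    have t1 : |((∑ j, p j * d j) - ∑ j, p j * G.D (z j)) * z i| ≤ e * Z := by
      rw [abs_mul]; exact mul_le_mul hdb (hz i) (abs_nonneg _) he0
    have t2 : |zb * (d i - G.D (z i))| ≤ Z * e := by
      rw [abs_mul]; exact mul_le_mul hzbZ (hd i) (abs_nonneg _) hZ
    have t3 : |zb * ((∑ j, p j * ((2 * d j + zd j) / 3)) -
        ∑ j, p j * ((2 * G.D (z j) + z j * G.D' (z j)) / 3))| ≤ Z * e := by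
      rw [abs_mul]; exact mul_le_mul hzbZ hm2 (abs_nonneg _) hZ
    rw [abs_le] at t1 t2 t3 ⊢
    constructor <;> nlinarith [abs_le.1 (ha i), abs_le.1 hm1]
  have hC : ∑ i, p i * g1 i ^ 2 ≤
      (∑ i, p i * g0 i ^ 2) + e * ((2 + 3 * Z) ^ 2 * (2 * U + 1)) := by
    have : ∀ i, g1 i ^ 2 ≤ g0 i ^ 2 + e * ((2 + 3 * Z) ^ 2 * (2 * U + 1)) := fun i => by
      have h3 := hg0b i
      have h4 := hgd i
      have h5 : |g1 i + g0 i| ≤ (2 + 3 * Z) * (2 * U + 1) := by
        have := abs_le.1 h3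
        have := abs_le.1 h4
        have : e * (2 + 3 * Z) ≤ 1 * (2 + 3 * Z) :=
          mul_le_mul_of_nonneg_right he1 (by linarith)
        rw [abs_le]; constructor <;> nlinarith
      have h6 := (le_abs_self _).trans ((abs_mul (g1 i - g0 i) (g1 i + g0 i)).le.trans
        (mul_le_mul h4 h5 (abs_nonneg _) (by positivity)))
      nlinarith [h6]
    calc ∑ i, p i * g1 i ^ 2
        ≤ ∑ i, p i * (g0 i ^ 2 + e * ((2 + 3 * Z) ^ 2 * (2 * U + 1))) :=
          sum_le_sum fun i _ => mul_le_mul_of_nonneg_left (this i) (hp i)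
      _ ≤ _ := by
          simp only [mul_add (p _), sum_add_distrib, ← sum_mul]
          exact add_le_add le_rfl (mul_le_of_le_one_left (by positivity) hP1)
  have hA : ∑ i, ∑ j, p i * p j *
      (slope' G.A G.A' (z i) (z j) - zb * slope' G.D G.D' (z i) (z j)) ≤
      (∑ i, ∑ j, p i * p j * (sa i j - zb * sd i j)) + e * (1 + Z) := by
    have : ∑ i, ∑ j, p i * p j *
        (slope' G.A G.A' (z i) (z j) - zb * slope' G.D G.D' (z i) (z j)) ≤
        ∑ i, ∑ j, p i * p j * ((sa i j - zb * sd i j) + e * (1 + Z)) :=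
      sum_le_sum fun i _ => sum_le_sum fun j _ => mul_le_mul_of_nonneg_left (by
        have t : |zb * (sd i j - slope' G.D G.D' (z i) (z j))| ≤ Z * e := by
          rw [abs_mul]; exact mul_le_mul hzbZ (hsd i j) (abs_nonneg _) hZ
        linarith [abs_le.1 t, abs_le.1 (hsa i j)]) (mul_nonneg (hp i) (hp j))
    refine this.trans ?_
    simp only [mul_add (p _ * p _), sum_add_distrib, ← sum_mul, ← mul_sum]
    exact add_le_add le_rfl (mul_le_of_le_one_left (by positivity)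
      (mul_le_one₀ hP1 hP hP1))
  have hB : (∑ j, p j * d j) * (∑ j, p j) ^ 2 ≤
      (∑ j, p j * G.D (z j)) * (∑ j, p j) ^ 2 + e := by
    have h2 : (∑ j, p j) ^ 2 ≤ 1 := pow_le_one₀ hP hP1
    nlinarith [abs_le.1 hdb, sq_nonneg (∑ j, p j)]
  have h := phantom_le G hp hp0 h1 z
  simp only [averG, aver, ← hzb, ← hg0] at h
  simp only [aver, ← hzb, ← hg1]
  linarith

end Vale.Agent.P371.Five
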