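import Vale.Agent.P371.Five.Avg
import Vale.Agent.P371.Five.Const
import Vale.Agent.P371.Five.Gauge

/-!
The gauge at exponent `5/4`: from a profile and its pair inequality to a `Gauge`.
-/

namespace Vale.Agent.P371.Five

open Finset

/-- The derivative of the bump. -/
noncomputable def dbump (z : ℝ) : ℝ := -z * bump z ^ 2

theorem hasDerivAt_bump (z : ℝ) : HasDerivAt bump (dbump z) z := by
  have h : HasDerivAt (fun z : ℝ => 1 + z ^ 2 / 2) z z := by
    simpa using ((hasDerivAt_pow 2 z).div_const 2).const_add 1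
  have h2 := h.inv (by positivity)
  have e : bump = fun z : ℝ => (1 + z ^ 2 / 2)⁻¹ := funext fun x => by rw [bump, one_div]
  rw [e]
  refine h2.congr_deriv ?_
  rw [dbump, bump, div_pow, one_pow]
  ring

theorem continuous_bump : Continuous bump :=
  continuous_iff_continuousAt.2 fun x => (hasDerivAt_bump x).continuousAt

theorem continuous_dbump : Continuous dbump := continuous_neg.mul (continuous_bump.pow 2)

theorem bump_zero : bump 0 = 1 := by simp [bump]

/-- What the gauge needs from the profile. -/
structure IsProfile (phi dphi P : ℝ → ℝ) : Prop where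
  deriv : ∀ z, HasDerivAt phi (dphi z) z
  cont : Continuous dphi
  zero : phi 0 = 0
  one : ∀ z, cg * z ^ 4 + dphi z - P z ^ 2 = 1
  mom : ∀ z, P z = 5 / 3 * phi z - z * dphi z / 3
  mono : Monotone P
  growth : ∃ K, ∀ z, |dphi z| ≤ K * (1 + z ^ 4)
  pair : ∀ x y, ∀ c ∈ Set.Icc (0 : ℝ) 1,
    0 ≤ pairKer c x y (phi x) (phi y) (dphi x) (dphi y) (P x) (P y) (slope' phi dphi x y)

variable (phi dphi : ℝ → ℝ)

/-- The part of the gauge linear in the weights. -/
noncomputable def gaugeA (z : ℝ) : ℝ := phi z + amp * (z * bump z - z)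

/-- Its derivative. -/
noncomputable def gaugeA' (z : ℝ) : ℝ := dphi z + amp * (bump z + z * dbump z - 1)

/-- The part of the gauge multiplying the first moment. -/
noncomputable def gaugeD (z : ℝ) : ℝ := amp * (bump z - 1)

/-- Its derivative. -/
noncomputable def gaugeD' (z : ℝ) : ℝ := amp * dbump z

theorem slope_gaugeA (x y : ℝ) : slope' (gaugeA phi) (gaugeA' dphi) x y =
    slope' phi dphi x y + amp * ((1 - x * y / 2) * bump x * bump y - 1) := by
  rcases eq_or_ne x y with rfl | h
  · simp only [slope', if_true, gaugeA', dbump, bump]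
    field_simp
    ring
  · have h' : y - x ≠ 0 := sub_ne_zero.2 h.symm
    simp only [slope', if_neg h, gaugeA]
    have e := slope_mul_bump x y
    field_simp
    linear_combination 2 * amp * e

theorem slope_gaugeD (x y : ℝ) :
    slope' gaugeD gaugeD' x y = amp * (-(x + y) / 2 * bump x * bump y) := by
  rcases eq_or_ne x y with rfl | h
  · simp only [slope', if_true, gaugeD', dbump]
    ring
  · have h' : y - x ≠ 0 := sub_ne_zero.2 h.symm
    simp only [slope', if_neg h, gaugeD]
    have e := slope_bump x y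
    field_simp
    linear_combination 2 * amp * e

variable {phi dphi} {P : ℝ → ℝ}

theorem avg_gauge (hP : IsProfile phi dphi P) {κ : Type} [Fintype κ] (p z : κ → ℝ)
    (hp : ∀ i, 0 ≤ p i) (h1 : ∑ i, p i = 1) :
    1 ≤ averG cg (gaugeA phi) (gaugeA' dphi) gaugeD gaugeD' p z := by
  have h := avg_le hp h1 z (fun i => phi (z i)) (fun i => dphi (z i)) (fun i => P (z i))
    (fun i => cg * z i ^ 4) (fun i j => slope' phi dphi (z i) (z j)) (fun i => hP.one (z i))
    (fun i j c hc => hP.pair (z i) (z j) c hc) (fun i j => by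
      rcases le_total (z i) (z j) with hle | hle
      · exact mul_nonneg (sub_nonneg.2 (hP.mono hle)) (sub_nonneg.2 hle)
      · exact mul_nonneg_of_nonpos_of_nonpos (sub_nonpos.2 (hP.mono hle)) (sub_nonpos.2 hle))
  obtain ⟨zb, hzb⟩ : ∃ zb, zb = mean p z := ⟨_, rfl⟩
  obtain ⟨Cb, hCb⟩ : ∃ Cb, Cb = mean p (fun i => bump (z i)) := ⟨_, rfl⟩
  obtain ⟨psi, hpsi⟩ : ∃ psi : κ → ℝ, psi = fun i => phi (z i) +
      amp * (z i * bump (z i) - zb * bump (z i) - Cb * z i) := ⟨_, rfl⟩
  simp only [← hzb, ← hCb] at h
  simp only [← congrFun hpsi] at h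
  simp only [averG, aver]
  obtain ⟨g, hg⟩ : ∃ g, g = grad p z (fun i => gaugeA phi (z i))
      (fun i => z i * gaugeA' dphi (z i)) (fun i => gaugeD (z i))
      (fun i => z i * gaugeD' (z i)) := ⟨_, rfl⟩
  obtain ⟨B, hB⟩ : ∃ B, B = mean p (fun i => P (z i)) + amp * (2 * cov p z (fun i => bump (z i)) -
      2 / 3 * cov p z fun i => bump (z i) ^ 2) := ⟨_, rfl⟩
  rw [← hB] at h
  rw [← hg]
  have hz' : ∑ i, p i * z i = zb := hzb.symm
  have hC' : ∑ i, p i * bump (z i) = Cb := hCb.symm
  have hD : ∑ i, p i * gaugeD (z i) = amp * (Cb - 1) := by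
    have e : ∀ i, p i * gaugeD (z i) = amp * (p i * bump (z i)) - amp * p i :=
      fun i => by rw [gaugeD]; ring
    simp only [e, sum_sub_distrib, ← mul_sum, hC', h1]
    ring
  obtain ⟨k, hk⟩ : ∃ k, k = amp * zb + (∑ j, p j * ((2 * gaugeA phi (z j) -
      z j * gaugeA' dphi (z j)) / 3)) + zb * ∑ j, p j * ((2 * gaugeD (z j) +
      z j * gaugeD' (z j)) / 3) := ⟨_, rfl⟩
  have hgi : ∀ i, g i = psi i + k := fun i => by
    rw [hg, hk, hpsi]
    simp only [grad, hz', hD]
    rw [show gaugeA phi (z i) = phi (z i) + amp * (z i * bump (z i) - z i) from rfl,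
      show gaugeD (z i) = amp * (bump (z i) - 1) from rfl]
    ring
  have hmean : mean p psi + k = B := by
    have a1 : ∀ j, p j * ((2 * gaugeA phi (z j) - z j * gaugeA' dphi (z j)) / 3) =
        p j * P (z j) - p j * phi (z j) + amp * (p j * (z j * bump (z j))) -
          2 / 3 * amp * (p j * (z j * bump (z j) ^ 2)) - 1 / 3 * amp * (p j * z j) := fun j => by
      rw [hP.mom (z j), gaugeA, gaugeA', dbump]
      linear_combination (2 / 3 * amp * p j * z j) * bump_circle (z j)
    have a2 : ∀ j, p j * ((2 * gaugeD (z j) + z j * gaugeD' (z j)) / 3) =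
        2 / 3 * amp * (p j * bump (z j) ^ 2) - 2 / 3 * amp * p j := fun j => by
      rw [gaugeD, gaugeD', dbump]
      linear_combination -(2 / 3 * amp * p j) * bump_circle (z j)
    have a3 : ∀ j, p j * psi j = p j * phi (z j) + amp * (p j * (z j * bump (z j))) -
        amp * zb * (p j * bump (z j)) - amp * Cb * (p j * z j) := fun j => by rw [hpsi]; ring
    rw [hk, hB]
    simp only [mean, cov, a1, a2, a3, sum_sub_distrib, sum_add_distrib, ← mul_sum, h1, hz', hC']
    ring
  have hq : ∑ i, p i * g i ^ 2 = (mean p fun i => psi i ^ 2) - mean p psi ^ 2 + B ^ 2 := by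
    have e : ∀ i, p i * g i ^ 2 = p i * psi i ^ 2 + 2 * k * (p i * psi i) + k ^ 2 * p i :=
      fun i => by rw [hgi]; ring
    rw [← hmean]
    simp only [e, mean, sum_add_distrib, ← mul_sum, h1]
    ring
  have hs : (∑ i, ∑ j, p i * p j *
      (slope' (gaugeA phi) (gaugeA' dphi) (z i) (z j) -
        (∑ l, p l * z l) * slope' gaugeD gaugeD' (z i) (z j))) -
      (∑ j, p j * gaugeD (z j)) * (∑ j, p j) ^ 2 =
      mean2 p fun i j => slope' phi dphi (z i) (z j) +
        amp * ((1 - z i * z j / 2) * bump (z i) * bump (z j) -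
          zb * (-(z i + z j) / 2 * bump (z i) * bump (z j)) - Cb) := by
    have e : ∀ i j, p i * p j * (slope' (gaugeA phi) (gaugeA' dphi) (z i) (z j) -
          zb * slope' gaugeD gaugeD' (z i) (z j)) =
        p i * p j * (slope' phi dphi (z i) (z j) +
          amp * ((1 - z i * z j / 2) * bump (z i) * bump (z j) -
            zb * (-(z i + z j) / 2 * bump (z i) * bump (z j)) - Cb)) +
        amp * (Cb - 1) * p i * p j := fun i j => by rw [slope_gaugeA, slope_gaugeD]; ring
    simp only [hz', e, sum_add_distrib, ← mul_sum, hD, h1, mean2, mul_one, one_pow]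
    ring
  simp only [mean] at h hq ⊢
  linarith

theorem exists_gauge (hP : IsProfile phi dphi P) : ∃ G : Gauge, G.cg = cg := by
  obtain ⟨K, hK⟩ := hP.growth
  have hK0 : 0 ≤ K := by have := (abs_nonneg _).trans (hK 0); norm_num at this; exact this
  have hb : ∀ z, |z| * bump z ≤ 1 := fun z => by
    rw [bump, mul_one_div, div_le_one (by positivity)]
    nlinarith [sq_abs z, sq_nonneg (|z| - 1)]
  have ha : (0 : ℝ) ≤ amp ∧ amp ≤ 1 := by norm_num [amp]
  exact ⟨{
    cg := cg
    A := gaugeA phi
    A' := gaugeA' dphi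
    D := gaugeD
    D' := gaugeD'
    c := K + 1
    cg_pos := cg_pos
    c_nonneg := by linarith
    hasDerivAt_A := fun z => by
      unfold gaugeA gaugeA'
      exact ((hP.deriv z).add ((((hasDerivAt_id z).mul (hasDerivAt_bump z)).sub
        (hasDerivAt_id z)).const_mul amp)).congr_deriv (by simp)
    hasDerivAt_D := fun z => by
      unfold gaugeD gaugeD'
      exact ((hasDerivAt_bump z).sub_const 1).const_mul amp
    continuous_A' := hP.cont.add (continuous_const.mul
      ((continuous_bump.add (continuous_id.mul continuous_dbump)).sub continuous_const))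
    continuous_D' := continuous_const.mul continuous_dbump
    A_zero := by simp [gaugeA, hP.zero]
    D_zero := by simp [gaugeD, bump_zero]
    slope_A := fun z => by
      have hsl : |slope' phi dphi 0 z| ≤ K * (1 + z ^ 4) := by
        rcases eq_or_ne 0 z with rfl | hz
        · rw [slope', if_pos rfl]; exact hK 0
        · rw [slope', if_neg hz, hP.zero, sub_zero, sub_zero, abs_div,
            div_le_iff₀ (abs_pos.2 hz.symm)]
          have h := (convex_uIcc 0 z).norm_image_sub_le_of_norm_hasDerivWithin_le (f := phi)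
            (f' := dphi) (C := K * (1 + z ^ 4)) (fun u _ => (hP.deriv u).hasDerivWithinAt)
            (fun u hu => by
              rw [Real.norm_eq_abs]
              refine (hK u).trans (mul_le_mul_of_nonneg_left ?_ hK0)
              have hu' : |u| ≤ |z| := by simpa using Set.abs_sub_left_of_mem_uIcc hu
              nlinarith [pow_le_pow_left₀ (abs_nonneg u) hu' 4,
                (by decide : Even 4).pow_abs u, (by decide : Even 4).pow_abs z])
            Set.left_mem_uIcc Set.right_mem_uIcc
          simpa [Real.norm_eq_abs, hP.zero] using h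
      rw [slope_gaugeA, bump_zero]
      refine (abs_add_le _ _).trans ?_
      have h2 : |amp * ((1 - 0 * z / 2) * 1 * bump z - 1)| ≤ 1 := by
        rw [abs_le]
        constructor <;>
          nlinarith [mul_nonneg ha.1 (bump_pos z).le,
            mul_le_mul_of_nonneg_left (bump_le_one z) ha.1]
      nlinarith [hsl, h2, (by decide : Even 4).pow_nonneg z]
    slope_D := fun z => by
      rw [slope_gaugeD, bump_zero, zero_add, mul_one, abs_mul, abs_mul, abs_div, abs_neg,
        abs_of_nonneg ha.1, abs_two, abs_of_pos (bump_pos z)]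
      have h0 : 0 ≤ |z| * bump z := mul_nonneg (abs_nonneg _) (bump_pos z).le
      nlinarith [hb z, mul_le_mul ha.2 (hb z) h0 zero_le_one]
    abs_D := fun z => by
      rw [gaugeD, abs_mul, abs_of_nonneg ha.1, abs_of_nonpos (sub_nonpos.2 (bump_le_one z))]
      nlinarith [bump_pos z, bump_le_one z]
    avg := fun p z hp h1 => avg_gauge hP p z hp h1 }, rfl⟩

end Vale.Agent.P371.Five
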