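import Vale.Agent.P371.Five.Profile
import Vale.Agent.P371.Five.Reduce

/-!
The profile as an instance of `Facts` and `IsProfile`: the structural fields, and the passage from
the one-sided analytic facts and the algebraic inequalities.
-/

namespace Vale.Agent.P371.Five

open Set

theorem facts_of (trap : ConcaveOn ℝ univ fun z => dphi z - cmpF' z)
    (low : MonotoneOn (fun z => prof z - loP z) (Ici 0))
    (high : MonotoneOn (fun z => hiP z - prof z) (Ici 0))
    (dinc : MonotoneOn (fun z => prof z - phi z - loD z) (Ici 0))
    (dpt : ∀ z, 0 ≤ z → ptD z ≤ prof z - phi z)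
    (dmax : MonotoneOn (fun z => z / 3 - (prof z - phi z)) (Ici 0)) : Facts phi dphi prof where
  deriv := hasDerivAt_phi
  oddP := prof_neg
  oddPhi := phi_neg
  evenDphi := dphi_neg
  trap := trap
  low := low
  high := high
  dinc := dinc
  dpt := dpt
  dmax := dmax

theorem isProfile_of (hF : Facts phi dphi prof) (hS : SameSide) (hO : OppSide) :
    IsProfile phi dphi prof where
  deriv := hasDerivAt_phi
  cont := continuous_dphi
  zero := phi_zero
  one := prof_one_eq
  mom := prof_mom
  mono := strictMono_prof.monotone
  growth := dphi_growth
  pair := pair_of_facts hF hS hO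

end Vale.Agent.P371.Five
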