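import Vale.Agent.P371.Five.Calib
import Vale.Agent.P371.QuarterKinetic

/-!
Integrating the sharp calibration at exponent `5/4`: the kinetic inequality for weighted
orthonormal families.
-/

namespace Vale.Agent.P371.Five

open MeasureTheory Set Finset RealInnerProductSpace ComplexConjugate
open Vale.Agent.P371.Sharp (mom momD outer outer_apply continuous_outer hasDerivAt_mom inner_pow_symm)
open Vale.Agent.P371.Quarter (trPow hasDerivAt_powT hasDerivAt_trPow trPow_smul form_integral expo)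

variable {E : Type*} [NormedAddCommGroup E] [InnerProductSpace ℝ E] [FiniteDimensional ℝ E]
  {κ : Type*} [Fintype κ]

/-- The kinetic inequality with the fifth power of the total Gram operator. -/
theorem kinetic_vec (G : Gauge) {f fd : ℝ → E} (hf : ∀ x, HasDerivAt f (fd x) x)
    (hfd : Continuous fd) {a b : ℝ} (hab : a ≤ b) (ha : f a = 0) (hb : f b = 0)
    (eb : OrthonormalBasis κ ℝ E) :
    ∫ x in a..b, (‖f x‖ ^ 2) ^ (7 / 3 : ℝ) ≤
      (∫ x in a..b, ‖fd x‖ ^ 2) + G.cg / 80 * trPow eb 5 (∫ y in a..b, outer (f y)) := by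
  have hfc : Continuous f := continuous_iff_continuousAt.2 fun x => (hf x).continuousAt
  have hoc := continuous_outer hfc
  obtain ⟨Γ, hΓ⟩ : ∃ Γ, Γ = ∫ y in a..b, outer (f y) := ⟨_, rfl⟩
  obtain ⟨T, hTdef⟩ : ∃ T : ℝ → E →L[ℝ] E,
      T = fun x => (∫ y in a..x, outer (f y)) - (1 / 2 : ℝ) • Γ := ⟨_, rfl⟩
  have hT : ∀ x, HasDerivAt T (outer (f x)) x := fun x => by
    rw [hTdef]
    exact (intervalIntegral.integral_hasDerivAt_right (hoc.intervalIntegrable _ _)
      hoc.stronglyMeasurable.stronglyMeasurableAtFilter hoc.continuousAt).sub_const _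
  have hTc : Continuous T := continuous_iff_continuousAt.2 fun x => (hT x).continuousAt
  have hs : ∀ x u v, ⟪T x u, v⟫ = ⟪u, T x v⟫ := fun x u v => by
    have e : ∀ y z, ⟪y, (∫ t in a..z, outer (f t)) v⟫ = ∫ t in a..z, ⟪f t, y⟫ * ⟪f t, v⟫ :=
      fun y z => form_integral hfc a z y v
    rw [real_inner_comm, hTdef, hΓ]
    simp only [sub_apply, smul_apply, inner_sub_right, inner_smul_right, e,
      form_integral hfc]
    simp only [mul_comm ⟪f _, v⟫]
  obtain ⟨M, hM⟩ := isCompact_Icc.exists_bound_of_continuousOn (hTc.continuousOn (s := Icc a b))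
  obtain ⟨R, hR⟩ := isCompact_Icc.exists_bound_of_continuousOn
    (((hfc.norm).pow 2).continuousOn (s := Icc a b))
  have hM0 : 0 ≤ M := (norm_nonneg _).trans (hM a (left_mem_Icc.2 hab))
  have hR0 : 0 ≤ R := (norm_nonneg _).trans (hR a (left_mem_Icc.2 hab))
  refine le_of_forall_pos_le_add fun η hη => ?_
  have hc := G.c_nonneg
  obtain ⟨K, hK⟩ : ∃ K, K = 8 * G.c * ((1 + R) ^ (4 / 3 : ℝ) + M ^ 4) + 1 := ⟨_, rfl⟩
  have hK0 : 0 < K := by
    rw [hK]
    have h1 : 0 ≤ (1 + R) ^ (4 / 3 : ℝ) := Real.rpow_nonneg (by linarith) _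
    positivity
  obtain ⟨ε, hεdef⟩ : ∃ ε, ε = min 1 (η / ((b - a) * K + 1)) := ⟨_, rfl⟩
  have hden : 0 < (b - a) * K + 1 := by
    have := mul_nonneg (sub_nonneg.2 hab) hK0.le
    linarith
  have hε : 0 < ε := hεdef ▸ lt_min one_pos (div_pos hη hden)
  have hε1 : ε ≤ 1 := hεdef ▸ min_le_left _ _
  obtain ⟨Z, hZ⟩ : ∃ Z, Z = M / ε ^ (1 / 3 : ℝ) := ⟨_, rfl⟩
  have hεp := Real.rpow_pos_of_pos hε (1 / 3)
  have hZ0 : 0 ≤ Z := hZ ▸ div_nonneg hM0 hεp.le
  obtain ⟨U, hU0, hU⟩ := exists_bound G hZ0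
  obtain ⟨L, hL⟩ : ∃ L, L = (2 + Z + (2 + 3 * Z) ^ 2 * (2 * U + 1)) * (ε + R) ^ (7 / 3 : ℝ) :=
    ⟨_, rfl⟩
  have hL0 : 0 ≤ L := by
    have : 0 ≤ (ε + R) ^ (7 / 3 : ℝ) := Real.rpow_nonneg (by linarith) _
    rw [hL]; positivity
  obtain ⟨e, hedef⟩ : ∃ e, e = min 1 (ε / (L + 1)) := ⟨_, rfl⟩
  have he : 0 < e := hedef ▸ lt_min one_pos (div_pos hε (by linarith))
  have heL : e * L ≤ ε := by
    have h1 : e ≤ ε / (L + 1) := hedef ▸ min_le_right _ _
    rw [le_div_iff₀ (by linarith)] at h1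
    nlinarith
  obtain ⟨ca, Na, hca⟩ := exists_approx G.hasDerivAt_A G.continuous_A' G.A_zero hZ0 he
  obtain ⟨cd, Nd, hcd⟩ := exists_approx G.hasDerivAt_D G.continuous_D' G.D_zero hZ0 he
  obtain ⟨F, hF⟩ : ∃ F : ℝ → ℝ, F = fun x => G.cg / 5 * trPow eb 5 (T x) +
      (∑ n ∈ Finset.range Na, ca n * ((ε + ‖f x‖ ^ 2) ^ expo n * mom (T x) (f x) n)) -
      ∑ n ∈ Finset.range Nd,
        cd n * ((ε + ‖f x‖ ^ 2) ^ expD n * (mom (T x) (f x) 1 * mom (T x) (f x) n)) := ⟨_, rfl⟩
  have hpos : ∀ x, 0 < ε + ‖f x‖ ^ 2 := fun x => by positivity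
  have hT1 : ∀ x, HasDerivAt T ((1 : ℝ) • outer (f x)) x := fun x => by rw [one_smul]; exact hT x
  have hFd : ∀ x, HasDerivAt F (calQ G.cg ca Na cd Nd ε (T x) (f x) (fd x)) x := fun x => by
    rw [hF]
    refine ((((hasDerivAt_trPow eb hT hs 5 x).const_mul (G.cg / 5)).add
      (HasDerivAt.fun_sum fun n _ => ((((hf x).norm_sq.const_add ε).rpow_const
        (Or.inl (hpos x).ne')).mul (hasDerivAt_mom hf hT1 hs n x)).const_mul (ca n))).sub
      (HasDerivAt.fun_sum fun n _ => ((((hf x).norm_sq.const_add ε).rpow_const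
        (Or.inl (hpos x).ne')).mul ((hasDerivAt_mom hf hT1 hs 1 x).mul
          (hasDerivAt_mom hf hT1 hs n x))).const_mul (cd n))).congr_deriv ?_
    rw [calQ]
    congr 1
    · congr 1
      · push_cast; ring
      · exact Finset.sum_congr rfl fun n _ => by ring
    · exact Finset.sum_congr rfl fun n _ => by
        simp only [Pi.mul_apply]; ring
  have hDc : Continuous fun x => calQ G.cg ca Na cd Nd ε (T x) (f x) (fd x) := by
    have hm : ∀ n, Continuous fun x => mom (T x) (f x) n := fun n => by unfold mom; fun_prop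
    have hmd : ∀ n, Continuous fun x => momD (T x) (f x) (fd x) 1 n := fun n => by
      unfold momD mom; fun_prop
    have hr : ∀ r : ℝ, Continuous fun x => (ε + ‖f x‖ ^ 2) ^ r := fun r =>
      (continuous_const.add (hfc.norm.pow 2)).rpow_const fun x => Or.inl (hpos x).ne'
    have hi : Continuous fun x => 2 * ⟪f x, fd x⟫ := by fun_prop
    unfold calQ
    exact ((continuous_const.mul (hm 4)).add (continuous_finsetSum _ fun n _ =>
      continuous_const.mul (((hr _).mul (hmd n)).add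
        (((continuous_const.mul (hr _)).mul hi).mul (hm n))))).sub
      (continuous_finsetSum _ fun n _ => continuous_const.mul
        (((hr _).mul (((hmd 1).mul (hm n)).add ((hm 1).mul (hmd n)))).add
          (((continuous_const.mul (hr _)).mul hi).mul ((hm 1).mul (hm n)))))
  have hint : ∫ x in a..b, calQ G.cg ca Na cd Nd ε (T x) (f x) (fd x) =
      G.cg / 80 * trPow eb 5 Γ := by
    rw [intervalIntegral.integral_eq_sub_of_hasDerivAt (fun x _ => hFd x)
      (hDc.intervalIntegrable _ _), hF]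
    have h0 : ∀ x, f x = 0 → ∀ n, mom (T x) (f x) n = 0 := fun x hx n => by simp [mom, hx]
    simp only [h0 b hb, h0 a ha, mul_zero, Finset.sum_const_zero, add_zero, sub_zero]
    rw [show T b = (1 / 2 : ℝ) • Γ by rw [hTdef, hΓ]; dsimp only; module,
      show T a = (-(1 / 2) : ℝ) • Γ by
        rw [hTdef, hΓ]; dsimp only; rw [intervalIntegral.integral_same]; module,
      trPow_smul, trPow_smul]
    ring
  obtain ⟨Err, hErr⟩ : ∃ r, r = 8 * G.c * ε * ((ε + R) ^ (4 / 3 : ℝ) + M ^ 4) +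
      e * (2 + Z + (2 + 3 * Z) ^ 2 * (2 * U + 1)) * (ε + R) ^ (7 / 3 : ℝ) := ⟨_, rfl⟩
  have hErrK : (b - a) * Err ≤ η := by
    have h43 : (ε + R) ^ (4 / 3 : ℝ) ≤ (1 + R) ^ (4 / 3 : ℝ) :=
      Real.rpow_le_rpow (by linarith) (by linarith) (by norm_num)
    have p1 : 8 * G.c * ε * ((ε + R) ^ (4 / 3 : ℝ) + M ^ 4) ≤
        ε * (8 * G.c * ((1 + R) ^ (4 / 3 : ℝ) + M ^ 4)) := by
      rw [show 8 * G.c * ε = ε * (8 * G.c) by ring, mul_assoc]
      gcongr
    have p3 : Err ≤ ε * K := by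
      rw [hErr, hK, mul_assoc e, ← hL]
      linarith
    have p4 : ε * ((b - a) * K + 1) ≤ η := by
      have h1 : ε ≤ η / ((b - a) * K + 1) := hεdef ▸ min_le_right _ _
      rwa [le_div_iff₀ hden] at h1
    nlinarith [mul_le_mul_of_nonneg_left p3 (sub_nonneg.2 hab)]
  have c0 : Continuous fun x => (‖f x‖ ^ 2) ^ (7 / 3 : ℝ) :=
    (hfc.norm.pow 2).rpow_const fun _ => Or.inr (by norm_num)
  have hi1 : Continuous fun x => ‖fd x‖ ^ 2 := by fun_prop
  have h := intervalIntegral.integral_mono_on hab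
    ((c0.sub continuous_const).intervalIntegrable (μ := volume) _ _)
    ((hi1.add hDc).intervalIntegrable _ _) (g := fun x =>
      ‖fd x‖ ^ 2 + calQ G.cg ca Na cd Nd ε (T x) (f x) (fd x))
    (f := fun x => (‖f x‖ ^ 2) ^ (7 / 3 : ℝ) - Err) fun x hx => by
      rw [hErr]
      refine point G (T := T x) (fun u v => hs x u v) (fun z => ?_) hM0 hε
        (by rw [hZ, div_mul_cancel₀ _ hεp.ne']) he.le (hedef ▸ min_le_left _ _) hU0 hU
        ca Na cd Nd hca hcd (f x) (fd x) ((Real.le_norm_self _).trans (hR x hx))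
      calc |⟪z, T x z⟫| ≤ ‖z‖ * ‖T x z‖ := abs_real_inner_le_norm _ _
        _ ≤ ‖z‖ * (M * ‖z‖) := mul_le_mul_of_nonneg_left
            ((T x).le_of_opNorm_le (hM x hx) z) (norm_nonneg z)
        _ = M * ‖z‖ ^ 2 := by ring
  rw [intervalIntegral.integral_sub (c0.intervalIntegrable (μ := volume) a b)
      intervalIntegrable_const,
    intervalIntegral.integral_add (hi1.intervalIntegrable _ _) (hDc.intervalIntegrable _ _),
    intervalIntegral.integral_const, hint, smul_eq_mul] at h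
  rw [← hΓ]
  linarith

variable {ι : Type*} [Fintype ι]

/-- The kinetic inequality for a complex orthonormal family with occupations `ν`. -/
theorem kinetic_complex (G : Gauge) {u : ι → ℝ → ℂ} (hu : ∀ j, ContDiff ℝ 1 (u j))
    (hsupp : ∀ j, HasCompactSupport (u j))
    (horth : ∀ j k, j ≠ k → ∫ x, conj (u j x) * u k x = 0)
    (hnorm : ∀ j, ∫ x, ‖u j x‖ ^ 2 = 1) {ν : ι → ℝ} (hν : ∀ j, 0 ≤ ν j) :
    ∫ x, (∑ j, ν j * ‖u j x‖ ^ 2) ^ (7 / 3 : ℝ) ≤
      (∫ x, ∑ j, ν j * ‖deriv (u j) x‖ ^ 2) + G.cg / 80 * ∑ j, ν j ^ 5 := by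
  classical
  have hd : ∀ j x, HasDerivAt (u j) (deriv (u j) x) x := fun j x =>
    ((hu j).differentiable one_ne_zero x).hasDerivAt
  have hdc : ∀ j, Continuous (deriv (u j)) := fun j => (hu j).continuous_deriv le_rfl
  have hc : ∀ j, Continuous (u j) := fun j => (hu j).continuous
  obtain ⟨μ, hμ⟩ : ∃ μ : ι ⊕ ι → ℝ, μ = Sum.elim ν ν := ⟨_, rfl⟩
  set f : ℝ → EuclideanSpace ℝ (ι ⊕ ι) := fun x => WithLp.toLp 2
    (Sum.elim (fun j => Real.sqrt (ν j) * (u j x).re) fun j => Real.sqrt (ν j) * (u j x).im)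
    with hf
  set fd : ℝ → EuclideanSpace ℝ (ι ⊕ ι) := fun x => WithLp.toLp 2
    (Sum.elim (fun j => Real.sqrt (ν j) * (deriv (u j) x).re)
      fun j => Real.sqrt (ν j) * (deriv (u j) x).im) with hfd
  have h1 : ∀ x, HasDerivAt f (fd x) x := fun x =>
    (PiLp.continuousLinearEquiv 2 ℝ fun _ : ι ⊕ ι => ℝ).symm.hasFDerivAt.comp_hasDerivAt x
      (hasDerivAt_pi.2 (by
        rintro (j | j)
        · exact ((Complex.reCLM.hasFDerivAt.comp_hasDerivAt x (hd j x)).const_mul _).congr_deriv rfl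
        · exact ((Complex.imCLM.hasFDerivAt.comp_hasDerivAt x (hd j x)).const_mul _).congr_deriv rfl))
  have h2 : Continuous fd :=
    (PiLp.continuousLinearEquiv 2 ℝ fun _ : ι ⊕ ι => ℝ).symm.continuous.comp (continuous_pi (by
      rintro (j | j)
      · exact continuous_const.mul (Complex.continuous_re.comp (hdc j))
      · exact continuous_const.mul (Complex.continuous_im.comp (hdc j))))
  obtain ⟨r, hr⟩ := (isBounded_iff_forall_norm_le.1
    (isCompact_iUnion fun j => (hsupp j)).isBounded)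
  obtain ⟨R, hR⟩ : ∃ R, R = |r| + 1 := ⟨_, rfl⟩
  have hout : ∀ j x, x ∉ Ioo (-R) R → x ∉ tsupport (u j) := by
    intro j x hx hmem
    have := hr x (mem_iUnion.2 ⟨j, hmem⟩)
    rw [Real.norm_eq_abs, abs_le] at this
    exact hx ⟨by linarith [le_abs_self r], by linarith [le_abs_self r]⟩
  have hzero : ∀ j x, x ∉ Ioo (-R) R → u j x = 0 := fun j x hx =>
    image_eq_zero_of_notMem_tsupport (hout j x hx)
  have hdzero : ∀ j x, x ∉ Ioo (-R) R → deriv (u j) x = 0 := fun j x hx =>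
    Function.notMem_support.1 fun h => hout j x hx (support_deriv_subset h)
  have heq : ∀ F : ℝ → ℝ, (∀ x, x ∉ Ioo (-R) R → F x = 0) → ∫ x, F x = ∫ x in -R..R, F x :=
    fun F hF => (intervalIntegral.integral_eq_integral_of_support_subset fun x hx =>
      Ioo_subset_Ioc_self (by_contra fun h => hx (hF x h))).symm
  have hf0 : ∀ x, x ∉ Ioo (-R) R → f x = 0 := fun x hx => by
    ext (j | j) <;> simp [hf, hzero _ x hx]
  have hfn : ∀ x, ‖f x‖ ^ 2 = ∑ j, ν j * ‖u j x‖ ^ 2 := fun x => by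
    simp only [hf, EuclideanSpace.norm_sq_eq, Fintype.sum_sum_type, Sum.elim_inl, Sum.elim_inr,
      Real.norm_eq_abs, sq_abs, mul_pow, Real.sq_sqrt (hν _), ← Finset.sum_add_distrib, ← mul_add]
    exact Finset.sum_congr rfl fun j _ => by
      rw [Complex.sq_norm, Complex.normSq_apply]; ring
  have hfdn : ∀ x, ‖fd x‖ ^ 2 = ∑ j, ν j * ‖deriv (u j) x‖ ^ 2 := fun x => by
    simp only [hfd, EuclideanSpace.norm_sq_eq, Fintype.sum_sum_type, Sum.elim_inl, Sum.elim_inr,
      Real.norm_eq_abs, sq_abs, mul_pow, Real.sq_sqrt (hν _), ← Finset.sum_add_distrib, ← mul_add]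
    exact Finset.sum_congr rfl fun j _ => by
      rw [Complex.sq_norm, Complex.normSq_apply]; ring
  have hfc : Continuous f := continuous_iff_continuousAt.2 fun x => (h1 x).continuousAt
  obtain ⟨Γ, hΓ⟩ : ∃ Γ, Γ = ∫ y in -R..R, outer (f y) := ⟨_, rfl⟩
  have hΓs : (Γ : EuclideanSpace ℝ (ι ⊕ ι) →ₗ[ℝ] EuclideanSpace ℝ (ι ⊕ ι)).IsSymmetric :=
    fun x y => by
      show ⟪Γ x, y⟫ = ⟪x, Γ y⟫
      rw [real_inner_comm, hΓ, form_integral hfc, form_integral hfc]
      simp only [mul_comm ⟪f _, y⟫]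
  obtain ⟨eb, heb⟩ : ∃ eb, eb = hΓs.eigenvectorBasis rfl := ⟨_, rfl⟩
  obtain ⟨xs, hxs⟩ : ∃ xs, xs = hΓs.eigenvalues rfl := ⟨_, rfl⟩
  have hΓb : ∀ k, Γ (eb k) = xs k • eb k := fun k => by
    rw [heb, hxs]; exact hΓs.apply_eigenvectorBasis rfl k
  have hpowb : ∀ (n : ℕ) k, (Γ ^ n) (eb k) = xs k ^ n • eb k := by
    intro n k
    induction n with
    | zero => simp
    | succ n ih =>
      rw [pow_succ', show (Γ * Γ ^ n) (eb k) = Γ ((Γ ^ n) (eb k)) from rfl, ih, map_smul, hΓb,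
        smul_smul, pow_succ]
  have hone : ∀ k, ⟪eb k, eb k⟫ = 1 := fun k => by
    rw [real_inner_self_eq_norm_sq, eb.orthonormal.1 k, one_pow]
  have htr : trPow eb 5 Γ = ∑ k, xs k ^ 5 := Finset.sum_congr rfl fun k _ => by
    rw [hpowb, inner_smul_right, hone, mul_one]
  have hbessel : ∀ z : EuclideanSpace ℝ (ι ⊕ ι), ⟪z, Γ z⟫ ≤ ∑ a, μ a * z a ^ 2 := fun z => by
    rw [hΓ, form_integral hfc]
    simp only [← pow_two]
    obtain ⟨hSi, hS⟩ := integral_norm_sq_sum hc hsupp horth hnorm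
      fun j => ((Real.sqrt (ν j) : ℝ) : ℂ) * (⟨z (.inl j), -z (.inr j)⟩ : ℂ)
    rw [← heq (fun y => ⟪f y, z⟫ ^ 2) fun x hx => by simp [hf0 x hx]]
    have hre : ∀ y, ⟪f y, z⟫ =
        (∑ j, ((Real.sqrt (ν j) : ℝ) : ℂ) * (⟨z (.inl j), -z (.inr j)⟩ : ℂ) * u j y).re :=
      fun y => by
      simp [hf, PiLp.inner_apply, Fintype.sum_sum_type, ← Finset.sum_add_distrib, Complex.re_sum,
        Complex.mul_re]
      exact Finset.sum_congr rfl fun j _ => by ring
    refine (integral_mono_of_nonneg (.of_forall fun y => sq_nonneg _) hSi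
      (.of_forall fun y => ?_)).trans (le_of_eq (hS.trans ?_))
    · simp only [hre, Complex.sq_norm, Complex.normSq_apply, ← pow_two]
      exact le_add_of_nonneg_right (sq_nonneg _)
    · simp only [hμ, Fintype.sum_sum_type, Sum.elim_inl, Sum.elim_inr, ← Finset.sum_add_distrib]
      exact Finset.sum_congr rfl fun j _ => by
        rw [norm_mul, mul_pow, Complex.norm_real, Real.norm_eq_abs, sq_abs, Real.sq_sqrt (hν j),
          Complex.sq_norm, Complex.normSq_mk]
        ring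
  have hdiag : ∀ a, ∑ k, xs k * eb k a ^ 2 = ∫ y in -R..R, f y a ^ 2 := fun a => by
    have h := form_integral hfc (-R) R (EuclideanSpace.single a (1 : ℝ))
      (EuclideanSpace.single a (1 : ℝ))
    rw [← hΓ, ← eb.sum_inner_mul_inner (EuclideanSpace.single a (1 : ℝ))] at h
    simp only [EuclideanSpace.inner_single_left, map_one, one_mul,
      EuclideanSpace.inner_single_right, RCLike.conj_to_real] at h
    simp only [pow_two]
    rw [← h]
    refine Finset.sum_congr rfl fun k _ => ?_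
    have e : ⟪eb k, Γ (EuclideanSpace.single a (1 : ℝ))⟫ = xs k * eb k a := by
      rw [← real_inner_comm, show ⟪Γ (EuclideanSpace.single a (1 : ℝ)), eb k⟫ =
        ⟪EuclideanSpace.single a (1 : ℝ), Γ (eb k)⟫ from hΓs _ _, hΓb, inner_smul_right,
        EuclideanSpace.inner_single_left, map_one, one_mul]
    rw [e]; ring
  have hfk : ∀ k, ∑ a, eb k a ^ 2 = 1 := fun k => by
    rw [← EuclideanSpace.real_norm_sq_eq, eb.orthonormal.1 k, one_pow]
  have hx0 : ∀ k, xs k = ⟪eb k, Γ (eb k)⟫ := fun k => by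
    rw [hΓb, inner_smul_right, hone, mul_one]
  have hxk : ∀ k, xs k ^ 5 ≤ xs k * ∑ a, μ a ^ 4 * eb k a ^ 2 := fun k => by
    have hpos : 0 ≤ xs k := by
      rw [hx0, hΓ, form_integral hfc]
      exact intervalIntegral.integral_nonneg (by rw [hR]; linarith [abs_nonneg r])
        fun y _ => mul_self_nonneg _
    have hle : xs k ≤ ∑ a, eb k a ^ 2 * μ a := by
      rw [hx0]
      exact (hbessel _).trans (le_of_eq (Finset.sum_congr rfl fun a _ => by ring))
    rw [pow_succ']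
    refine mul_le_mul_of_nonneg_left (((pow_le_pow_left₀ hpos hle 4).trans
      (Real.pow_arith_mean_le_arith_mean_pow Finset.univ _ _ (fun a _ => sq_nonneg _) (hfk k)
        (fun a _ => ?_) 4)).trans (le_of_eq (Finset.sum_congr rfl fun a _ => by ring))) hpos
    rcases a with j | j <;> simp [hμ, hν]
  have hmass : ∀ j, (∫ y in -R..R, f y (.inl j) ^ 2) + (∫ y in -R..R, f y (.inr j) ^ 2) = ν j := by
    intro j
    rw [← intervalIntegral.integral_add, ← heq]
    · simp only [hf, Sum.elim_inl, Sum.elim_inr, mul_pow, Real.sq_sqrt (hν j), ← mul_add]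
      rw [MeasureTheory.integral_const_mul]
      simp only [show ∀ z : ℂ, z.re ^ 2 + z.im ^ 2 = ‖z‖ ^ 2 from fun z => by
        rw [Complex.sq_norm, Complex.normSq_apply]; ring, hnorm j, mul_one]
    · intro x hx; simp [hf0 x hx]
    all_goals exact Continuous.intervalIntegrable (by simp only [hf, Sum.elim_inl, Sum.elim_inr]; fun_prop) _ _
  have htrν : trPow eb 5 Γ ≤ ∑ j, ν j ^ 5 := by
    rw [htr]
    refine (Finset.sum_le_sum fun k _ => hxk k).trans (le_of_eq ?_)
    simp only [Finset.mul_sum]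
    rw [Finset.sum_comm]
    calc ∑ a, ∑ k, xs k * (μ a ^ 4 * eb k a ^ 2) = ∑ a, μ a ^ 4 * ∑ k, xs k * eb k a ^ 2 := by
          simp only [Finset.mul_sum]
          exact Finset.sum_congr rfl fun a _ => Finset.sum_congr rfl fun k _ => by ring
      _ = _ := by
          simp only [hdiag, Fintype.sum_sum_type, hμ, Sum.elim_inl, Sum.elim_inr,
            ← Finset.sum_add_distrib, ← mul_add, hmass]
          exact Finset.sum_congr rfl fun j _ => by ring
  have h := kinetic_vec G h1 h2 (a := -R) (b := R) (by rw [hR]; linarith [abs_nonneg r])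
    (hf0 _ fun h => lt_irrefl _ h.1) (hf0 _ fun h => lt_irrefl _ h.2) eb
  rw [← hΓ] at h
  simp only [hfn, hfdn] at h
  rw [heq _ (fun x hx => by simp [hzero _ x hx]),
    heq _ (fun x hx => by simp [hdzero _ x hx])]
  have hcw : (0 : ℝ) ≤ G.cg / 80 := div_nonneg G.cg_pos.le (by norm_num)
  linarith [mul_le_mul_of_nonneg_left htrν hcw]

end Vale.Agent.P371.Five
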