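import Mathlib

/-!
Polynomials in one and two variables as coefficient lists over `ℚ`, with a checker of
nonnegativity on a box by recentring and subdivision.
-/

namespace Vale.Agent.P371.Five.PolyCert

/-- A univariate polynomial, lowest coefficient first. -/
abbrev P1 := List ℚ

/-- A bivariate polynomial: coefficients in `x` of the powers of `y`. -/
abbrev P2 := List P1

/-- Value of a univariate polynomial. -/
def ev : P1 → ℝ → ℝ
  | [], _ => 0
  | a :: p, x => (a : ℝ) + x * ev p x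

/-- Value of a bivariate polynomial. -/
def ev2 : P2 → ℝ → ℝ → ℝ
  | [], _, _ => 0
  | a :: p, x, y => ev a x + y * ev2 p x y

def add : P1 → P1 → P1
  | [], q => q
  | a :: p, [] => a :: p
  | a :: p, b :: q => (a + b) :: add p q

def smul (c : ℚ) : P1 → P1
  | [] => []
  | a :: p => c * a :: smul c p

def mul : P1 → P1 → P1
  | [], _ => []
  | a :: p, q => add (smul a q) (0 :: mul p q)

def add2 : P2 → P2 → P2
  | [], q => q
  | a :: p, [] => a :: p
  | a :: p, b :: q => add a b :: add2 p q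

def smul2 (c : P1) : P2 → P2
  | [] => []
  | a :: p => mul c a :: smul2 c p

def mul2 : P2 → P2 → P2
  | [], _ => []
  | a :: p, q => add2 (smul2 a q) ([] :: mul2 p q)

@[simp] theorem ev_nil (x : ℝ) : ev [] x = 0 := rfl

@[simp] theorem ev_cons (a : ℚ) (p : P1) (x : ℝ) : ev (a :: p) x = a + x * ev p x := rfl

@[simp] theorem ev2_nil (x y : ℝ) : ev2 [] x y = 0 := rfl

@[simp] theorem ev2_cons (a : P1) (p : P2) (x y : ℝ) :
    ev2 (a :: p) x y = ev a x + y * ev2 p x y := rfl

@[simp] theorem ev_add : ∀ (p q : P1) (x : ℝ), ev (add p q) x = ev p x + ev q x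
  | [], q, x => by simp [add]
  | a :: p, [], x => by simp [add]
  | a :: p, b :: q, x => by simp [add, ev_add p q x]; ring

@[simp] theorem ev_smul (c : ℚ) : ∀ (p : P1) (x : ℝ), ev (smul c p) x = c * ev p x
  | [], x => by simp [smul]
  | a :: p, x => by simp [smul, ev_smul c p x]; ring

@[simp] theorem ev_mul : ∀ (p q : P1) (x : ℝ), ev (mul p q) x = ev p x * ev q x
  | [], q, x => by simp [mul]
  | a :: p, q, x => by simp [mul, ev_mul p q x]; ring

@[simp] theorem ev2_add : ∀ (p q : P2) (x y : ℝ), ev2 (add2 p q) x y = ev2 p x y + ev2 q x y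
  | [], q, x, y => by simp [add2]
  | a :: p, [], x, y => by simp [add2]
  | a :: p, b :: q, x, y => by simp [add2, ev2_add p q x y]; ring

@[simp] theorem ev2_smul (c : P1) : ∀ (p : P2) (x y : ℝ),
    ev2 (smul2 c p) x y = ev c x * ev2 p x y
  | [], x, y => by simp [smul2]
  | a :: p, x, y => by simp [smul2, ev2_smul c p x y]; ring

@[simp] theorem ev2_mul : ∀ (p q : P2) (x y : ℝ), ev2 (mul2 p q) x y = ev2 p x y * ev2 q x y
  | [], q, x, y => by simp [mul2]
  | a :: p, q, x, y => by simp [mul2, ev2_mul p q x y]; ring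

/-- `p (h + c)` as a polynomial in `h`. -/
def shift (c : ℚ) : P1 → P1
  | [] => []
  | a :: p => add [a] (mul [c, 1] (shift c p))

theorem ev_shift (c : ℚ) : ∀ (p : P1) (h : ℝ), ev (shift c p) h = ev p (h + c)
  | [], h => rfl
  | a :: p, h => by
    simp only [shift, ev_add, ev_mul, ev_cons, ev_nil, ev_shift c p h, Rat.cast_one]; ring

/-- `p (h + cx, k + cy)` as a polynomial in `(h, k)`. -/
def shift2 (cx cy : ℚ) : P2 → P2
  | [] => []
  | a :: p => add2 [shift cx a] (mul2 [[cy], [1]] (shift2 cx cy p))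

theorem ev_shift2 (cx cy : ℚ) : ∀ (p : P2) (h k : ℝ),
    ev2 (shift2 cx cy p) h k = ev2 p (h + cx) (k + cy)
  | [], h, k => rfl
  | a :: p, h, k => by
    simp only [shift2, ev2_add, ev2_mul, ev2_cons, ev2_nil, ev_cons, ev_nil, ev_shift,
      ev_shift2 cx cy p h k, Rat.cast_one]
    ring

/-- A bound of `|p|` on `[-r, r]`. -/
def bd (r : ℚ) : P1 → ℚ
  | [] => 0
  | a :: p => |a| + r * bd r p

theorem bd_nonneg {r : ℚ} (hr : 0 ≤ r) : ∀ p : P1, 0 ≤ bd r p
  | [] => le_rfl
  | a :: p => add_nonneg (abs_nonneg a) (mul_nonneg hr (bd_nonneg hr p))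

theorem abs_ev_le {r : ℚ} (hr : 0 ≤ r) {x : ℝ} (hx : |x| ≤ r) :
    ∀ p : P1, |ev p x| ≤ bd r p
  | [] => by simp [bd]
  | a :: p => by
    have h := abs_ev_le hr hx p
    have hr' : (0 : ℝ) ≤ r := by exact_mod_cast hr
    simp only [ev_cons, bd, Rat.cast_add, Rat.cast_mul, Rat.cast_abs]
    refine (abs_add_le _ _).trans (add_le_add le_rfl ?_)
    rw [abs_mul]
    exact mul_le_mul hx h (abs_nonneg _) hr'

/-- A bound of `|p|` on a centred box. -/
def bd2 (rx ry : ℚ) : P2 → ℚ
  | [] => 0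
  | a :: p => bd rx a + ry * bd2 rx ry p

theorem abs_ev2_le {rx ry : ℚ} (hx0 : 0 ≤ rx) (hy0 : 0 ≤ ry) {x y : ℝ} (hx : |x| ≤ rx)
    (hy : |y| ≤ ry) : ∀ p : P2, |ev2 p x y| ≤ bd2 rx ry p
  | [] => by simp [bd2]
  | a :: p => by
    have h := abs_ev2_le hx0 hy0 hx hy p
    have h1 := abs_ev_le hx0 hx a
    have hr : (0 : ℝ) ≤ ry := by exact_mod_cast hy0
    simp only [ev2_cons, bd2, Rat.cast_add, Rat.cast_mul]
    refine (abs_add_le _ _).trans (add_le_add h1 ?_)
    rw [abs_mul]
    exact mul_le_mul hy h (abs_nonneg _) hr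

/-- A lower bound on `[-r, r]`. -/
def low (r : ℚ) : P1 → ℚ
  | [] => 0
  | a :: p => a - r * bd r p

theorem low_le {r : ℚ} (hr : 0 ≤ r) {x : ℝ} (hx : |x| ≤ r) : ∀ p : P1, (low r p : ℝ) ≤ ev p x
  | [] => by simp [low]
  | a :: p => by
    have hr' : (0 : ℝ) ≤ r := by exact_mod_cast hr
    have h : |x * ev p x| ≤ (r : ℝ) * bd r p := by
      rw [abs_mul]
      exact mul_le_mul hx (abs_ev_le hr hx p) (abs_nonneg _) hr'
    simp only [low, ev_cons, Rat.cast_sub, Rat.cast_mul]
    linarith [(abs_le.1 h).1]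

/-- A lower bound on a centred box. -/
def low2 (rx ry : ℚ) : P2 → ℚ
  | [] => 0
  | a :: p => low rx a - ry * bd2 rx ry p

theorem low2_le {rx ry : ℚ} (hx0 : 0 ≤ rx) (hy0 : 0 ≤ ry) {x y : ℝ} (hx : |x| ≤ rx)
    (hy : |y| ≤ ry) : ∀ p : P2, (low2 rx ry p : ℝ) ≤ ev2 p x y
  | [] => by simp [low2]
  | a :: p => by
    have hr : (0 : ℝ) ≤ ry := by exact_mod_cast hy0
    have h : |y * ev2 p x y| ≤ (ry : ℝ) * bd2 rx ry p := by
      rw [abs_mul]
      exact mul_le_mul hy (abs_ev2_le hx0 hy0 hx hy p) (abs_nonneg _) hr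
    simp only [low2, ev2_cons, Rat.cast_sub, Rat.cast_mul]
    linarith [(abs_le.1 h).1, low_le hx0 hx a]

/-- Certified positivity of `p` on `[c - r, c + r]`, with at most `n` bisections. -/
def pos (p : P1) : ℕ → ℚ → ℚ → Bool
  | 0, c, r => decide (0 ≤ r) && decide (0 < low r (shift c p))
  | n + 1, c, r => (decide (0 ≤ r) && decide (0 < low r (shift c p))) ||
      (pos p n (c - r / 2) (r / 2) && pos p n (c + r / 2) (r / 2))

theorem pos_spec (p : P1) : ∀ (n : ℕ) (c r : ℚ), pos p n c r = true →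
    ∀ x : ℝ, |x - c| ≤ r → 0 < ev p x := by
  have base : ∀ (c r : ℚ), (decide (0 ≤ r) && decide (0 < low r (shift c p))) = true →
      ∀ x : ℝ, |x - c| ≤ r → 0 < ev p x := by
    intro c r h x hx
    simp only [Bool.and_eq_true, decide_eq_true_eq] at h
    have := low_le h.1 hx (shift c p)
    rw [ev_shift, sub_add_cancel] at this
    have h' : (0 : ℝ) < low r (shift c p) := by exact_mod_cast h.2
    linarith
  intro n
  induction n with
  | zero => exact base
  | succ n ih =>
    intro c r h x hx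
    simp only [pos, Bool.or_eq_true] at h
    rcases h with h | h
    · exact base c r h x hx
    · simp only [Bool.and_eq_true] at h
      rw [abs_le] at hx
      rcases le_total x (c : ℝ) with hc | hc
      · refine ih _ _ h.1 x ?_
        push_cast
        rw [abs_le]; constructor <;> linarith [hx.1, hx.2]
      · refine ih _ _ h.2 x ?_
        push_cast
        rw [abs_le]; constructor <;> linarith [hx.1, hx.2]

/-- Certified nonnegativity of `p` on a box, with at most `n` subdivisions in four. -/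
def nonneg2 (p : P2) : ℕ → ℚ → ℚ → ℚ → Bool
  | 0, cx, cy, r => decide (0 ≤ r) && decide (0 ≤ low2 r r (shift2 cx cy p))
  | n + 1, cx, cy, r => (decide (0 ≤ r) && decide (0 ≤ low2 r r (shift2 cx cy p))) ||
      (nonneg2 p n (cx - r / 2) (cy - r / 2) (r / 2) &&
        nonneg2 p n (cx - r / 2) (cy + r / 2) (r / 2) &&
        nonneg2 p n (cx + r / 2) (cy - r / 2) (r / 2) &&
        nonneg2 p n (cx + r / 2) (cy + r / 2) (r / 2))

theorem nonneg2_spec (p : P2) : ∀ (n : ℕ) (cx cy r : ℚ), nonneg2 p n cx cy r = true →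
    ∀ x y : ℝ, |x - cx| ≤ r → |y - cy| ≤ r → 0 ≤ ev2 p x y := by
  have base : ∀ (cx cy r : ℚ),
      (decide (0 ≤ r) && decide (0 ≤ low2 r r (shift2 cx cy p))) = true →
      ∀ x y : ℝ, |x - cx| ≤ r → |y - cy| ≤ r → 0 ≤ ev2 p x y := by
    intro cx cy r h x y hx hy
    simp only [Bool.and_eq_true, decide_eq_true_eq] at h
    have := low2_le h.1 h.1 hx hy (shift2 cx cy p)
    rw [ev_shift2, sub_add_cancel, sub_add_cancel] at this
    have h' : (0 : ℝ) ≤ low2 r r (shift2 cx cy p) := by exact_mod_cast h.2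
    linarith
  intro n
  induction n with
  | zero => exact base
  | succ n ih =>
    intro cx cy r h x y hx hy
    simp only [nonneg2, Bool.or_eq_true] at h
    rcases h with h | h
    · exact base cx cy r h x y hx hy
    · simp only [Bool.and_eq_true] at h
      obtain ⟨⟨⟨h1, h2⟩, h3⟩, h4⟩ := h
      rw [abs_le] at hx hy
      rcases le_total x (cx : ℝ) with hc | hc <;> rcases le_total y (cy : ℝ) with hd | hd
      · refine ih _ _ _ h1 x y ?_ ?_ <;> push_cast <;> rw [abs_le] <;> constructor <;>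
          linarith [hx.1, hx.2, hy.1, hy.2]
      · refine ih _ _ _ h2 x y ?_ ?_ <;> push_cast <;> rw [abs_le] <;> constructor <;>
          linarith [hx.1, hx.2, hy.1, hy.2]
      · refine ih _ _ _ h3 x y ?_ ?_ <;> push_cast <;> rw [abs_le] <;> constructor <;>
          linarith [hx.1, hx.2, hy.1, hy.2]
      · refine ih _ _ _ h4 x y ?_ ?_ <;> push_cast <;> rw [abs_le] <;> constructor <;>
          linarith [hx.1, hx.2, hy.1, hy.2]

end Vale.Agent.P371.Five.PolyCert
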