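import Mathlib

/-!
Positivity of integer polynomials in two variables on the quadrant by their coefficient lists,
checked by the kernel.
-/

namespace Vale.Agent.P371.Five

/-- Integer polynomial expressions in two variables. -/
inductive Expr
  | A
  | T
  | const (n : ℤ)
  | add (e f : Expr)
  | mul (e f : Expr)

instance : Add Expr := ⟨Expr.add⟩
instance : Mul Expr := ⟨Expr.mul⟩
instance : Neg Expr := ⟨fun e => Expr.mul (Expr.const (-1)) e⟩
instance : Sub Expr := ⟨fun e f => Expr.add e (Expr.mul (Expr.const (-1)) f)⟩
instance (n : ℕ) : OfNat Expr n := ⟨Expr.const n⟩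

namespace Expr

/-- The value of an expression. -/
noncomputable def eval (a t : ℝ) : Expr → ℝ
  | A => a
  | T => t
  | const n => n
  | add e f => eval a t e + eval a t f
  | mul e f => eval a t e * eval a t f

variable (a t : ℝ) (e f : Expr)

@[simp] theorem eval_A : A.eval a t = a := rfl
@[simp] theorem eval_T : T.eval a t = t := rfl
@[simp] theorem eval_const (n : ℤ) : (const n).eval a t = n := rfl
@[simp] theorem eval_num (n : ℕ) : (no_index (OfNat.ofNat n) : Expr).eval a t = n := by
  show ((n : ℤ) : ℝ) = n
  simp
@[simp] theorem eval_add : (e + f).eval a t = e.eval a t + f.eval a t := rfl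
@[simp] theorem eval_mul : (e * f).eval a t = e.eval a t * f.eval a t := rfl
@[simp] theorem eval_neg : (-e).eval a t = -e.eval a t := by
  show ((-1 : ℤ) : ℝ) * e.eval a t = -e.eval a t
  simp
@[simp] theorem eval_sub : (e - f).eval a t = e.eval a t - f.eval a t := by
  show e.eval a t + ((-1 : ℤ) : ℝ) * f.eval a t = e.eval a t - f.eval a t
  simp [sub_eq_add_neg]

end Expr

/-- Sum of coefficient lists. -/
def addC : List ℤ → List ℤ → List ℤ
  | [], q => q
  | a :: p, [] => a :: p
  | a :: p, b :: q => (a + b) :: addC p q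

/-- Product of coefficient lists. -/
def mulC : List ℤ → List ℤ → List ℤ
  | [], _ => []
  | a :: p, q => addC (q.map (a * ·)) (0 :: mulC p q)

/-- Sum of coefficient tables. -/
def addT : List (List ℤ) → List (List ℤ) → List (List ℤ)
  | [], q => q
  | a :: p, [] => a :: p
  | a :: p, b :: q => addC a b :: addT p q

/-- Product of coefficient tables. -/
def mulT : List (List ℤ) → List (List ℤ) → List (List ℤ)
  | [], _ => []
  | a :: p, q => addT (q.map (mulC a)) ([] :: mulT p q)

/-- Coefficient table of an expression: rows by powers of the first variable. -/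
def Expr.coeffs : Expr → List (List ℤ)
  | .A => [[], [1]]
  | .T => [[0, 1]]
  | .const n => [[n]]
  | .add e f => addT e.coeffs f.coeffs
  | .mul e f => mulT e.coeffs f.coeffs

/-- Value of a coefficient list. -/
noncomputable def valC (t : ℝ) : List ℤ → ℝ
  | [] => 0
  | a :: p => a + t * valC t p

/-- Value of a coefficient table. -/
noncomputable def valT (a t : ℝ) : List (List ℤ) → ℝ
  | [] => 0
  | c :: p => valC t c + a * valT a t p

theorem valC_addC (t : ℝ) : ∀ p q, valC t (addC p q) = valC t p + valC t q
  | [], q => by simp [addC, valC]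
  | a :: p, [] => by simp [addC, valC]
  | a :: p, b :: q => by simp [addC, valC, valC_addC t p q]; ring

theorem valC_map (t : ℝ) (a : ℤ) : ∀ q, valC t (q.map (a * ·)) = a * valC t q
  | [] => by simp [valC]
  | b :: q => by simp [valC, valC_map t a q]; ring

theorem valC_mulC (t : ℝ) : ∀ p q, valC t (mulC p q) = valC t p * valC t q
  | [], q => by simp [mulC, valC]
  | a :: p, q => by simp [mulC, valC, valC_addC, valC_map, valC_mulC t p q]; ring

theorem valT_addT (a t : ℝ) : ∀ p q, valT a t (addT p q) = valT a t p + valT a t q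
  | [], q => by simp [addT, valT]
  | c :: p, [] => by simp [addT, valT]
  | c :: p, d :: q => by simp [addT, valT, valC_addC, valT_addT a t p q]; ring

theorem valT_map (a t : ℝ) (c : List ℤ) : ∀ q, valT a t (q.map (mulC c)) = valC t c * valT a t q
  | [] => by simp [valT]
  | d :: q => by simp [valT, valC_mulC, valT_map a t c q]; ring

theorem valT_mulT (a t : ℝ) : ∀ p q, valT a t (mulT p q) = valT a t p * valT a t q
  | [], q => by simp [mulT, valT]
  | c :: p, q => by simp [mulT, valT, valC, valT_addT, valT_map, valT_mulT a t p q]; ring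

theorem valT_coeffs (a t : ℝ) : ∀ e : Expr, valT a t e.coeffs = e.eval a t
  | .A => by simp [Expr.coeffs, valT, valC, Expr.eval]
  | .T => by simp [Expr.coeffs, valT, valC, Expr.eval]
  | .const n => by simp [Expr.coeffs, valT, valC, Expr.eval]
  | .add e f => by simp [Expr.coeffs, valT_addT, Expr.eval, valT_coeffs a t e, valT_coeffs a t f]
  | .mul e f => by simp [Expr.coeffs, valT_mulT, Expr.eval, valT_coeffs a t e, valT_coeffs a t f]

/-- All coefficients are nonnegative. -/
def nonnegT (p : List (List ℤ)) : Bool := p.all fun c => c.all fun x => decide (0 ≤ x)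

theorem valC_nonneg {t : ℝ} (ht : 0 ≤ t) :
    ∀ p : List ℤ, (∀ x ∈ p, 0 ≤ x) → 0 ≤ valC t p
  | [], _ => le_rfl
  | a :: p, h => by
    have h1 : (0 : ℝ) ≤ (a : ℝ) := by exact_mod_cast h a List.mem_cons_self
    have h2 := valC_nonneg ht p fun x hx => h x (List.mem_cons_of_mem a hx)
    simp only [valC]
    positivity

theorem valT_nonneg {a t : ℝ} (ha : 0 ≤ a) (ht : 0 ≤ t) :
    ∀ p : List (List ℤ), (∀ c ∈ p, ∀ x ∈ c, 0 ≤ x) → 0 ≤ valT a t p
  | [], _ => le_rfl
  | c :: p, h => by
    have h1 := valC_nonneg ht c (h c List.mem_cons_self)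
    have h2 := valT_nonneg ha ht p fun d hd => h d (List.mem_cons_of_mem c hd)
    simp only [valT]
    positivity

/-- A polynomial with nonnegative coefficients is nonnegative on the quadrant. -/
theorem Expr.eval_nonneg (e : Expr) (h : nonnegT e.coeffs = true) {a t : ℝ} (ha : 0 ≤ a)
    (ht : 0 ≤ t) : 0 ≤ e.eval a t := by
  rw [← valT_coeffs]
  refine valT_nonneg ha ht _ ?_
  simp only [nonnegT, List.all_eq_true, decide_eq_true_eq] at h
  exact h

end Vale.Agent.P371.Five
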