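import Vale.Agent.P371.Five.Instance
import Vale.Agent.P371.Five.FactP
import Vale.Agent.P371.Five.FactD
import Vale.Agent.P371.Five.FactTrap

/-!
All one-sided facts about the profile.
-/

namespace Vale.Agent.P371.Five

/-- The profile satisfies every one-sided fact used in the pair inequality. -/
theorem facts_prof : Facts phi dphi prof :=
  facts_of trap_fact facts_low facts_high monotoneOn_dinc ptD_le monotoneOn_dmax

end Vale.Agent.P371.Five
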