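import Vale.Agent.P371.Five.Const
import Vale.Agent.P371.Lifting

/-!
Optimality of the one-bound-state constant at exponent `5/4`: the potential `21/16 sech² x` with
cut-off copies of its ground state `(cosh x) ^ (-3/4)`.
-/

namespace Vale.Agent.P371.Five

open MeasureTheory Set Filter Topology Real

/-- `sech²`. -/
noncomputable def sechSq (x : ℝ) : ℝ := 1 / cosh x ^ 2

/-- The ground state. -/
noncomputable def gs (x : ℝ) : ℝ := cosh x ^ (-(3 / 4) : ℝ)

/-- The optimal potential. -/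
noncomputable def optW (x : ℝ) : ℝ := 21 / 16 * sechSq x

theorem hasDerivAt_th (x : ℝ) : HasDerivAt (fun x => sinh x / cosh x) (sechSq x) x := by
  refine ((hasDerivAt_sinh x).div (hasDerivAt_cosh x) (cosh_pos x).ne').congr_deriv ?_
  rw [sechSq]
  congr 1
  linear_combination cosh_sq x

theorem th_sq (x : ℝ) : (sinh x / cosh x) ^ 2 = 1 - sechSq x := by
  have := cosh_pos x
  rw [sechSq]
  field_simp
  linear_combination -cosh_sq x

theorem hasDerivAt_gs (x : ℝ) : HasDerivAt gs (-(3 / 4) * (sinh x / cosh x) * gs x) x := by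
  have hc := cosh_pos x
  refine ((hasDerivAt_cosh x).rpow_const (p := (-(3 / 4) : ℝ)) (Or.inl hc.ne')).congr_deriv ?_
  rw [gs, Real.rpow_sub hc, Real.rpow_one]
  ring

theorem continuous_gs : Continuous gs :=
  continuous_iff_continuousAt.2 fun x => (hasDerivAt_gs x).continuousAt

theorem gs_pos (x : ℝ) : 0 < gs x := Real.rpow_pos_of_pos (cosh_pos x) _

theorem cosh_mul_rpow (x : ℝ) (r : ℝ) :
    |cosh x| • (1 + sinh x ^ 2) ^ r = cosh x ^ (1 + 2 * r) := by
  have hc := cosh_pos x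
  rw [abs_of_pos hc, smul_eq_mul, ← cosh_sq', ← Real.rpow_natCast (cosh x) 2,
    ← Real.rpow_mul hc.le, Real.rpow_add hc, Real.rpow_one]
  norm_num

theorem image_sinh : sinh '' univ = (univ : Set ℝ) := by
  rw [image_univ]; exact sinh_surjective.range_eq

theorem integral_sinh_subst (r : ℝ) :
    ∫ t, (1 + t ^ 2) ^ r = ∫ x, cosh x ^ (1 + 2 * r) := by
  have h := integral_image_eq_integral_abs_deriv_smul (s := univ) MeasurableSet.univ
    (fun x _ => (hasDerivAt_sinh x).hasDerivWithinAt) sinh_injective.injOn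
    (fun t : ℝ => (1 + t ^ 2) ^ r)
  rw [image_sinh, setIntegral_univ, setIntegral_univ] at h
  rw [h]
  simp only [cosh_mul_rpow]

theorem integrable_sinh_subst {r : ℝ} (hr : r < -(1 / 2)) :
    Integrable fun x => cosh x ^ (1 + 2 * r) := by
  have h0 : Integrable fun t : ℝ => (1 + t ^ 2) ^ r := by
    have h := integrable_rpow_neg_one_add_norm_sq (E := ℝ) (μ := volume) (r := -2 * r)
      (by rw [Module.finrank_self]; push_cast; linarith)
    simp only [Real.norm_eq_abs, sq_abs] at h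
    simpa [show -(-2 * r) / 2 = r by ring] using h
  have h := (integrableOn_image_iff_integrableOn_abs_deriv_smul (s := univ) MeasurableSet.univ
    (fun x _ => (hasDerivAt_sinh x).hasDerivWithinAt) sinh_injective.injOn
    (fun t : ℝ => (1 + t ^ 2) ^ r)).1 (by rwa [image_sinh, integrableOn_univ])
  rw [integrableOn_univ] at h
  simpa only [cosh_mul_rpow] using h

theorem gs_sq (x : ℝ) : gs x ^ 2 = cosh x ^ (1 + 2 * (-(5 / 4) : ℝ)) := by
  rw [gs, ← Real.rpow_natCast, ← Real.rpow_mul (cosh_pos x).le]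
  norm_num

theorem integrable_gs_sq : Integrable fun x => gs x ^ 2 := by
  simp only [gs_sq]
  exact integrable_sinh_subst (by norm_num)

theorem optW_rpow (x : ℝ) :
    optW x ^ (7 / 4 : ℝ) = (21 / 16 : ℝ) ^ (7 / 4 : ℝ) * cosh x ^ (1 + 2 * (-(9 / 4) : ℝ)) := by
  have hc := cosh_pos x
  rw [optW, sechSq, Real.mul_rpow (by norm_num) (by positivity), one_div,
    Real.inv_rpow (by positivity), ← Real.rpow_natCast (cosh x) 2, ← Real.rpow_mul hc.le,
    ← Real.rpow_neg hc.le]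
  norm_num

theorem integrable_optW : Integrable fun x => optW x ^ (7 / 4 : ℝ) := by
  simp only [optW_rpow]
  exact (integrable_sinh_subst (by norm_num)).const_mul _

theorem integral_nine_quarters :
    ∫ t in Ioi (0 : ℝ), (1 + t ^ 2) ^ (-(9 / 4) : ℝ) = 3 / 5 * profInt := by
  have hd : ∀ t : ℝ, HasDerivAt (fun t : ℝ => t * (1 + t ^ 2) ^ (-(5 / 4) : ℝ))
      (5 / 2 * (1 + t ^ 2) ^ (-(9 / 4) : ℝ) - 3 / 2 * (1 + t ^ 2) ^ (-(5 / 4) : ℝ)) t := by
    intro t
    have hb : (0 : ℝ) < 1 + t ^ 2 := by positivity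
    have h1 : HasDerivAt (fun t : ℝ => 1 + t ^ 2) (2 * t) t := by
      simpa using (hasDerivAt_pow 2 t).const_add 1
    refine ((hasDerivAt_id' t).mul
      (h1.rpow_const (p := (-(5 / 4) : ℝ)) (Or.inl hb.ne'))).congr_deriv ?_
    have e : (1 + t ^ 2) ^ (-(5 / 4) : ℝ) = (1 + t ^ 2) ^ (-(9 / 4) : ℝ) * (1 + t ^ 2) := by
      rw [show (-(5 / 4) : ℝ) = -(9 / 4) + 1 by norm_num, Real.rpow_add hb, Real.rpow_one]
    rw [e, show (-(5 / 4) : ℝ) - 1 = -(9 / 4) by norm_num]
    ring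
  have hi : IntegrableOn (fun t : ℝ => (1 + t ^ 2) ^ (-(9 / 4) : ℝ)) (Ioi 0) := by
    have h := integrable_rpow_neg_one_add_norm_sq (E := ℝ) (μ := volume) (r := 9 / 2)
      (by norm_num)
    refine Integrable.integrableOn (h.congr (.of_forall fun t => ?_))
    simp only [Real.norm_eq_abs, sq_abs]; norm_num
  have hlim : Tendsto (fun t : ℝ => t * (1 + t ^ 2) ^ (-(5 / 4) : ℝ)) atTop (𝓝 0) := by
    refine squeeze_zero' (g := fun t : ℝ => (1 + t ^ 2) ^ (-(3 / 4) : ℝ))
      (by filter_upwards [eventually_ge_atTop (0 : ℝ)] with t ht using by positivity)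
      (by
        filter_upwards [eventually_ge_atTop (0 : ℝ)] with t ht
        have hb : (0 : ℝ) < 1 + t ^ 2 := by positivity
        rw [show (-(3 / 4) : ℝ) = 1 / 2 + -(5 / 4) by norm_num, Real.rpow_add hb,
          ← Real.sqrt_eq_rpow]
        exact mul_le_mul_of_nonneg_right (Real.le_sqrt_of_sq_le (by linarith)) (by positivity))
      ((tendsto_rpow_neg_atTop (by norm_num : (0 : ℝ) < 3 / 4)).comp
        (tendsto_atTop_add_const_left _ _ (tendsto_pow_atTop two_ne_zero)))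
  have h := integral_Ioi_of_hasDerivAt_of_tendsto' (a := (0 : ℝ)) (fun t _ => hd t)
    ((hi.const_mul _).sub (profInt_integrable.const_mul _)) hlim
  rw [integral_sub (hi.const_mul _) (profInt_integrable.const_mul _),
    MeasureTheory.integral_const_mul, MeasureTheory.integral_const_mul] at h
  simp only [zero_mul, sub_zero] at h
  rw [← profInt] at h
  linarith

theorem integral_optW :
    ∫ x, optW x ^ (7 / 4 : ℝ) = (21 / 16 : ℝ) ^ (7 / 4 : ℝ) * (6 / 5 * profInt) := by
  simp only [optW_rpow]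
  rw [MeasureTheory.integral_const_mul, ← integral_sinh_subst]
  congr 1
  have h := integral_comp_abs (f := fun t : ℝ => (1 + t ^ 2) ^ (-(9 / 4) : ℝ))
  simp only [sq_abs] at h
  rw [h, integral_nine_quarters]
  ring

theorem optimal_value :
    (9 / 16 : ℝ) ^ (5 / 4 : ℝ) = 2 * (3 / 7 : ℝ) ^ (3 / 4 : ℝ) *
        (Real.Gamma (9 / 4) / (2 * Real.sqrt Real.pi * Real.Gamma (11 / 4))) *
      ∫ x, optW x ^ (7 / 4 : ℝ) := by
  rw [integral_optW, profInt_eq]
  have g1 : Real.Gamma (9 / 4) = 5 / 4 * Real.Gamma (5 / 4) := by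
    rw [show (9 / 4 : ℝ) = 5 / 4 + 1 by norm_num, Real.Gamma_add_one (by norm_num)]
  have g2 : Real.Gamma (11 / 4) = 21 / 16 * Real.Gamma (3 / 4) := by
    rw [show (11 / 4 : ℝ) = 7 / 4 + 1 by norm_num, Real.Gamma_add_one (by norm_num),
      show (7 / 4 : ℝ) = 3 / 4 + 1 by norm_num, Real.Gamma_add_one (by norm_num)]
    ring
  have := Real.Gamma_pos_of_pos (by norm_num : (0 : ℝ) < 5 / 4)
  have := Real.Gamma_pos_of_pos (by norm_num : (0 : ℝ) < 3 / 4)
  have := Real.sqrt_pos.2 Real.pi_pos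
  have e : (9 / 16 : ℝ) ^ (5 / 4 : ℝ) = 4 / 7 *
      ((3 / 7 : ℝ) ^ (3 / 4 : ℝ) * (21 / 16 : ℝ) ^ (7 / 4 : ℝ)) := by
    rw [show (5 / 4 : ℝ) = 1 + 1 / 4 by norm_num, show (7 / 4 : ℝ) = 1 + 3 / 4 by norm_num,
      Real.rpow_add (by norm_num), Real.rpow_add (by norm_num), Real.rpow_one, Real.rpow_one,
      mul_left_comm ((3 / 7 : ℝ) ^ (3 / 4 : ℝ)), ← Real.mul_rpow (by norm_num) (by norm_num),
      show (3 / 7 : ℝ) * (21 / 16) = 9 / 16 by norm_num,
      show (3 / 4 : ℝ) = 1 / 2 + 1 / 4 by norm_num, Real.rpow_add (by norm_num),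
      ← Real.sqrt_eq_rpow, show (9 / 16 : ℝ) = (3 / 4) ^ 2 by norm_num,
      Real.sqrt_sq (by norm_num)]
    ring
  rw [g1, g2, e]
  field_simp
  ring

theorem continuous_optW : Continuous optW := by
  unfold optW sechSq
  exact continuous_const.mul
    (continuous_const.div (continuous_cosh.pow 2) fun x => (pow_pos (cosh_pos x) 2).ne')

theorem optW_nonneg (x : ℝ) : 0 ≤ optW x := by unfold optW sechSq; positivity

theorem hasCompactSupport_sq {f : ℝ → ℝ} (hf : HasCompactSupport f) :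
    HasCompactSupport fun x => f x ^ 2 := hf.comp_left (g := fun t : ℝ => t ^ 2) (by norm_num)

/-- The ground-state identity for a cut-off ground state. -/
theorem ground {χ χ' : ℝ → ℝ} (hd : ∀ x, HasDerivAt χ (χ' x) x) (hc : Continuous χ')
    (hs : HasCompactSupport χ) :
    ∃ v v' : ℝ → ℝ, v = (fun x => χ x * gs x) ∧ (∀ x, HasDerivAt v (v' x) x) ∧ Continuous v' ∧
      HasCompactSupport v ∧
      (∫ x, optW x * v x ^ 2) - ∫ x, v' x ^ 2 =
        9 / 16 * (∫ x, v x ^ 2) - ∫ x, (χ' x * gs x) ^ 2 := by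
  obtain ⟨th, hth⟩ : ∃ th : ℝ → ℝ, th = fun x => sinh x / cosh x := ⟨_, rfl⟩
  have hthd : ∀ x, HasDerivAt th (sechSq x) x := hth ▸ hasDerivAt_th
  have hgd : ∀ x, HasDerivAt gs (-(3 / 4) * th x * gs x) x := hth ▸ hasDerivAt_gs
  have hsq : ∀ x, th x ^ 2 = 1 - sechSq x := hth ▸ th_sq
  obtain ⟨w, hw⟩ : ∃ w : ℝ → ℝ, w = fun x => χ x * (-(3 / 4) * th x * gs x) := ⟨_, rfl⟩
  obtain ⟨v, hv⟩ : ∃ v : ℝ → ℝ, v = fun x => χ x * gs x := ⟨_, rfl⟩
  obtain ⟨v', hv'⟩ : ∃ v' : ℝ → ℝ, v' = fun x => χ' x * gs x + w x := ⟨_, rfl⟩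
  have hvd : ∀ x, HasDerivAt v (v' x) x := fun x => by
    rw [hv, hv', hw]; exact (hd x).mul (hgd x)
  have hχc : Continuous χ := continuous_iff_continuousAt.2 fun x => (hd x).continuousAt
  have hthc : Continuous th := continuous_iff_continuousAt.2 fun x => (hthd x).continuousAt
  have hwc : Continuous w := by
    rw [hw]; exact hχc.mul ((continuous_const.mul hthc).mul continuous_gs)
  have hv'c : Continuous v' := by rw [hv']; exact (hc.mul continuous_gs).add hwc
  have hvs : HasCompactSupport v := hv ▸ hs.mul_right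
  have hvc : Continuous v := continuous_iff_continuousAt.2 fun x => (hvd x).continuousAt
  have hv's : HasCompactSupport v' := by
    have : v' = deriv v := funext fun x => (hvd x).deriv.symm
    rw [this]; exact hvs.deriv
  have hχ's : HasCompactSupport χ' := by
    have : χ' = deriv χ := funext fun x => (hd x).deriv.symm
    rw [this]; exact hs.deriv
  refine ⟨v, v', hv, hvd, hv'c, hvs, ?_⟩
  have i1 : Integrable fun x => v x ^ 2 :=
    (hvc.pow 2).integrable_of_hasCompactSupport (hasCompactSupport_sq hvs)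
  have i2 : Integrable fun x => v' x ^ 2 :=
    (hv'c.pow 2).integrable_of_hasCompactSupport (hasCompactSupport_sq hv's)
  have i3 : Integrable fun x => (χ' x * gs x) ^ 2 :=
    ((hc.mul continuous_gs).pow 2).integrable_of_hasCompactSupport
      (hasCompactSupport_sq hχ's.mul_right)
  have i4 : Integrable fun x => optW x * v x ^ 2 :=
    (continuous_optW.mul (hvc.pow 2)).integrable_of_hasCompactSupport
      ((hasCompactSupport_sq hvs).mul_left (f := optW))
  obtain ⟨F', hF'⟩ : ∃ F' : ℝ → ℝ, F' = fun x =>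
      9 / 16 * v x ^ 2 - (χ' x * gs x) ^ 2 - (optW x * v x ^ 2 - v' x ^ 2) := ⟨_, rfl⟩
  have hFd : ∀ x, HasDerivAt (fun x => v x * w x) (F' x) x := fun x => by
    have h := (hvd x).mul ((hd x).mul (((hthd x).const_mul (-(3 / 4) : ℝ)).mul (hgd x)))
    have e := hsq x
    rw [hw, hF']
    refine h.congr_deriv ?_
    simp only [hv, hv', hw, optW, Pi.mul_apply]
    linear_combination (9 / 16 * (χ x * gs x) ^ 2) * e
  have h0 : ∫ x, F' x = 0 := by
    refine integral_eq_zero_of_hasDerivAt_of_integrable hFd ?_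
      ((hvc.mul hwc).integrable_of_hasCompactSupport hvs.mul_right)
    rw [hF']; exact ((i1.const_mul _).sub i3).sub (i4.sub i2)
  rw [hF', integral_sub, integral_sub, integral_sub i4 i2, MeasureTheory.integral_const_mul] at h0
  · linarith
  · exact i1.const_mul _
  · exact i3
  · exact (i1.const_mul _).sub i3
  · exact i4.sub i2

/-- A normalised trial function from a cut-off equal to one on `[-1, 1]`. -/
theorem trial {χ χ' : ℝ → ℝ} (hd : ∀ x, HasDerivAt χ (χ' x) x) (hc : Continuous χ')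
    (hs : HasCompactSupport χ) (h1 : ∀ x ∈ Icc (-1 : ℝ) 1, χ x = 1) {E : ℝ} (hE0 : 0 ≤ E)
    (hE : ∫ x, (χ' x * gs x) ^ 2 ≤ E * ∫ x in Icc (-1 : ℝ) 1, gs x ^ 2) :
    ∃ u : ℝ → ℂ, ContDiff ℝ 1 u ∧ HasCompactSupport u ∧ ∫ x, ‖u x‖ ^ 2 = 1 ∧
      9 / 16 - E ≤ energy optW u := by
  obtain ⟨v, v', hv, hvd, hv'c, hvs, hid⟩ := ground hd hc hs
  have hvc : Continuous v := continuous_iff_continuousAt.2 fun x => (hvd x).continuousAt
  have i1 : Integrable fun x => v x ^ 2 :=
    (hvc.pow 2).integrable_of_hasCompactSupport (hasCompactSupport_sq hvs)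
  obtain ⟨N, hN⟩ : ∃ N, N = ∫ x, v x ^ 2 := ⟨_, rfl⟩
  have hge : ∫ x in Icc (-1 : ℝ) 1, gs x ^ 2 ≤ N := by
    rw [hN]
    refine le_trans (le_of_eq ?_)
      (setIntegral_le_integral (s := Icc (-1 : ℝ) 1) i1 (.of_forall fun x => sq_nonneg _))
    exact setIntegral_congr_fun measurableSet_Icc fun x hx => by simp [hv, h1 x hx]
  have h0 : 0 < ∫ x in Icc (-1 : ℝ) 1, gs x ^ 2 := by
    rw [integral_Icc_eq_integral_Ioc, ← intervalIntegral.integral_of_le (by norm_num)]
    exact intervalIntegral.intervalIntegral_pos_of_pos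
      ((continuous_gs.pow 2).intervalIntegrable _ _) (fun x => pow_pos (gs_pos x) 2) (by norm_num)
  have hNp : 0 < N := h0.trans_le hge
  refine ⟨fun x => ((v x / Real.sqrt N : ℝ) : ℂ), ?_, ?_, ?_, ?_⟩
  · have hud : ∀ x, HasDerivAt (fun x => ((v x / Real.sqrt N : ℝ) : ℂ))
        ((v' x / Real.sqrt N : ℝ) : ℂ) x := fun x => ((hvd x).div_const _).ofReal_comp
    refine contDiff_one_iff_deriv.2 ⟨fun x => (hud x).differentiableAt, ?_⟩
    rw [funext fun x => (hud x).deriv]
    exact Complex.continuous_ofReal.comp (hv'c.div_const _)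
  · exact hvs.comp_left (g := fun t : ℝ => ((t / Real.sqrt N : ℝ) : ℂ)) (by simp)
  · simp only [Complex.norm_real, Real.norm_eq_abs, sq_abs, div_pow, Real.sq_sqrt hNp.le]
    rw [integral_div, ← hN, div_self hNp.ne']
  · have hud : ∀ x, deriv (fun x => ((v x / Real.sqrt N : ℝ) : ℂ)) x =
        ((v' x / Real.sqrt N : ℝ) : ℂ) := fun x => ((hvd x).div_const _).ofReal_comp.deriv
    simp only [energy, hud, Complex.norm_real, Real.norm_eq_abs, sq_abs, div_pow,
      Real.sq_sqrt hNp.le, ← mul_div_assoc]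
    rw [integral_div, integral_div, div_sub_div_same, le_div_iff₀ hNp, hid, ← hN]
    nlinarith [mul_le_mul_of_nonneg_left hge hE0]

/-- Any constant valid for all potentials and one normalised trial function is at least the
one-bound-state constant at exponent `5/4`. -/
theorem sharp_five {L : ℝ}
    (hL : ∀ (W : ℝ → ℝ), Measurable W → (∀ x, 0 ≤ W x) →
      (Integrable fun x => W x ^ (7 / 4 : ℝ)) → ∀ u : ℝ → ℂ, ContDiff ℝ 1 u → HasCompactSupport u →
      ∫ x, ‖u x‖ ^ 2 = 1 → max 0 (energy W u) ^ (5 / 4 : ℝ) ≤ L * ∫ x, W x ^ (7 / 4 : ℝ)) :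
    2 * (3 / 7 : ℝ) ^ (3 / 4 : ℝ) *
      (Real.Gamma (9 / 4) / (2 * Real.sqrt Real.pi * Real.Gamma (11 / 4))) ≤ L := by
  obtain ⟨b, hb⟩ : ∃ b : ContDiffBump (0 : ℝ), b = ⟨1, 2, one_pos, one_lt_two⟩ := ⟨_, rfl⟩
  have hb1 : ContDiff ℝ 1 (b : ℝ → ℝ) := b.contDiff
  have hbd : Continuous (deriv (b : ℝ → ℝ)) := hb1.continuous_deriv le_rfl
  obtain ⟨C, hC⟩ := hbd.bounded_above_of_compact_support b.hasCompactSupport.deriv
  have hbv : ∀ x, |x| ≤ 1 → b x = 1 := fun x hx => by
    refine b.one_of_mem_closedBall ?_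
    simpa [hb] using hx
  obtain ⟨N0, hN0⟩ : ∃ N0, N0 = ∫ x in Icc (-1 : ℝ) 1, gs x ^ 2 := ⟨_, rfl⟩
  have hN0p : 0 < N0 := by
    rw [hN0, integral_Icc_eq_integral_Ioc, ← intervalIntegral.integral_of_le (by norm_num)]
    exact intervalIntegral.intervalIntegral_pos_of_pos
      ((continuous_gs.pow 2).intervalIntegrable _ _) (fun x => pow_pos (gs_pos x) 2) (by norm_num)
  obtain ⟨M, hM⟩ : ∃ M, M = C ^ 2 * (∫ x, gs x ^ 2) / N0 := ⟨_, rfl⟩
  have hG : 0 ≤ ∫ x, gs x ^ 2 := integral_nonneg fun x => sq_nonneg _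
  have key : ∀ n : ℕ, max 0 (9 / 16 - M / ((n : ℝ) + 1) ^ 2) ^ (5 / 4 : ℝ) ≤
      L * ∫ x, optW x ^ (7 / 4 : ℝ) := by
    intro n
    obtain ⟨k, hk⟩ : ∃ k : ℝ, k = (n : ℝ) + 1 := ⟨_, rfl⟩
    have hk0 : 0 < k := by rw [hk]; positivity
    have hk1 : 1 ≤ k := by rw [hk]; linarith [Nat.cast_nonneg (α := ℝ) n]
    rw [← hk]
    have hd : ∀ x, HasDerivAt (fun x => b (x / k)) (deriv (b : ℝ → ℝ) (x / k) / k) x := fun x => by
      have h2 : HasDerivAt (b : ℝ → ℝ) (deriv (b : ℝ → ℝ) (x / k)) (x / k) :=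
        (hb1.differentiable one_ne_zero (x / k)).hasDerivAt
      have h3 : HasDerivAt (fun x : ℝ => x / k) (1 / k) x := (hasDerivAt_id' x).div_const k
      refine (h2.comp x h3).congr_deriv ?_
      ring
    have hc : Continuous fun x => deriv (b : ℝ → ℝ) (x / k) / k :=
      (hbd.comp (continuous_id.div_const k)).div_const k
    have hs : HasCompactSupport fun x => b (x / k) := by
      have := b.hasCompactSupport.comp_homeomorph (Homeomorph.mulRight₀ k⁻¹ (inv_ne_zero hk0.ne'))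
      simpa [Function.comp_def, div_eq_mul_inv] using this
    have hE : ∫ x, (deriv (b : ℝ → ℝ) (x / k) / k * gs x) ^ 2 ≤ M / k ^ 2 * N0 := by
      have e : M / k ^ 2 * N0 = C ^ 2 / k ^ 2 * ∫ x, gs x ^ 2 := by rw [hM]; field_simp
      rw [e, ← MeasureTheory.integral_const_mul]
      refine integral_mono_of_nonneg (.of_forall fun x => sq_nonneg _)
        (integrable_gs_sq.const_mul _) (.of_forall fun x => ?_)
      simp only [mul_pow, div_pow]
      have h := hC (x / k)
      rw [Real.norm_eq_abs] at h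
      have h2 := pow_le_pow_left₀ (abs_nonneg _) h 2
      rw [sq_abs] at h2
      gcongr
    obtain ⟨u, hu1, hu2, hu3, hu4⟩ := trial hd hc hs
      (fun x hx => hbv _ (by
        rw [abs_div, abs_of_pos hk0, div_le_one hk0]
        exact (abs_le.2 hx).trans hk1))
      (by rw [hM]; positivity) (hN0 ▸ hE)
    exact le_trans (Real.rpow_le_rpow (le_max_left _ _) (max_le_max le_rfl hu4) (by norm_num))
      (hL optW continuous_optW.measurable optW_nonneg integrable_optW u hu1 hu2 hu3)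
  have hlim : Tendsto (fun n : ℕ => max 0 (9 / 16 - M / ((n : ℝ) + 1) ^ 2) ^ (5 / 4 : ℝ)) atTop
      (𝓝 ((9 / 16 : ℝ) ^ (5 / 4 : ℝ))) := by
    have h1 : Tendsto (fun n : ℕ => M / ((n : ℝ) + 1) ^ 2) atTop (𝓝 0) :=
      tendsto_const_nhds.div_atTop ((tendsto_pow_atTop two_ne_zero).comp
        (tendsto_atTop_add_const_right _ 1 tendsto_natCast_atTop_atTop))
    have h2 := ((tendsto_const_nhds (x := (0 : ℝ))).max
      ((tendsto_const_nhds (x := (9 / 16 : ℝ))).sub h1)).rpow_const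
        (p := (5 / 4 : ℝ)) (Or.inr (by norm_num))
    simpa [max_eq_right (by norm_num : (0 : ℝ) ≤ 9 / 16)] using h2
  have h := le_of_tendsto' hlim key
  rw [optimal_value] at h
  refine le_of_mul_le_mul_right h ?_
  have := Real.Gamma_pos_of_pos (by norm_num : (0 : ℝ) < 5 / 4)
  have := Real.Gamma_pos_of_pos (by norm_num : (0 : ℝ) < 3 / 4)
  have := Real.sqrt_pos.2 Real.pi_pos
  rw [integral_optW, profInt_eq]
  positivity

end Vale.Agent.P371.Five
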